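/-
Row 258 (S0498), block [S5a] = base.tex l.30-420 (Lemma 5.1 low-scale sum, Cor. 5.2 predictor list, Lemma 5.3 delayed predictor replacement).
Architect: helper192.   EXPORT: `s5a_pair` (S5/Pair.lean).     FILE Defs: all definitions of the block.

NOTATION.  `y_l = x + l t`;  `a ≠ b` the two free slots, `κ = b - a`, `(u,v) = (y_a,y_b)`, `t = (v-u)/κ`;  `r = |I| = 2^{-s}`, `s = I.depth`.

DESIGN (deviations from the paper, all simplifications; every constant was re-derived by hand):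
(1) two-input forms with a general bounded multiplier `G(x,t)`: `s5a_formG`; `s4a_form2 I w a b Q f g = s5a_formG I w a b (fun p => Q p.2) f g` (rfl).
(2) the inputs are sequences of SCALAR functions `Cell → ℝ → ℂ`.  The only thing used about an admissible sequence is `s5a_SRow J p M`:
    every finite system of local `L²` rows with Bessel constant `𝔅` satisfies `∑_ν |⟨ρ_ν, p_{u(ν)}⟩|² ≤ 𝔅 M²`
    (fixed input: Bessel; current projection: Lemma 3.4 = `s3_compression`; energy sequence: Bessel cell by cell).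
(3) the only thing used about the delayed residual times a predictor multiplier is `s5a_Small J d η0 η1` (moments against smooth bumps).
(4) tensor decomposition of an admissible kernel: `w(x,t) = ∑_{ℓ ∈ ℤ²} A_ℓ bump_{I,ℓ0}(y_a) bump_{I,ℓ1}(y_b)` with the EXPLICIT mean-zero bumps
    `s5a_bump c0 I k u = sh_k((u - mid I)/|I|)`, `sh_k = χ e_k - (m_k/m_0) χ` (no double primitive, no termwise differentiation).
(5) Bessel estimates on the frequency side: `∑_{|I| = r} |∫ om_I e(ν·) g|² ≤ 2 S² r ∫ |ĝ(ζ)|² k0(2π r (ζ+ν)) dζ`, `k0(x) = min(x², x⁻²)`.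
(6) PERSISTENCE: if the Weyl alternative holds at a scale `r₁` with the projection `Pf`, the expansion of Lemma 4.4 holds with the SAME `Pf`, `R`, `a_ℓ`, `λ_*`
    on `|t| ≤ 2 r₁`, hence at all finer scales.  So each band of scales uses ONE expansion `s5a_Str` (no pooling over `Pf`, no scale dependent coefficients).
-/
import Claimed.Agent.R258.Pack006
import Claimed.Agent.R258.Pack012

set_option autoImplicit false
open MeasureTheory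
open scoped ENNReal ContDiff ComplexConjugate

namespace Claimed.Agent.R258

/-! ## Two-input forms -/

/-- `κ = b - a` -/
def s5a_kap (a b : Fin 4) : ℝ := (b : ℝ) - (a : ℝ)

/-- the two-input integral with kernel `w(x,t) G(x,t)`: `|I|^{-2} ∫∫ w G f(x + a t) g(x + b t) dx dt` -/
noncomputable def s5a_formG (I : Cell) (w : ℝ × ℝ → ℂ) (a b : Fin 4) (G : ℝ × ℝ → ℂ) (f g : ℝ → ℂ) : ℂ :=
  ((I.len ^ 2)⁻¹ : ℝ) * ∫ p : ℝ × ℝ, w p * G p * f (p.1 + (a : ℝ) * p.2) * g (p.1 + (b : ℝ) * p.2)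

theorem s5a_form2_eq (I : Cell) (w : ℝ × ℝ → ℂ) (a b : Fin 4) (Q f g : ℝ → ℂ) :
    s4a_form2 I w a b Q f g = s5a_formG I w a b (fun p => Q p.2) f g := rfl

/-- the absolute length-weighted scale sum -/
noncomputable def s5a_sum (A : Finset Cell) (w : Cell → ℝ × ℝ → ℂ) (a b : Fin 4) (G : Cell → ℝ × ℝ → ℂ)
    (f g : Cell → ℝ → ℂ) : ℝ :=
  ∑ I ∈ A, I.len * ‖s5a_formG I (w I) a b (G I) (f I) (g I)‖

/-- standing hypotheses: finitely many cells below `J` with admissible kernels, two distinct slots -/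
structure s5a_Std (c0 C0 : ℝ) (J : Cell) (A : Finset Cell) (w : Cell → ℝ × ℝ → ℂ) (a b : Fin 4) : Prop where
  c0_pos : 0 < c0
  C0_ge : 1 ≤ C0
  ne : a ≠ b
  le : ∀ I ∈ A, I ≤ J
  adm : ∀ I ∈ A, Admissible c0 C0 I (w I)

theorem s5a_Std.mono {c0 C0 : ℝ} {J : Cell} {A A' : Finset Cell} {w : Cell → ℝ × ℝ → ℂ} {a b : Fin 4}
    (h : s5a_Std c0 C0 J A w a b) (hA : A' ⊆ A) : s5a_Std c0 C0 J A' w a b :=
  ⟨h.c0_pos, h.C0_ge, h.ne, fun I hI => h.le I (hA hI), fun I hI => h.adm I (hA hI)⟩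

/-! ## Bumps -/

/-- midpoint of a cell -/
noncomputable def s5a_mid (I : Cell) : ℝ := I.left + I.len / 2

/-- a smooth bump adapted to `I`: supported in the open cell, `|om| ≤ S`, `|om'| ≤ S/|I|` -/
structure s5a_Bump (I : Cell) (S : ℝ) (om : ℝ → ℂ) : Prop where
  smooth : ContDiff ℝ ∞ om
  supp : ∀ u, om u ≠ 0 → I.left < u ∧ u < I.right
  bd : ∀ u, ‖om u‖ ≤ S
  der : ∀ u, ‖deriv om u‖ ≤ S / I.len

/-- the margin used for the cutoffs -/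
noncomputable def s5a_c1 (c0 : ℝ) : ℝ := min c0 (1 / 4)

/-- the cutoff: `1` for `|p| ≤ 1/2 - c1`, `0` for `|p| ≥ 1/2 - c1/2` -/
noncomputable def s5a_chi (c0 p : ℝ) : ℝ :=
  Real.smoothTransition ((1 / 2 - s5a_c1 c0 / 2 - p) * (2 / s5a_c1 c0)) *
    Real.smoothTransition ((1 / 2 - s5a_c1 c0 / 2 + p) * (2 / s5a_c1 c0))

/-- `m_k = ∫ χ(p) e(k p) dp` -/
noncomputable def s5a_mom (c0 : ℝ) (k : ℤ) : ℂ := ∫ p : ℝ, (s5a_chi c0 p : ℂ) * ee ((k : ℝ) * p)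

/-- the mean-zero shape `sh_k = χ e_k - (m_k / m_0) χ` -/
noncomputable def s5a_sh (c0 : ℝ) (k : ℤ) (p : ℝ) : ℂ :=
  (s5a_chi c0 p : ℂ) * ee ((k : ℝ) * p) - s5a_mom c0 k / s5a_mom c0 0 * (s5a_chi c0 p : ℂ)

/-- the mean-zero bump of shape `k` on the cell `I` -/
noncomputable def s5a_bump (c0 : ℝ) (I : Cell) (k : ℤ) (u : ℝ) : ℂ := s5a_sh c0 k ((u - s5a_mid I) / I.len)

/-- the normalized modulated row `|I|^{-1/2} ∫ bump_{I,k}(u) e(ν u) f(u) du` -/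
noncomputable def s5a_rw (c0 : ℝ) (I : Cell) (k : ℤ) (ν : ℝ) (f : ℝ → ℂ) : ℂ :=
  ((Real.sqrt I.len)⁻¹ : ℝ) * ∫ u : ℝ, s5a_bump c0 I k u * ee (ν * u) * f u

/-- the frequency profile `k0(x) = min(x², x⁻²)` of a mean-zero bump -/
noncomputable def s5a_k0 (x : ℝ) : ℝ := min (x ^ 2) ((x ^ 2)⁻¹)

/-! ## Sequences -/

/-- **row bound**: every finite system of local `L²` rows with Bessel constant `𝔅`, applied to the sequence `p`, has square sum `≤ 𝔅 M²` -/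
structure s5a_SRow (J : Cell) (p : Cell → ℝ → ℂ) (M : ℝ) : Prop where
  nonneg : 0 ≤ M
  meas : ∀ I, Measurable (p I)
  mem : ∀ I, MemLp (p I) 2 volume
  rows : ∀ (ι : Type) (s : Finset ι) (u : ι → Cell) (ρ : ι → ℝ → ℂ) (𝔅 : ℝ), 0 ≤ 𝔅 → (∀ ν ∈ s, u ν ≤ J) →
    (∀ ν ∈ s, MemLp (ρ ν) 2 volume) → (∀ ν ∈ s, ∀ y, y ∉ (u ν).set → ρ ν y = 0) →
    (∀ g : ℝ → ℂ, MemLp g 2 volume → ∑ ν ∈ s, ‖∫ y, ρ ν y * g y‖ ^ 2 ≤ 𝔅 * ∫ y, ‖g y‖ ^ 2) →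
    ∑ ν ∈ s, ‖∫ y, ρ ν y * p (u ν) y‖ ^ 2 ≤ 𝔅 * M ^ 2

/-- **predictor smallness**: moments of `d I` against smooth bumps on `I`;
`X0` (mean-zero bumps) is square summable over ALL cells below `J`, `X1` (all bumps) over antichains -/
structure s5a_Small (J : Cell) (d : Cell → ℝ → ℂ) (η0 η1 : ℝ) : Prop where
  nonneg0 : 0 ≤ η0
  nonneg1 : 0 ≤ η1
  meas : ∀ I, Measurable (d I)
  mem : ∀ I, MemLp (d I) 2 volume
  ex : ∃ X0 X1 : Cell → ℝ, (∀ I, 0 ≤ X0 I) ∧ (∀ I, 0 ≤ X1 I) ∧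
    (∀ I, I ≤ J → ∀ (om : ℝ → ℂ) (S : ℝ), s5a_Bump I S om → ∫ u, om u = 0 →
      ‖∫ u, om u * d I u‖ ≤ S * Real.sqrt I.len * X0 I) ∧
    (∀ I, I ≤ J → ∀ (om : ℝ → ℂ) (S : ℝ), s5a_Bump I S om → ‖∫ u, om u * d I u‖ ≤ S * Real.sqrt I.len * X1 I) ∧
    (∀ A : Finset Cell, (∀ I ∈ A, I ≤ J) → ∑ I ∈ A, X0 I ^ 2 ≤ η0 ^ 2) ∧
    (∀ A : Finset Cell, (∀ I ∈ A, I ≤ J) → IsAntichain (· ≤ ·) (A : Set Cell) → ∑ I ∈ A, X1 I ^ 2 ≤ η1 ^ 2)

/-! ## Structure of a chart atom on `|t| ≤ 2 r₁` -/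

/-- the frequencies `σ_ℓ = ℓ·θ / R` -/
noncomputable def s5a_sig (Q : Chart) (R : ℕ) (l : Fin Q.d → ℤ) : ℝ := ∑ i, (l i : ℝ) * Q.th i / (R : ℝ)

/-- the box `‖ℓ‖_∞ ≤ T` -/
noncomputable def s5a_box (d T : ℕ) : Finset (Fin d → ℤ) := Fintype.piFinset fun _ => Finset.Icc (-(T : ℤ)) (T : ℤ)

/-- `Q(t) = e(λ_* t² + β t) ∑_ℓ a_ℓ e(σ_ℓ t)` for `|t| ≤ 2 r₁`, with all budgets `≤ D` -/
structure s5a_Str (Q : Chart) (D r₁ lam : ℝ) (R : ℕ) (al : (Fin Q.d → ℤ) → ℂ) : Prop where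
  lam_le : |lam| * r₁ ^ 2 ≤ D
  R_pos : 1 ≤ R
  R_le : (R : ℝ) ≤ D
  summ : Summable fun l => ‖al l‖ * (1 + ‖l‖)
  sum_le : ∑' l, ‖al l‖ * (1 + ‖l‖) ≤ D
  exp : ∀ t : ℝ, |t| ≤ 2 * r₁ →
    HasSum (fun l => al l * ee (s5a_sig Q R l * t)) (ee (-(lam * t ^ 2 + Q.bet * t)) * Q.eval t)

/-- the depth `s` is NOT exceptional: the effective quadratic is tiny and every difference of two centres of the box `T` is tiny or huge -/
def s5a_Good (Q : Chart) (R : ℕ) (lam : ℝ) (T : ℕ) (ε : ℝ) (s : ℤ) : Prop :=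
  |lam| * ((2 : ℝ) ^ (-s)) ^ 2 < ε ∧
    ∀ k ∈ s5a_box Q.d (2 * T), (2 : ℝ) ^ (-s) * |s5a_sig Q R k| < ε ∨ 1 / ε < (2 : ℝ) ^ (-s) * |s5a_sig Q R k|

/-! ## Interfaces with block [S4a] (helper78) -/

/-- **Lemma 4.5 (progression separation)** in the form consumed here: `h τ` = complexity of the term `τ` -/
def s5a_APSep : Prop :=
  ∃ C : ℕ, 1 ≤ C ∧ ∀ i j a b : Fin 4, slot4 i j a b → ∀ (φ φ' : Chart) (H : ℝ), φ.Cplx H → φ'.Cplx H → φ.Bdd → φ'.Bdd →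
    ∃ (ι : Type) (_ : Countable ι) (c : ι → ℂ) (ψa ψb Q : ι → Chart) (h : ι → ℝ),
      (∀ τ, (ψa τ).Cplx (h τ) ∧ (ψb τ).Cplx (h τ) ∧ (Q τ).Cplx (h τ) ∧ (ψa τ).Bdd ∧ (ψb τ).Bdd ∧ (Q τ).Bdd) ∧
      Summable (fun τ => ‖c τ‖ * h τ ^ ((C : ℝ)⁻¹)) ∧
      ∑' τ, ‖c τ‖ * h τ ^ ((C : ℝ)⁻¹) ≤ s4b_qp C (Real.log H) ∧
      (∀ X : ℝ, 1 ≤ X → {τ | h τ ≤ X}.Finite ∧ ({τ | h τ ≤ X}.ncard : ℝ) ≤ s4b_qp C (Real.log H + Real.log X)) ∧
      ∀ x t : ℝ, HasSum (fun τ => c τ * (ψa τ).eval (x + (a : ℝ) * t) * (ψb τ).eval (x + (b : ℝ) * t) * (Q τ).eval t)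
        (φ.eval (x + (i : ℝ) * t) * φ'.eval (x + (j : ℝ) * t))

/-- **Lemma 4.6, first part (single-scale bound `C A_r`)** -/
def s5a_SS (c0 C0 : ℝ) : Prop :=
  ∃ C : ℝ, 0 ≤ C ∧ ∀ (I : Cell) (w : ℝ × ℝ → ℂ) (a b : Fin 4), a ≠ b → Admissible c0 C0 I w →
    ∀ Q f g : ℝ → ℂ, Continuous Q → (∀ t, ‖Q t‖ ≤ 1) → Measurable f → Measurable g → MemLp f 2 volume → MemLp g 2 volume →
      I.len * ‖s4a_form2 I w a b Q f g‖ ≤
        C * s4a_Ar Q I.len * Real.sqrt (∫ y in I.set, ‖f y‖ ^ 2) * Real.sqrt (∫ y in I.set, ‖g y‖ ^ 2)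

end Claimed.Agent.R258
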