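/-
Row 258, block [S5a] (architect helper192).  FILE Hb = leaf P-S5a-HB: counting of scales from the height bins (Lemma 3.5), i.e. from `s8c_packets` (S8c/Exc.lean, helper61; use its STATEMENT).   No paper.

* `s5a_hb`: `s8c_packets Θ Hh hH 1` gives `≤ card ι` numbers `α_p` with `log₂ |a·Θ| ∈ [α_p, α_p + W]`, `W = log₂ (d Cr + 1)`, for every `a` of height `≤ Hh` with `a·Θ ≠ 0`.
  `α ≤ 2^{-s} E ≤ β`  (so `E > 0`)  iff  `log₂ E - log₂ β ≤ s ≤ log₂ E - log₂ α`, hence `s ∈ [α_p - log₂ β, α_p + W - log₂ α]`: an interval of length `W + log₂(β/α)` contains at most `W + log₂(β/α) + 1` integers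
  (`Int.card_Icc`, `Int.ceil`/`Int.floor`: the set is contained in `⋃_p Finset.Icc ⌈α_p - log₂ β⌉ ⌊α_p + W - log₂ α⌋`; `Set.ncard_le_ncard`, `Finset.card_biUnion_le`).
* `s5a_exc_count`: `¬ Good` means (i) `ε ≤ |lam| 4^{-s}` or (ii) some `k` in the box `2T` with `ε ≤ 2^{-s}|σ_k| ≤ 1/ε`.
  (i) with `2^{-s} ≤ r₁`: `ε ≤ |lam| 4^{-s} ≤ |lam| r₁² ≤ D`; so `lam ≠ 0` and `4^{-s} ∈ [ε/|lam|, D/|lam|]`: at most `log₄(D/ε) + 1 ≤ log₂(D/ε) + 2` integers.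
  (ii) `s5a_hb` with `ι = Fin Q.d`, `Θ i = Q.th i / R`, `a i = (k i : ℚ)` (height `max |k i| 1 ≤ 2T`; `s8cHt`, `Rat.num_intCast`, `Rat.den_intCast`), `s8cEv a Θ = s5a_sig Q R k`, `α = ε`, `β = 1/ε`: `log₂(β/α) = 2 log₂(1/ε)`.
* `s5a_shell_count`: `s5a_hb` with `ι = Option (Fin Q.d)` (`card = d + 1`), `Θ none = ζ + Q.bet/κ`, `Θ (some i) = Q.th i / R / κ`, `a none = 1`, `a (some i) = l i`, height `≤ T` (`1 ≤ T`), `α = 2^ℓ`, `β = 2^{ℓ+1}`, `log₂(β/α) = 1`  (`Fintype.sum_option`).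
-/
import Claimed.Agent.R258.S5a.Defs
import Claimed.Agent.R258.S8c.Exc

set_option autoImplicit false

namespace Claimed.Agent.R258

theorem s5a_logb_two_zpow (n : ℤ) : Real.logb 2 ((2 : ℝ) ^ n) = n := by
  rw [← Real.rpow_intCast, Real.logb_rpow (by norm_num) (by norm_num)]

/-- number of integers in a real interval -/
theorem s5a_card_Icc_le (u v : ℝ) (h : 0 ≤ v - u + 1) : ((Finset.Icc ⌈u⌉ ⌊v⌋).card : ℝ) ≤ v - u + 1 := by
  rw [Int.card_Icc]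
  rcases le_total (⌊v⌋ + 1 - ⌈u⌉) 0 with h0 | h0
  · rw [Int.toNat_of_nonpos h0]
    simpa using h
  · have h1 : (((⌊v⌋ + 1 - ⌈u⌉).toNat : ℤ) : ℝ) = ((⌊v⌋ + 1 - ⌈u⌉ : ℤ) : ℝ) := by rw [Int.toNat_of_nonneg h0]
    have h2 : (((⌊v⌋ + 1 - ⌈u⌉).toNat : ℤ) : ℝ) = ((⌊v⌋ + 1 - ⌈u⌉).toNat : ℝ) := by norm_cast
    rw [← h2, h1]
    push_cast
    have := Int.floor_le v
    have := Int.le_ceil u
    linarith

/-- Lemma 3.5 (2): number of dyadic scales at which some evaluation of height `≤ Hh` lies in `[α, β]` -/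
theorem s5a_hb {ι : Type} [Fintype ι] (Θ : ι → ℝ) (Hh : ℕ) (hH : 1 ≤ Hh) (α β : ℝ) (hα : 0 < α) (hαβ : α ≤ β) :
    {s : ℤ | ∃ a : ι → ℚ, s8cHtLe Hh a ∧ α ≤ (2 : ℝ) ^ (-s) * |s8cEv a Θ| ∧ (2 : ℝ) ^ (-s) * |s8cEv a Θ| ≤ β}.Finite ∧
    ({s : ℤ | ∃ a : ι → ℚ, s8cHtLe Hh a ∧ α ≤ (2 : ℝ) ^ (-s) * |s8cEv a Θ| ∧
        (2 : ℝ) ^ (-s) * |s8cEv a Θ| ≤ β}.ncard : ℝ) ≤
      (Fintype.card ι : ℝ) * (Real.logb 2 ((Fintype.card ι : ℝ) * (s8cCr (Fintype.card ι) Hh : ℝ) + 1) +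
        Real.logb 2 (β / α) + 1) := by
  classical
  set W : ℝ := Real.logb 2 ((Fintype.card ι : ℝ) * (s8cCr (Fintype.card ι) Hh : ℝ) + 1) with hW
  have hW0 : 0 ≤ W := Real.logb_nonneg (by norm_num) (by
    have : (0 : ℝ) ≤ (Fintype.card ι : ℝ) * (s8cCr (Fintype.card ι) Hh : ℝ) := by positivity
    linarith)
  have hβ : 0 < β := lt_of_lt_of_le hα hαβ
  have hΛ : Real.logb 2 (β / α) = Real.logb 2 β - Real.logb 2 α := Real.logb_div hβ.ne' hα.ne'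
  have hΛ0 : 0 ≤ Real.logb 2 (β / α) := Real.logb_nonneg (by norm_num) (by rwa [le_div_iff₀ hα, one_mul])
  obtain ⟨packets, hcard, hp⟩ := s8c_packets Θ Hh hH 1 one_pos
  set T : Finset ℤ := packets.biUnion fun q => Finset.Icc ⌈q - Real.logb 2 β⌉ ⌊q + W - Real.logb 2 α⌋ with hT
  have hsub : {s : ℤ | ∃ a : ι → ℚ, s8cHtLe Hh a ∧ α ≤ (2 : ℝ) ^ (-s) * |s8cEv a Θ| ∧
      (2 : ℝ) ^ (-s) * |s8cEv a Θ| ≤ β} ⊆ (T : Set ℤ) := by
    rintro s ⟨a, ha, h1, h2⟩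
    have h2s : (0 : ℝ) < (2 : ℝ) ^ (-s) := by positivity
    have hE : 0 < |s8cEv a Θ| := by
      by_contra hcon
      have : |s8cEv a Θ| = 0 := le_antisymm (not_lt.1 hcon) (abs_nonneg _)
      rw [this, mul_zero] at h1
      linarith
    obtain ⟨q, hq, h3, h4⟩ := hp a ha (abs_pos.1 hE)
    rw [mul_one] at h3 h4
    have hlog : Real.logb 2 ((2 : ℝ) ^ (-s) * |s8cEv a Θ|) = -(s : ℝ) + Real.logb 2 |s8cEv a Θ| := by
      rw [Real.logb_mul h2s.ne' hE.ne', s5a_logb_two_zpow]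
      simp
    have h5 : Real.logb 2 α ≤ -(s : ℝ) + Real.logb 2 |s8cEv a Θ| := by
      rw [← hlog]; exact Real.logb_le_logb_of_le (by norm_num) hα h1
    have h6 : -(s : ℝ) + Real.logb 2 |s8cEv a Θ| ≤ Real.logb 2 β := by
      rw [← hlog]; exact Real.logb_le_logb_of_le (by norm_num) (mul_pos h2s hE) h2
    rw [hT, Finset.coe_biUnion, Set.mem_iUnion₂]
    refine ⟨q, hq, ?_⟩
    rw [Finset.mem_coe, Finset.mem_Icc]
    exact ⟨Int.ceil_le.2 (by linarith), Int.le_floor.2 (by linarith)⟩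
  refine ⟨T.finite_toSet.subset hsub, ?_⟩
  have h1 : ({s : ℤ | ∃ a : ι → ℚ, s8cHtLe Hh a ∧ α ≤ (2 : ℝ) ^ (-s) * |s8cEv a Θ| ∧
      (2 : ℝ) ^ (-s) * |s8cEv a Θ| ≤ β}.ncard : ℝ) ≤ (T.card : ℝ) := by
    have := Set.ncard_le_ncard hsub T.finite_toSet
    rw [Set.ncard_coe_finset] at this
    exact_mod_cast this
  refine h1.trans ?_
  have h2 : (T.card : ℝ) ≤ ∑ q ∈ packets, ((Finset.Icc ⌈q - Real.logb 2 β⌉ ⌊q + W - Real.logb 2 α⌋).card : ℝ) := by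
    exact_mod_cast Finset.card_biUnion_le
  refine h2.trans ?_
  calc ∑ q ∈ packets, ((Finset.Icc ⌈q - Real.logb 2 β⌉ ⌊q + W - Real.logb 2 α⌋).card : ℝ)
      ≤ ∑ _q ∈ packets, (W + Real.logb 2 (β / α) + 1) := by
        refine Finset.sum_le_sum fun q _ => ?_
        refine (s5a_card_Icc_le _ _ (by rw [hΛ] at hΛ0; linarith)).trans (by rw [hΛ]; linarith)
    _ = (packets.card : ℝ) * (W + Real.logb 2 (β / α) + 1) := by rw [Finset.sum_const, nsmul_eq_mul]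
    _ ≤ _ := mul_le_mul_of_nonneg_right (by exact_mod_cast hcard) (by linarith)

/-- bound for the number of exceptional depths -/
noncomputable def s5a_NE (d : ℕ) (D : ℝ) (T : ℕ) (ε : ℝ) : ℝ :=
  Real.logb 2 (D / ε) + 2 +
    (d : ℝ) * (Real.logb 2 ((d : ℝ) * (s8cCr d (2 * T) : ℝ) + 1) + 2 * Real.logb 2 (1 / ε) + 1)

/-- bound for the number of depths at which a fixed frequency shell is occupied -/
noncomputable def s5a_NH (d T : ℕ) : ℝ :=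
  ((d : ℝ) + 1) * (Real.logb 2 (((d : ℝ) + 1) * (s8cCr (d + 1) T : ℝ) + 1) + 2)

theorem s5a_NH_nonneg (d T : ℕ) : 0 ≤ s5a_NH d T := by
  unfold s5a_NH
  have h1 : 0 ≤ Real.logb 2 (((d : ℝ) + 1) * (s8cCr (d + 1) T : ℝ) + 1) := Real.logb_nonneg (by norm_num) (by
    have : (0 : ℝ) ≤ ((d : ℝ) + 1) * (s8cCr (d + 1) T : ℝ) := by positivity
    linarith)
  positivity

theorem s5a_sig_sub (Q : Chart) (R : ℕ) (l l' : Fin Q.d → ℤ) : s5a_sig Q R (l - l') = s5a_sig Q R l - s5a_sig Q R l' := by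
  unfold s5a_sig
  rw [← Finset.sum_sub_distrib]
  refine Finset.sum_congr rfl fun i _ => ?_
  rw [Pi.sub_apply]
  push_cast
  ring

theorem s5a_mem_box {d T : ℕ} {l : Fin d → ℤ} : l ∈ s5a_box d T ↔ ∀ i, |l i| ≤ (T : ℤ) := by
  unfold s5a_box
  rw [Fintype.mem_piFinset]
  simp only [Finset.mem_Icc, abs_le]

theorem s5a_mem_box' {d T : ℕ} {l : Fin d → ℤ} : l ∈ s5a_box d T ↔ ‖l‖ ≤ (T : ℝ) := by
  rw [s5a_mem_box, pi_norm_le_iff_of_nonneg (Nat.cast_nonneg T)]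
  refine forall_congr' fun i => ?_
  rw [Int.norm_eq_abs]
  constructor
  · intro h; exact_mod_cast h
  · intro h; exact_mod_cast h

theorem s5a_box_sub {d T : ℕ} {l l' : Fin d → ℤ} (h : l ∈ s5a_box d T) (h' : l' ∈ s5a_box d T) :
    l - l' ∈ s5a_box d (2 * T) := by
  rw [s5a_mem_box] at h h' ⊢
  intro i
  rw [Pi.sub_apply]
  have h1 := abs_sub (l i) (l' i)
  have h2 := h i
  have h3 := h' i
  push_cast
  linarith

theorem s5a_box_card (d T : ℕ) : (s5a_box d T).card = (2 * T + 1) ^ d := by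
  unfold s5a_box
  rw [Fintype.card_piFinset, Finset.prod_const, Finset.card_univ, Fintype.card_fin, Int.card_Icc]
  congr 1
  omega

/-- the exceptional depths below the scale `r₁` -/
theorem s5a_exc_count (Q : Chart) (R : ℕ) (hR : 1 ≤ R) (lam D r₁ ε : ℝ) (T : ℕ) (hT : 1 ≤ T) (hε : 0 < ε) (hε1 : ε ≤ 1 / 2)
    (hr : 0 < r₁) (hlam : |lam| * r₁ ^ 2 ≤ D) (hD : 1 ≤ D) :
    {s : ℤ | (2 : ℝ) ^ (-s) ≤ r₁ ∧ ¬ s5a_Good Q R lam T ε s}.Finite ∧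
      ({s : ℤ | (2 : ℝ) ^ (-s) ≤ r₁ ∧ ¬ s5a_Good Q R lam T ε s}.ncard : ℝ) ≤ s5a_NE Q.d D T ε := by
  classical
  set Λ : ℝ := Real.logb 2 (D / ε) with hΛ
  have hΛ0 : 0 ≤ Λ := Real.logb_nonneg (by norm_num) (by rw [le_div_iff₀ hε]; linarith)
  have hD0 : 0 < D := by linarith
  set X1 : Set ℤ := {s : ℤ | (2 : ℝ) ^ (-s) ≤ r₁ ∧ ε ≤ |lam| * ((2 : ℝ) ^ (-s)) ^ 2} with hX1
  set Θ : Fin Q.d → ℝ := fun i => Q.th i / (R : ℝ) with hΘ
  set X2 : Set ℤ := {s : ℤ | ∃ a : Fin Q.d → ℚ, s8cHtLe (2 * T) a ∧ ε ≤ (2 : ℝ) ^ (-s) * |s8cEv a Θ| ∧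
      (2 : ℝ) ^ (-s) * |s8cEv a Θ| ≤ 1 / ε} with hX2
  have hεε : ε ≤ 1 / ε := by
    rw [le_div_iff₀ hε]; nlinarith
  obtain ⟨f2, c2⟩ := s5a_hb Θ (2 * T) (by omega) ε (1 / ε) hε hεε
  rw [← hX2] at f2 c2
  -- the first set
  set T1 : Finset ℤ := Finset.Icc ⌈-Real.logb 2 r₁⌉ ⌊-Real.logb 2 r₁ + Λ / 2⌋ with hT1
  have hsub1 : X1 ⊆ (T1 : Set ℤ) := by
    rintro s ⟨h1, h2⟩
    have h2s : (0 : ℝ) < (2 : ℝ) ^ (-s) := by positivity
    have hlog : Real.logb 2 ((2 : ℝ) ^ (-s)) = -(s : ℝ) := by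
      rw [s5a_logb_two_zpow]; simp
    have h3 : -(s : ℝ) ≤ Real.logb 2 r₁ := by
      rw [← hlog]; exact Real.logb_le_logb_of_le (by norm_num) h2s h1
    have h4 : ε * r₁ ^ 2 ≤ D * ((2 : ℝ) ^ (-s)) ^ 2 := by
      calc ε * r₁ ^ 2 ≤ (|lam| * ((2 : ℝ) ^ (-s)) ^ 2) * r₁ ^ 2 := mul_le_mul_of_nonneg_right h2 (by positivity)
        _ = (|lam| * r₁ ^ 2) * ((2 : ℝ) ^ (-s)) ^ 2 := by ring
        _ ≤ D * ((2 : ℝ) ^ (-s)) ^ 2 := mul_le_mul_of_nonneg_right hlam (by positivity)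
    have h5 : Real.logb 2 (ε * r₁ ^ 2) ≤ Real.logb 2 (D * ((2 : ℝ) ^ (-s)) ^ 2) :=
      Real.logb_le_logb_of_le (by norm_num) (by positivity) h4
    rw [Real.logb_mul hε.ne' (by positivity), Real.logb_mul hD0.ne' (by positivity), Real.logb_pow, Real.logb_pow,
      hlog] at h5
    have h6 : Λ = Real.logb 2 D - Real.logb 2 ε := Real.logb_div hD0.ne' hε.ne'
    rw [hT1, Finset.mem_coe, Finset.mem_Icc]
    push_cast at h5
    exact ⟨Int.ceil_le.2 (by linarith), Int.le_floor.2 (by linarith)⟩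
  have f1 : X1.Finite := T1.finite_toSet.subset hsub1
  have c1 : (X1.ncard : ℝ) ≤ Λ + 2 := by
    have h1 := Set.ncard_le_ncard hsub1 T1.finite_toSet
    rw [Set.ncard_coe_finset] at h1
    have h2 : (X1.ncard : ℝ) ≤ (T1.card : ℝ) := by exact_mod_cast h1
    have h3 := s5a_card_Icc_le (-Real.logb 2 r₁) (-Real.logb 2 r₁ + Λ / 2) (by linarith)
    linarith
  have hsub : {s : ℤ | (2 : ℝ) ^ (-s) ≤ r₁ ∧ ¬ s5a_Good Q R lam T ε s} ⊆ X1 ∪ X2 := by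
    rintro s ⟨h1, h2⟩
    unfold s5a_Good at h2
    rw [not_and_or] at h2
    rcases h2 with h2 | h2
    · exact Or.inl ⟨h1, not_lt.1 h2⟩
    · right
      push Not at h2
      obtain ⟨k, hk, h3, h4⟩ := h2
      refine ⟨fun i => (k i : ℚ), fun i => ?_, ?_⟩
      · have hki := s5a_mem_box.1 hk i
        unfold s8cHt
        rw [Rat.num_intCast, Rat.den_intCast]
        refine max_le ?_ (by omega)
        have : ((k i).natAbs : ℤ) ≤ ((2 * T : ℕ) : ℤ) := by rw [Int.natCast_natAbs]; exact hki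
        exact_mod_cast this
      · have he : s8cEv (fun i => (k i : ℚ)) Θ = s5a_sig Q R k := by
          unfold s8cEv s5a_sig
          refine Finset.sum_congr rfl fun i _ => ?_
          rw [hΘ]
          push_cast
          ring
        rw [he]
        exact ⟨h3, h4⟩
  refine ⟨(f1.union f2).subset hsub, ?_⟩
  have h1 := Set.ncard_le_ncard hsub (f1.union f2)
  have h2 := Set.ncard_union_le X1 X2
  have h3 : (({s : ℤ | (2 : ℝ) ^ (-s) ≤ r₁ ∧ ¬ s5a_Good Q R lam T ε s}.ncard : ℕ) : ℝ) ≤ (X1.ncard : ℝ) + (X2.ncard : ℝ) := by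
    exact_mod_cast h1.trans h2
  have h4 : Real.logb 2 (1 / ε / ε) = 2 * Real.logb 2 (1 / ε) := by
    rw [show 1 / ε / ε = (1 / ε) ^ 2 by field_simp, Real.logb_pow]
    norm_num
  rw [h4, Fintype.card_fin] at c2
  unfold s5a_NE
  linarith

/-- the depths at which the shell `ℓ` around `-ζ` contains a centre `(β + σ_l)/κ`, `l` in the box `T` -/
theorem s5a_shell_count (Q : Chart) (R : ℕ) (T : ℕ) (hT : 1 ≤ T) (κ ζ : ℝ) (ℓ : ℤ) :
    {s : ℤ | ∃ l ∈ s5a_box Q.d T, (2 : ℝ) ^ ℓ ≤ (2 : ℝ) ^ (-s) * |ζ + (Q.bet + s5a_sig Q R l) / κ| ∧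
        (2 : ℝ) ^ (-s) * |ζ + (Q.bet + s5a_sig Q R l) / κ| < (2 : ℝ) ^ (ℓ + 1)}.Finite ∧
      ({s : ℤ | ∃ l ∈ s5a_box Q.d T, (2 : ℝ) ^ ℓ ≤ (2 : ℝ) ^ (-s) * |ζ + (Q.bet + s5a_sig Q R l) / κ| ∧
        (2 : ℝ) ^ (-s) * |ζ + (Q.bet + s5a_sig Q R l) / κ| < (2 : ℝ) ^ (ℓ + 1)}.ncard : ℝ) ≤ s5a_NH Q.d T := by
  classical
  set Θ : Option (Fin Q.d) → ℝ := fun o => match o with
    | none => ζ + Q.bet / κ
    | some i => Q.th i / (R : ℝ) / κ with hΘ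
  have h2l : (0 : ℝ) < (2 : ℝ) ^ ℓ := by positivity
  have hle : (2 : ℝ) ^ ℓ ≤ (2 : ℝ) ^ (ℓ + 1) := zpow_le_zpow_right₀ (by norm_num) (by omega)
  obtain ⟨f, c⟩ := s5a_hb Θ T hT ((2 : ℝ) ^ ℓ) ((2 : ℝ) ^ (ℓ + 1)) h2l hle
  have hsub : {s : ℤ | ∃ l ∈ s5a_box Q.d T, (2 : ℝ) ^ ℓ ≤ (2 : ℝ) ^ (-s) * |ζ + (Q.bet + s5a_sig Q R l) / κ| ∧
        (2 : ℝ) ^ (-s) * |ζ + (Q.bet + s5a_sig Q R l) / κ| < (2 : ℝ) ^ (ℓ + 1)} ⊆
      {s : ℤ | ∃ a : Option (Fin Q.d) → ℚ, s8cHtLe T a ∧ (2 : ℝ) ^ ℓ ≤ (2 : ℝ) ^ (-s) * |s8cEv a Θ| ∧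
        (2 : ℝ) ^ (-s) * |s8cEv a Θ| ≤ (2 : ℝ) ^ (ℓ + 1)} := by
    rintro s ⟨l, hl, h1, h2⟩
    refine ⟨fun o => match o with
      | none => 1
      | some i => (l i : ℚ), fun o => ?_, ?_⟩
    · cases o with
      | none =>
        unfold s8cHt
        simpa using hT
      | some i =>
        have hli := s5a_mem_box.1 hl i
        unfold s8cHt
        show max ((l i : ℚ)).num.natAbs ((l i : ℚ)).den ≤ T
        rw [Rat.num_intCast, Rat.den_intCast]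
        refine max_le ?_ hT
        have : ((l i).natAbs : ℤ) ≤ (T : ℤ) := by rw [Int.natCast_natAbs]; exact hli
        exact_mod_cast this
    · have he : s8cEv (fun o : Option (Fin Q.d) => match o with
          | none => (1 : ℚ)
          | some i => (l i : ℚ)) Θ = ζ + (Q.bet + s5a_sig Q R l) / κ := by
        unfold s8cEv s5a_sig
        rw [Fintype.sum_option, add_div, Finset.sum_div]
        simp only [hΘ]
        push_cast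
        rw [one_mul, add_assoc]
        congr 2
        refine Finset.sum_congr rfl fun i _ => ?_
        ring
      rw [he]
      exact ⟨h1, h2.le⟩
  refine ⟨f.subset hsub, ?_⟩
  have h1 := Set.ncard_le_ncard hsub f
  have h2 : Real.logb 2 ((2 : ℝ) ^ (ℓ + 1) / (2 : ℝ) ^ ℓ) = 1 := by
    rw [zpow_add_one₀ (by norm_num), mul_div_cancel_left₀ _ h2l.ne']
    exact Real.logb_self_eq_one (by norm_num)
  rw [h2, Fintype.card_option, Fintype.card_fin] at c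
  unfold s5a_NH
  push_cast at c
  have h3 : (({s : ℤ | ∃ l ∈ s5a_box Q.d T, (2 : ℝ) ^ ℓ ≤ (2 : ℝ) ^ (-s) * |ζ + (Q.bet + s5a_sig Q R l) / κ| ∧
        (2 : ℝ) ^ (-s) * |ζ + (Q.bet + s5a_sig Q R l) / κ| < (2 : ℝ) ^ (ℓ + 1)}.ncard : ℕ) : ℝ) ≤ _ :=
    (Nat.cast_le.2 h1).trans c
  refine h3.trans (le_of_eq ?_)
  ring

end Claimed.Agent.R258
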