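/-
Row 258, block [S5a] (architect helper192).  FILE Ad = leaves P-S5a-AD1 (`s5a_apsep`), P-S5a-AD2 (`s5a_ss`), P-S5a-LIST (`s5a_list`): adapters to block [S4a] (helper78) and the enumeration of the predictor list.   No paper.

AD1.  `s4a_ap_separation 1` (S4a/Sep.lean, STATEMENT): `D₀ = s4b_qp Cq (log H)`, shells `T x ≥ 1`, `∑ ‖c x‖ T x ≤ D₀`, complexities `D₀ T x`, `#{T x ≤ T₀} ≤ (3 T₀)^(3(d+d'))`.   Put `h x = D₀ * T x` (`≥ 1`).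
   * weights: for any `C ≥ 1`: `h^(1/C) ≤ h = D₀ T` (`Real.rpow_le_self_of_one_le`/`Real.rpow_le_rpow_of_exponent_le` with exponent `≤ 1`, `Real.rpow_one`), so `∑ ‖c‖ h^(1/C) ≤ D₀ ∑ ‖c‖ T ≤ D₀² ≤ s4b_qp (Cq+Cq) (log H)` (`s4a_qp_mul`).
   * count: `{h ≤ X} ⊆ {T ≤ X}` (`D₀ ≥ 1`), `(3X)^(3(d+d')) = exp (3(d+d') log (3X))`, `d + d' ≤ 2 log H` (`Chart.Cplx.dim`), `≤ s4b_qp C (log H + log X)` for `C ≥ 12`, say (`6 log H (log 3 + log X) ≤ 12 (1 + log H + log X)²`).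
   * the identity: reassociate the products (`mul_assoc`), `HasSum` congruence (`funext`).
AD2.  `s4a_single_scale_bound` (S4a/Single.lean, STATEMENT) with `A = s4a_Ar Q |I|` (`s4a_AInt_le_Ar`); `Continuous.measurable`; `s4b_L2 I f` from `MemLp f 2` (see its definition in S4b/Defs.lean);
   `nnorm 2 I f = (|I|⁻¹ ∫_I ‖f‖^(2:ℝ))^(1/2) = √(∫_I ‖f‖²)/√|I|` (`Real.sqrt_eq_rpow`, `Real.rpow_two`/`Real.rpow_natCast`; lemmas on `nnorm 2` in R258/Cell/Nnorm.lean), and `|I| · (√|I|)⁻¹ (√|I|)⁻¹ = 1`.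
LIST.  classical `DecidableEq Chart`;  `S = insert φ (⋃_{τ ∈ h𝒯.toFinset} ⋃_{R ∈ Finset.Icc 1 Dn} (box (Q τ).d T).image (chart τ R))`, `n = S.card`, `ρ ν = (S.equivFin.symm ν : Chart)`;
   `Finset.card_insert_le`, `Finset.card_biUnion_le`, `Finset.card_image_le`, `s5a_box_card`, `(2T+1)^d ≤ (2T+1)^dmax`, `Set.ncard_eq_toFinset_card`.
-/
import Claimed.Agent.R258.S5a.Hb
import Claimed.Agent.R258.S4a.Sep
import Claimed.Agent.R258.S4a.Single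
import Claimed.Agent.R258.Pack005

set_option autoImplicit false
open MeasureTheory
open scoped ENNReal ContDiff ComplexConjugate

namespace Claimed.Agent.R258

/-- numerics of the count in `s5a_apsep` -/
theorem s5a_apsep_num : ∃ C : ℕ, ∀ (H X : ℝ) (n : ℕ), Real.exp 2 ≤ H → 1 ≤ X → (n : ℝ) ≤ 2 * Real.log H →
    (3 * X) ^ (3 * n) ≤ s4b_qp C (Real.log H + Real.log X) := by
  let V : ℝ × ℝ × ℕ → Prop := fun p => Real.exp 2 ≤ p.1 ∧ 1 ≤ p.2.1 ∧ (p.2.2 : ℝ) ≤ 2 * Real.log p.1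
  let x : ℝ × ℝ × ℕ → ℝ := fun p => Real.log p.1 + Real.log p.2.1
  have hH1 : ∀ p, V p → 1 ≤ p.1 := fun p hp => le_trans (Real.one_le_exp (by norm_num)) hp.1
  have hx : ∀ p, V p → 0 ≤ x p := fun p hp => add_nonneg (Real.log_nonneg (hH1 p hp)) (Real.log_nonneg hp.2.1)
  have qX : s4a_IsQP V x (fun p => p.2.1) :=
    s4a_IsQP.of_log (s4a_IsPL.size hx) (fun p hp => by linarith [hp.2.1])
      (fun p hp => by have := Real.log_nonneg (hH1 p hp); show Real.log p.2.1 ≤ Real.log p.1 + Real.log p.2.1; linarith)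
  have pn : s4a_IsPL V x (fun p => ((3 * p.2.2 : ℕ) : ℝ)) :=
    ((s4a_IsPL.const hx 6 (by norm_num)).mul hx (s4a_IsPL.size hx)).mono (fun p _ => Nat.cast_nonneg _)
      (fun p hp => by
        have h1 := hp.2.2
        have h2 := Real.log_nonneg hp.2.1
        show ((3 * p.2.2 : ℕ) : ℝ) ≤ 6 * (Real.log p.1 + Real.log p.2.1)
        push_cast
        linarith)
  obtain ⟨C, hC⟩ := (((s4a_IsQP.const hx 3 (by norm_num)).mul hx qX).pow hx pn).elim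
  exact ⟨C, fun H X n h1 h2 h3 => hC (H, X, n) ⟨h1, h2, h3⟩⟩

theorem s5a_apsep : s5a_APSep := by
  obtain ⟨Cq, hq⟩ := s4a_ap_separation 1
  obtain ⟨C2, h2⟩ := s5a_apsep_num
  refine ⟨Cq + Cq + C2 + 1, by omega, ?_⟩
  intro i j a b hslot φ φ' H hφ hφ' _ _
  obtain ⟨X, hX, c, T, ψa, ψb, Q, hT, hsum, hle, hcp, hbd, hd, hcnt, hid⟩ := hq i j a b hslot φ φ' H hφ hφ'
  have hH1 : 1 ≤ H := le_trans (Real.one_le_exp (by norm_num)) hφ.H_ge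
  have hl0 : 0 ≤ Real.log H := Real.log_nonneg hH1
  set D : ℝ := s4b_qp Cq (Real.log H) with hD
  have hD1 : 1 ≤ D := s4a_qp_one_le Cq hl0
  have hD0 : 0 < D := by linarith
  set C : ℕ := Cq + Cq + C2 + 1 with hC
  have hCinv : ((C : ℝ))⁻¹ ≤ 1 := by
    apply inv_le_one_of_one_le₀
    have : 1 ≤ C := by omega
    exact_mod_cast this
  have hh1 : ∀ τ, 1 ≤ D * T τ := fun τ => by have := hT τ; nlinarith
  have hw : ∀ τ, ‖c τ‖ * (D * T τ) ^ ((C : ℝ)⁻¹) ≤ D * (‖c τ‖ * T τ ^ 1) := by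
    intro τ
    have h1 : (D * T τ) ^ ((C : ℝ)⁻¹) ≤ (D * T τ) ^ (1 : ℝ) := Real.rpow_le_rpow_of_exponent_le (hh1 τ) hCinv
    rw [Real.rpow_one] at h1
    calc ‖c τ‖ * (D * T τ) ^ ((C : ℝ)⁻¹) ≤ ‖c τ‖ * (D * T τ) := mul_le_mul_of_nonneg_left h1 (norm_nonneg _)
      _ = D * (‖c τ‖ * T τ ^ 1) := by ring
  have hw0 : ∀ τ, 0 ≤ ‖c τ‖ * (D * T τ) ^ ((C : ℝ)⁻¹) := fun τ =>
    mul_nonneg (norm_nonneg _) (Real.rpow_nonneg (by linarith [hh1 τ]) _)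
  have hs2 : Summable (fun τ => ‖c τ‖ * (D * T τ) ^ ((C : ℝ)⁻¹)) :=
    Summable.of_nonneg_of_le hw0 hw (hsum.mul_left D)
  refine ⟨X, hX, c, ψa, ψb, Q, fun τ => D * T τ, ?_, hs2, ?_, ?_, ?_⟩
  · intro τ
    exact ⟨(hcp τ).1, (hcp τ).2.1, (hcp τ).2.2, (hbd τ).1, (hbd τ).2.1, (hbd τ).2.2⟩
  · calc ∑' τ, ‖c τ‖ * (D * T τ) ^ ((C : ℝ)⁻¹) ≤ ∑' τ, D * (‖c τ‖ * T τ ^ 1) :=
          hs2.tsum_le_tsum hw (hsum.mul_left D)
      _ = D * ∑' τ, ‖c τ‖ * T τ ^ 1 := tsum_mul_left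
      _ ≤ D * D := mul_le_mul_of_nonneg_left hle hD0.le
      _ ≤ s4b_qp (Cq + Cq) (Real.log H) := s4a_qp_mul Cq Cq hl0
      _ ≤ s4b_qp C (Real.log H) := s4a_qp_mono (by omega) hl0 le_rfl
  · intro X₀ hX₀
    obtain ⟨hfin, hcard⟩ := hcnt X₀ hX₀
    have hsub : {τ | D * T τ ≤ X₀} ⊆ {τ | T τ ≤ X₀} := by
      intro τ hτ
      have h1 : D * T τ ≤ X₀ := hτ
      have h2 := hT τ
      show T τ ≤ X₀
      nlinarith
    refine ⟨hfin.subset hsub, ?_⟩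
    have hn : (((φ.d + φ'.d : ℕ)) : ℝ) ≤ 2 * Real.log H := by
      have h1 := hφ.dim
      have h2 := hφ'.dim
      push_cast
      linarith
    have hlX : 0 ≤ Real.log X₀ := Real.log_nonneg hX₀
    calc (({τ | D * T τ ≤ X₀}.ncard : ℕ) : ℝ) ≤ (({τ | T τ ≤ X₀}.ncard : ℕ) : ℝ) := by
          exact_mod_cast Set.ncard_le_ncard hsub hfin
      _ ≤ (3 * X₀) ^ (3 * (φ.d + φ'.d)) := hcard
      _ ≤ s4b_qp C2 (Real.log H + Real.log X₀) := h2 H X₀ _ hφ.H_ge hX₀ hn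
      _ ≤ s4b_qp C (Real.log H + Real.log X₀) := s4a_qp_mono (by omega) (by linarith) le_rfl
  · intro x t
    have e : (fun τ => c τ * (ψa τ).eval (x + (a : ℝ) * t) * (ψb τ).eval (x + (b : ℝ) * t) * (Q τ).eval t) =
        fun τ => c τ * ((ψa τ).eval (x + (a : ℝ) * t) * ((ψb τ).eval (x + (b : ℝ) * t) * (Q τ).eval t)) := by
      funext τ
      ring
    rw [e]
    exact hid x t

theorem s5a_nnorm_two_eq (I : Cell) (f : ℝ → ℂ) :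
    nnorm 2 I f = (Real.sqrt I.len)⁻¹ * Real.sqrt (∫ y in I.set, ‖f y‖ ^ 2) := by
  have hr := cell_len_pos I
  unfold nnorm
  have e : (fun y => ‖f y‖ ^ (2 : ℝ)) = fun y => ‖f y‖ ^ 2 := by
    funext y
    exact Real.rpow_two _
  rw [e, ← Real.sqrt_eq_rpow, Real.sqrt_mul (inv_nonneg.2 hr.le), Real.sqrt_inv]

theorem s5a_ss (c0 C0 : ℝ) (hc0 : 0 < c0) (hC0 : 1 ≤ C0) : s5a_SS c0 C0 := by
  obtain ⟨Cs, hCs1, hs⟩ := s4a_single_scale_bound c0 C0 hc0 hC0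
  refine ⟨Cs, by linarith, ?_⟩
  intro I w a b hab hw Q f g hQc hQ hfm hgm hf hg
  have hr := cell_len_pos I
  have h := hs a b hab I w Q f g (s4a_Ar Q I.len) hw hQc.measurable hQ hfm hgm (hf.restrict _) (hg.restrict _)
    (fun ξ => s4a_AInt_le_Ar Q hQ I.len ξ)
  rw [s5a_nnorm_two_eq, s5a_nnorm_two_eq] at h
  have hsq : Real.sqrt I.len * Real.sqrt I.len = I.len := Real.mul_self_sqrt hr.le
  have hsp : 0 < Real.sqrt I.len := Real.sqrt_pos.2 hr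
  calc I.len * ‖s4a_form2 I w a b Q f g‖
      ≤ I.len * (Cs * s4a_Ar Q I.len * ((Real.sqrt I.len)⁻¹ * Real.sqrt (∫ y in I.set, ‖f y‖ ^ 2)) *
          ((Real.sqrt I.len)⁻¹ * Real.sqrt (∫ y in I.set, ‖g y‖ ^ 2))) := mul_le_mul_of_nonneg_left h hr.le
    _ = (I.len * ((Real.sqrt I.len)⁻¹ * (Real.sqrt I.len)⁻¹)) * (Cs * s4a_Ar Q I.len * Real.sqrt (∫ y in I.set, ‖f y‖ ^ 2) *
          Real.sqrt (∫ y in I.set, ‖g y‖ ^ 2)) := by ring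
    _ = Cs * s4a_Ar Q I.len * Real.sqrt (∫ y in I.set, ‖f y‖ ^ 2) * Real.sqrt (∫ y in I.set, ‖g y‖ ^ 2) := by
        rw [← mul_inv, hsq, mul_inv_cancel₀ hr.ne', one_mul]

/-- the predictor chart of the term `ψ`, frequency `μ`: the conjugate of `e(μ y) ψ(y)` -/
noncomputable def s5a_pc (ψ : Chart) (μ : ℝ) : Chart := s4a_conj (s4a_mod ψ 0 μ 0)

theorem s5a_pc_eval (ψ : Chart) (μ y : ℝ) : conj ((s5a_pc ψ μ).eval y) = ee (μ * y) * ψ.eval y := by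
  unfold s5a_pc
  rw [s4a_conj_eval, Complex.conj_conj, s4a_mod_eval]
  congr 2
  ring

theorem s5a_pc_cplx {ψ : Chart} {H : ℝ} (h : ψ.Cplx H) (μ : ℝ) : (s5a_pc ψ μ).Cplx H :=
  s4a_conj_cplx (s4a_mod_cplx h 0 μ 0)

theorem s5a_pc_bdd {ψ : Chart} (h : ψ.Bdd) (μ : ℝ) : (s5a_pc ψ μ).Bdd := s4a_conj_bdd (s4a_mod_bdd h 0 μ 0)

/-- enumeration of the predictor list -/
theorem s5a_list {ι : Type} (𝒯 : Set ι) (h𝒯 : 𝒯.Finite) (ψ Q : ι → Chart) (κ : ℝ) (Dn T dmax : ℕ)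
    (hd : ∀ τ ∈ 𝒯, (Q τ).d ≤ dmax) (φ : Chart) :
    ∃ (n : ℕ) (ρ : Fin n → Chart), 0 < n ∧ n ≤ 1 + 𝒯.ncard * Dn * (2 * T + 1) ^ dmax ∧
      (∀ ν, ρ ν = φ ∨ ∃ τ ∈ 𝒯, ∃ μ : ℝ, ρ ν = s5a_pc (ψ τ) μ) ∧
      ∀ τ ∈ 𝒯, ∀ R : ℕ, 1 ≤ R → R ≤ Dn → ∀ l ∈ s5a_box (Q τ).d T,
        ∃ ν, ρ ν = s5a_pc (ψ τ) (-(((Q τ).bet + s5a_sig (Q τ) R l) / κ)) := by
  classical
  let ch : (τ : ι) → ℕ → (Fin (Q τ).d → ℤ) → Chart := fun τ R l =>
    s5a_pc (ψ τ) (-(((Q τ).bet + s5a_sig (Q τ) R l) / κ))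
  let S0 : Finset Chart := h𝒯.toFinset.biUnion fun τ => (Finset.Icc 1 Dn).biUnion fun R =>
    (s5a_box (Q τ).d T).image (ch τ R)
  let S : Finset Chart := insert φ S0
  have hS0card : S0.card ≤ 𝒯.ncard * Dn * (2 * T + 1) ^ dmax := by
    calc S0.card ≤ ∑ τ ∈ h𝒯.toFinset, ((Finset.Icc 1 Dn).biUnion fun R =>
          (s5a_box (Q τ).d T).image (ch τ R)).card := Finset.card_biUnion_le
      _ ≤ ∑ τ ∈ h𝒯.toFinset, Dn * (2 * T + 1) ^ dmax := by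
          refine Finset.sum_le_sum fun τ hτ => ?_
          have hτ' : τ ∈ 𝒯 := h𝒯.mem_toFinset.1 hτ
          calc ((Finset.Icc 1 Dn).biUnion fun R => (s5a_box (Q τ).d T).image (ch τ R)).card
              ≤ ∑ R ∈ Finset.Icc 1 Dn, ((s5a_box (Q τ).d T).image (ch τ R)).card :=
                Finset.card_biUnion_le
            _ ≤ ∑ R ∈ Finset.Icc 1 Dn, (2 * T + 1) ^ dmax := by
                refine Finset.sum_le_sum fun R _ => ?_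
                refine Finset.card_image_le.trans ?_
                rw [s5a_box_card]
                exact Nat.pow_le_pow_right (by omega) (hd τ hτ')
            _ = Dn * (2 * T + 1) ^ dmax := by
                rw [Finset.sum_const, Nat.card_Icc, smul_eq_mul]; simp
      _ = 𝒯.ncard * Dn * (2 * T + 1) ^ dmax := by
          rw [Finset.sum_const, smul_eq_mul, Set.ncard_eq_toFinset_card 𝒯 h𝒯, mul_assoc]
  refine ⟨S.card, fun ν => (S.equivFin.symm ν : Chart), ?_, ?_, ?_, ?_⟩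
  · exact Finset.card_pos.2 ⟨φ, Finset.mem_insert_self _ _⟩
  · calc S.card ≤ S0.card + 1 := Finset.card_insert_le _ _
      _ ≤ 1 + 𝒯.ncard * Dn * (2 * T + 1) ^ dmax := by omega
  · intro ν
    have hmem : (S.equivFin.symm ν : Chart) ∈ S := (S.equivFin.symm ν).2
    rcases Finset.mem_insert.1 hmem with h | h
    · exact Or.inl h
    · right
      obtain ⟨τ, hτ, h⟩ := Finset.mem_biUnion.1 h
      obtain ⟨R, -, h⟩ := Finset.mem_biUnion.1 h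
      obtain ⟨l, -, h⟩ := Finset.mem_image.1 h
      exact ⟨τ, h𝒯.mem_toFinset.1 hτ, _, h.symm⟩
  · intro τ hτ R hR1 hR2 l hl
    have hmem : ch τ R l ∈ S := by
      refine Finset.mem_insert_of_mem (Finset.mem_biUnion.2 ⟨τ, h𝒯.mem_toFinset.2 hτ, ?_⟩)
      exact Finset.mem_biUnion.2 ⟨R, Finset.mem_Icc.2 ⟨hR1, hR2⟩, Finset.mem_image_of_mem _ hl⟩
    refine ⟨S.equivFin ⟨_, hmem⟩, ?_⟩
    simp only [Equiv.symm_apply_apply]
    rfl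

end Claimed.Agent.R258
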