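/-
Row 258, block [S5a] (architect helper192).  FILE Adm = leaves P-S5a-ADM1 (section ADM1), P-S5a-ADM2 (section ADM2): **admissible sequences satisfy the row bound** `s5a_SRow`.     No paper.
Uses `s3_compression` (S3/Final.lean, STATEMENT), S3/Inst.lean (`ColBudget`, `s3_MaskIn.of_inh`, `s3_ColOk`), XV, S5/Roll.lean, S3/Prefix.lean (`s3_sum_sq_add_le`).

ADM1 (tools).
 * `s5a_colBudget`: `𝒱 = {Φ | ∃ I ≤ J, Φ ∈ m I}`.  `two_le`: `2 ≤ exp 2 ≤ Dh`.  `ok`: `Φ.phi = (ch lab).eval` measurable (`xv_chart_measurable`), `‖Φ.fn y‖² = |φ|² + ε ≤ 2 ≤ Dh²` (`xv_normsq_fn`), `Dh⁻¹ ≤ √ε` (`Bud.eps`).  `meet`: `Inh.birth`.  `lab`: `Inh.lab`.  `count`: `Bud.count`.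
 * `s5a_rowSemi ρ` : the seminorm `x ↦ ‖∫ ρ(y) physFn x y dy‖` on `XV` for `ρ ∈ L²` (a.e. linearity `xv_physFn_add`, `xv_physFn_smul`; integrability `MemLp.integrable_mul`).  If `ρ ∉ L²` take the zero seminorm (definition by `if`).
 * `s5a_rowSemi_bessel`: `∫ ‖physFn x‖² ≤ ‖x‖²` (`xv_physFn_norm_le`, `xv_normsq_eq_integral`, `xv_integrable_normsq`).      * `s5a_rowSemi_local`: `physFn (restr E z) = 1_E physFn z` a.e. (`xv_physFn_restr`) and `ρ = 0` off `E`.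
ADM2.  Let `(ι, s, u, ρ, 𝔅)` be a system of rows; `B ν = s5a_rowSemi (ρ ν)`; `N = ‖restr J F‖`.     `z (u ν) = α • restr (u ν) F + ∑_i β_i • cproj (m_i (u ν)) (u ν) F + Z (u ν)`, so
      `B ν (z (u ν)) ≤ B ν (restr (u ν) F) + ∑_i B ν (cproj …) + B ν (Z (u ν))`    (seminorm: `map_add_le_add`, `map_smul_eq_mul`, `‖α‖, ‖β_i‖ ≤ 1`).
   (a) `B ν (restr (u ν) F) = B ν (restr (u ν) (restr J F)) = B ν (restr J F)` (`xv_restr_cell_le`, locality): `∑_ν … ≤ 𝔅 N²`.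
   (b) `s3_compression` with `R = J`, `W = [(m_i, false)]`, `z = restr J F`: `s7prod [(m_i,false)] I z = cproj (m_i I) I (restr I z)` (unfold `s7prod`, `s7fac`) `= cproj (m_i I) I F` (`xv_cproj_restr`, `xv_cproj_restr_le`): `∑_ν … ≤ 𝔅 (4 K1) N²`.
   (c) group by the cell: `∑_{ν ∈ s} B ν (Z (u ν))² = ∑_{I ∈ s.image u} ∑_{ν ∈ s, u ν = I} B ν (Z I)² ≤ ∑_I 𝔅 ‖Z I‖² ≤ 𝔅 L² N²` (`Finset.sum_fiberwise_of_maps_to`; the inner sum is a sub-sum of the Bessel sum at `x = Z I`).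
   `ℓ²` triangle inequality (`s3_sum_sq_add_le`, four times):  `∑_ν B ν (z (u ν))² ≤ (√𝔅 N (1 + 3 √(4 K1) + L))²`.
 * `s5a_adm_delay`: `restr I F - dproj m I K0 F = 1 • restr I F + (-1) • cproj (m I) I F + Z I`, `Z I = -(dproj m I K0 F - cproj (m I) I F)` (copy `s5r_adm_delayed`; `s5r_rolling`, `s5r_restr_roll`).
-/
import Claimed.Agent.R258.S5a.Defs
import Claimed.Agent.R258.S5.Roll
import Claimed.Agent.R258.S3.Final

set_option autoImplicit false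
open MeasureTheory
open scoped ENNReal ContDiff ComplexConjugate

namespace Claimed.Agent.R258

section ADM1

theorem s5a_colBudget {J : Cell} {m : Cell → Finset Col} {ch : ℕ → Chart} {Dh : ℝ} (hm : Inh J m) (hb : Bud J m ch Dh)
    (hD : Real.exp 2 ≤ Dh) : ColBudget J {Φ | ∃ I, I ≤ J ∧ Φ ∈ m I} Dh := by
  have h2 : (2 : ℝ) ≤ Dh := by
    have := Real.add_one_le_exp (2 : ℝ)
    linarith
  exact s3_colBudget_of_bud h2 hm hb

theorem s5a_row_integrable {ρ : ℝ → ℂ} (hρ : MemLp ρ 2 volume) (x : XV) : Integrable fun y => ρ y * physFn x y :=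
  hρ.integrable_mul (xv_physFn_memLp x)

/-- the row `x ↦ |∫ ρ x_phys|` as a seminorm -/
theorem s5a_rowSemi (ρ : ℝ → ℂ) (hρ : MemLp ρ 2 volume) :
    ∃ B : Seminorm ℂ XV, ∀ x : XV, B x = ‖∫ y, ρ y * physFn x y‖ := by
  refine ⟨Seminorm.of (fun x : XV => ‖∫ y, ρ y * physFn x y‖) (fun x x' => ?_) (fun c x => ?_), fun x => rfl⟩
  · have : ∫ y, ρ y * physFn (x + x') y = (∫ y, ρ y * physFn x y) + ∫ y, ρ y * physFn x' y := by
      rw [← integral_add (s5a_row_integrable hρ x) (s5a_row_integrable hρ x')]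
      apply integral_congr_ae
      filter_upwards [xv_physFn_add x x'] with y hy
      rw [hy]; ring
    rw [this]
    exact norm_add_le _ _
  · have : ∫ y, ρ y * physFn (c • x) y = c * ∫ y, ρ y * physFn x y := by
      rw [← integral_const_mul]
      apply integral_congr_ae
      filter_upwards [xv_physFn_smul c x] with y hy
      rw [hy]; ring
    rw [this, norm_mul]

theorem s5a_phys_sq_le (x : XV) : ∫ y, ‖physFn x y‖ ^ 2 ≤ ‖x‖ ^ 2 := by
  rw [xv_normsq_eq_integral]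
  refine integral_mono ((xv_physFn_memLp x).integrable_norm_pow (by norm_num)) (xv_integrable_normsq x) fun y => ?_
  exact pow_le_pow_left₀ (norm_nonneg _) (xv_physFn_norm_le x y) 2

theorem s5a_row_local (ρ : ℝ → ℂ) (I : Cell) (h0 : ∀ y, y ∉ I.set → ρ y = 0) (z : XV) :
    ∫ y, ρ y * physFn (restr I.set z) y = ∫ y, ρ y * physFn z y := by
  apply integral_congr_ae
  filter_upwards [xv_physFn_restr (cell_measurableSet I) z] with y hy
  rw [hy]
  by_cases hyI : y ∈ I.set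
  · rw [Set.indicator_of_mem hyI]
  · rw [h0 y hyI, zero_mul, zero_mul]

end ADM1

section ADM2

/-- the constant of the row bound -/
noncomputable def s5a_Ka (Dh L : ℝ) : ℝ := 1 + 3 * Real.sqrt (4 * s3_K1 Dh) + L

theorem s5a_one_le_Ka (Dh L : ℝ) (hL : 0 ≤ L) : 1 ≤ s5a_Ka Dh L := by
  unfold s5a_Ka
  have := Real.sqrt_nonneg (4 * s3_K1 Dh)
  linarith

/-- **admissible sequences satisfy the row bound** -/
theorem s5a_adm_row {J : Cell} {F : XV} {Dh L : ℝ} {z : Cell → XV} (h : AdmSeq J F Dh L z) (hD : Real.exp 2 ≤ Dh)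
    (hL : 0 ≤ L) : s5a_SRow J (fun I => physFn (z I)) (s5a_Ka Dh L * ‖restr J.set F‖) := by
  classical
  obtain ⟨α, β, m, ch, Z, hα, hβ, hm, hb, hZr, hZ, hz⟩ := h
  have hKa := s5a_one_le_Ka Dh L hL
  refine ⟨by positivity, fun I => ((xv_continuous_coord 0).comp_stronglyMeasurable (Lp.stronglyMeasurable _)).measurable,
    fun I => xv_physFn_memLp _, ?_⟩
  intro ι s u ρ 𝔅 h𝔅 hu hρ hρ0 hbes
  set N := ‖restr J.set F‖ with hN
  have hex : ∀ ν, ∃ B : Seminorm ℂ XV, ν ∈ s → ∀ x : XV, B x = ‖∫ y, ρ ν y * physFn x y‖ := by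
    intro ν
    by_cases hν : ν ∈ s
    · obtain ⟨B, hB⟩ := s5a_rowSemi (ρ ν) (hρ ν hν)
      exact ⟨B, fun _ => hB⟩
    · exact ⟨0, fun h => absurd h hν⟩
  choose B hB using hex
  have hBes : ∀ x : XV, ∑ ν ∈ s, (B ν x) ^ 2 ≤ 𝔅 * ‖x‖ ^ 2 := by
    intro x
    rw [Finset.sum_congr rfl fun ν hν => by rw [hB ν hν x]]
    exact (hbes _ (xv_physFn_memLp x)).trans (mul_le_mul_of_nonneg_left (s5a_phys_sq_le x) h𝔅)
  have hloc : ∀ ν ∈ s, ∀ x, B ν (restr (u ν).set x) = B ν x := by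
    intro ν hν x
    rw [hB ν hν, hB ν hν, s5a_row_local (ρ ν) (u ν) (hρ0 ν hν)]
  have hK1 : 0 ≤ 4 * s3_K1 Dh := by have := s3_one_le_K1 Dh; linarith
  -- (a)
  have ha : ∑ ν ∈ s, (B ν (restr (u ν).set F)) ^ 2 ≤ (Real.sqrt 𝔅 * N) ^ 2 := by
    rw [mul_pow, Real.sq_sqrt h𝔅]
    refine le_trans (le_of_eq ?_) (hBes (restr J.set F))
    refine Finset.sum_congr rfl fun ν hν => ?_
    rw [← hloc ν hν (restr J.set F), xv_restr_cell_le (hu ν hν)]
  -- (b)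
  have hbb : ∀ i, ∑ ν ∈ s, (B ν (cproj (m i (u ν)) (u ν) F)) ^ 2 ≤ (Real.sqrt 𝔅 * Real.sqrt (4 * s3_K1 Dh) * N) ^ 2 := by
    intro i
    have h1 := s3_compression (s5a_colBudget (hm i) (hb i) hD) [(m i, false)]
      (fun f hf => by
        rw [List.mem_singleton] at hf
        rw [hf]
        exact s3_MaskIn.of_inh (hm i) fun I hI Φ hΦ => ⟨I, hI, hΦ⟩) s B u hu 𝔅 h𝔅 hBes hloc (restr J.set F)
    rw [mul_pow, mul_pow, Real.sq_sqrt h𝔅, Real.sq_sqrt hK1]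
    refine le_trans (le_of_eq ?_) (h1.trans (le_of_eq ?_))
    · refine Finset.sum_congr rfl fun ν hν => ?_
      have : s7prod [(m i, false)] (u ν) (restr J.set F) = cproj (m i (u ν)) (u ν) F := by
        show (s7fac (m i, false) (u ν)) (restr (u ν).set (restr J.set F)) = _
        unfold s7fac
        simp only [Bool.false_eq_true, if_false]
        rw [xv_cproj_restr, xv_cproj_restr_le _ (hu ν hν)]
      rw [this]
    · rw [List.length_singleton, pow_one]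
  -- (c)
  have hc : ∑ ν ∈ s, (B ν (Z (u ν))) ^ 2 ≤ (Real.sqrt 𝔅 * L * N) ^ 2 := by
    rw [mul_pow, mul_pow, Real.sq_sqrt h𝔅]
    rw [← Finset.sum_fiberwise_of_maps_to (s := s) (t := s.image u) (g := u) (fun ν hν => Finset.mem_image_of_mem u hν)]
    calc ∑ I ∈ s.image u, ∑ ν ∈ s with u ν = I, (B ν (Z (u ν))) ^ 2 ≤ ∑ I ∈ s.image u, 𝔅 * ‖Z I‖ ^ 2 := by
          refine Finset.sum_le_sum fun I _ => ?_
          calc ∑ ν ∈ s with u ν = I, (B ν (Z (u ν))) ^ 2 = ∑ ν ∈ s with u ν = I, (B ν (Z I)) ^ 2 :=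
                Finset.sum_congr rfl fun ν hν => by rw [(Finset.mem_filter.1 hν).2]
            _ ≤ ∑ ν ∈ s, (B ν (Z I)) ^ 2 :=
                Finset.sum_le_sum_of_subset_of_nonneg (Finset.filter_subset _ _) fun _ _ _ => sq_nonneg _
            _ ≤ 𝔅 * ‖Z I‖ ^ 2 := hBes (Z I)
      _ = 𝔅 * ∑ I ∈ s.image u, ‖Z I‖ ^ 2 := by rw [Finset.mul_sum]
      _ ≤ 𝔅 * (L ^ 2 * N ^ 2) := by
          refine mul_le_mul_of_nonneg_left (hZ _ fun I hI => ?_) h𝔅
          obtain ⟨ν, hν, rfl⟩ := Finset.mem_image.1 hI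
          exact hu ν hν
      _ = 𝔅 * L ^ 2 * N ^ 2 := by ring
  -- pointwise
  have hpt : ∀ ν ∈ s, B ν (z (u ν)) ≤ (B ν (restr (u ν).set F) + ((B ν (cproj (m 0 (u ν)) (u ν) F) +
      B ν (cproj (m 1 (u ν)) (u ν) F)) + B ν (cproj (m 2 (u ν)) (u ν) F))) + B ν (Z (u ν)) := by
    intro ν hν
    rw [hz (u ν) (hu ν hν), Fin.sum_univ_three]
    have hsm : ∀ (c : ℂ) (x : XV), ‖c‖ ≤ 1 → B ν (c • x) ≤ B ν x := fun c x hc => by
      rw [map_smul_eq_mul]
      exact mul_le_of_le_one_left (apply_nonneg _ _) hc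
    refine (map_add_le_add (B ν) _ _).trans (add_le_add_left ?_ _)
    refine (map_add_le_add (B ν) _ _).trans (add_le_add (hsm _ _ hα) ?_)
    refine (map_add_le_add (B ν) _ _).trans (add_le_add ?_ (hsm _ _ (hβ 2)))
    exact (map_add_le_add (B ν) _ _).trans (add_le_add (hsm _ _ (hβ 0)) (hsm _ _ (hβ 1)))
  have hs𝔅 := Real.sqrt_nonneg 𝔅
  have hsK := Real.sqrt_nonneg (4 * s3_K1 Dh)
  have hN0 : 0 ≤ N := norm_nonneg _
  have t1 := s3_sum_sq_add_le s (fun ν => B ν (cproj (m 0 (u ν)) (u ν) F) + B ν (cproj (m 1 (u ν)) (u ν) F)) _ _ _ _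
    (by positivity) (by positivity) (fun ν _ => add_nonneg (apply_nonneg _ _) (apply_nonneg _ _)) (fun ν _ => le_rfl) (hbb 0) (hbb 1)
  have t2 := s3_sum_sq_add_le s (fun ν => (B ν (cproj (m 0 (u ν)) (u ν) F) + B ν (cproj (m 1 (u ν)) (u ν) F)) +
    B ν (cproj (m 2 (u ν)) (u ν) F)) _ _ _ _ (by positivity) (by positivity)
    (fun ν _ => add_nonneg (add_nonneg (apply_nonneg _ _) (apply_nonneg _ _)) (apply_nonneg _ _)) (fun ν _ => le_rfl) t1 (hbb 2)
  have t3 := s3_sum_sq_add_le s (fun ν => B ν (restr (u ν).set F) + ((B ν (cproj (m 0 (u ν)) (u ν) F) +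
    B ν (cproj (m 1 (u ν)) (u ν) F)) + B ν (cproj (m 2 (u ν)) (u ν) F))) _ _ _ _ (by positivity) (by positivity)
    (fun ν _ => add_nonneg (apply_nonneg _ _) (add_nonneg (add_nonneg (apply_nonneg _ _) (apply_nonneg _ _)) (apply_nonneg _ _)))
    (fun ν _ => le_rfl) ha t2
  have t4 := s3_sum_sq_add_le s (fun ν => B ν (z (u ν))) _ _ _ _ (by positivity) (by positivity)
    (fun ν _ => apply_nonneg _ _) hpt t3 hc
  rw [Finset.sum_congr rfl fun ν hν => by rw [← hB ν hν (z (u ν))]]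
  refine t4.trans (le_of_eq ?_)
  unfold s5a_Ka
  have e : 𝔅 = Real.sqrt 𝔅 ^ 2 := (Real.sq_sqrt h𝔅).symm
  conv_rhs => rw [e]
  ring

/-- the delayed residual is admissible with `L = K0` -/
theorem s5a_adm_delay (J : Cell) (F : XV) (m : Cell → Finset Col) (ch : ℕ → Chart) (Dh : ℝ) (K0 : ℕ) (hm : Inh J m)
    (hb : Bud J m ch Dh) : AdmSeq J F Dh K0 (fun I => restr I.set F - dproj m I K0 F) := by
  refine ⟨1, ![-1, 0, 0], fun _ => m, fun _ => ch, fun I => -(dproj m I K0 F - cproj (m I) I F), by simp, ?_, fun _ => hm,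
    fun _ => hb, fun I => by rw [map_neg, s5r_restr_roll], fun A hA => ?_, fun I _ => ?_⟩
  · intro i; fin_cases i <;> simp
  · simp only [norm_neg]
    exact s5r_rolling J m hm K0 F A hA
  · simp [Fin.sum_univ_three]
    abel

end ADM2

end Claimed.Agent.R258
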