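/-
Row 258, block [S5a] (architect helper192).  FILE Num = leaves P-S5a-NUM3 (`s5a_pl_exp`, `s5a_top_num`), P-S5a-NUM4 (`s5a_top_num2`, `s5a_qp_qpoly`, `s5a_pl_wt`): the numerics of the top assembly.    No paper.  Pure real analysis.
Tools: S4a/Qp.lean, S4a/QpAuto.lean (calculus `s4a_IsPL` / `s4a_IsQP`; model of use: `s4a_sep_num` in S4a/Sep.lean).

`s5a_pl_exp`: `(1+y)^n ≤ K e^{a y}`: e.g. `(a(1+y))^n / n! ≤ e^{a(1+y)}` (`Real.pow_div_factorial_le_exp`), `K = n! a^{-n} e^{a}`.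
`s5a_top_num`.  Parameters `p = (H,B)`, size `x = B + log H ≥ 3`.  `S₀ = s4b_qp Cap (log H)`.   CHOICES (all logarithms are polylogarithmic in `x`, so all quantities are `IsQP`):
  * `K₁` from `s5a_pl_exp Ccr (1/(2 Cap))`;   `log X₁ := log H + 2 Cap (log (3 Ccr K₁ + 1) + B + s4a_pl Cap (log H))`, `X₁ = exp (…)`.    For `h > X₁`, `y = log h`:  `S₀ Ccr (1+y)^Ccr ≤ S₀ Ccr K₁ e^{y/(2Cap)} ≤ (e^{-B}/3) e^{y/Cap}` because `e^{y/(2Cap)} ≥ 3 Ccr K₁ e^{B} S₀`;  `h^(1/Cap) = e^{y/Cap}` (`Real.rpow_def_of_pos`).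
  * `K₂` from `s5a_pl_exp Ct (1/2)`;  `L₁ = log X₁ + log 8`;   `z := 1 + 2 (log (3 Ct K₂ + 1) + B + s4a_pl Cap (log H) + Ct log (1 + L₁))`, `δ₀ = e^{-z}` (`< 1/2` since `z ≥ 1`… use `z ≥ 3`, `B ≥ 1`);   `log (8/δ₀) = log 8 + z`, `1 + L₁ + z ≤ (1+L₁)(1+z)`,
    `δ₀ Ct (1+L₁)^Ct (1+z)^Ct ≤ Ct (1+L₁)^Ct K₂ e^{-z/2} ≤ e^{-B}/(3 S₀)`.
  * `D = s4b_qp Ct (log X₁ + z)` (`IsQP.comp`);   `T := ⌈3 e^{B} S₀ K D (1+D)⌉₊ + 1`;     `Dp := X₁ + (1 + s4b_qp Cap (log H + log X₁) ⌊D⌋₊ (2T+1)^⌊log X₁⌋₊) + S₀ K D 4 (1+D)`   (`IsQP.pow` with the polylogarithmic exponent `⌊log X₁⌋₊`).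
`s5a_top_num2`: `s3_K1_le` (S3/CompAbs.lean, STATEMENT): `4 K1 D ≤ (C₁ log 2D)^C₁`;  `√y ≤ y` for `y ≥ 1`;   `Ka Dh L ≤ 1 + 3 (C₁ (1 + log Dh))^C₁ + L ≤ (C₂ (1 + log Dh + L + K0))^C₂`;  product: exponent `2 C₂`;  `plog (C:ℝ) x = ((C:ℝ)(1+x))^(C:ℝ)` (`Real.rpow_natCast`).
-/
import Claimed.Agent.R258.S5a.Adm
import Claimed.Agent.R258.S4a.QpAuto

set_option autoImplicit false

namespace Claimed.Agent.R258

theorem s5a_pl_exp (n : ℕ) (a : ℝ) (ha : 0 < a) : ∃ K : ℝ, 1 ≤ K ∧ ∀ y : ℝ, 0 ≤ y → (1 + y) ^ n ≤ K * Real.exp (a * y) := by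
  refine ⟨1 + (n.factorial : ℝ) * (a ^ n)⁻¹ * Real.exp a, ?_, fun y hy => ?_⟩
  · have : 0 ≤ (n.factorial : ℝ) * (a ^ n)⁻¹ * Real.exp a := by positivity
    linarith
  · have h1 := Real.pow_div_factorial_le_exp (a * (1 + y)) (by positivity) n
    have hf : (0 : ℝ) < (n.factorial : ℝ) := by exact_mod_cast n.factorial_pos
    rw [div_le_iff₀ hf, mul_pow, mul_add, mul_one, Real.exp_add] at h1
    have han : 0 < a ^ n := by positivity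
    have h2 : (1 + y) ^ n ≤ (n.factorial : ℝ) * (a ^ n)⁻¹ * Real.exp a * Real.exp (a * y) := by
      have : (1 + y) ^ n = (a ^ n)⁻¹ * (a ^ n * (1 + y) ^ n) := by field_simp
      rw [this]
      calc (a ^ n)⁻¹ * (a ^ n * (1 + y) ^ n) ≤ (a ^ n)⁻¹ * (Real.exp a * Real.exp (a * y) * (n.factorial : ℝ)) :=
            mul_le_mul_of_nonneg_left h1 (by positivity)
        _ = _ := by ring
    have h3 : 0 ≤ Real.exp (a * y) := (Real.exp_pos _).le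
    nlinarith

theorem s5a_top_numA (Cap Ccr : ℕ) (hCap : 1 ≤ Cap) (K₁ : ℝ) (hK₁1 : 1 ≤ K₁)
    (hK₁ : ∀ y : ℝ, 0 ≤ y → (1 + y) ^ Ccr ≤ K₁ * Real.exp (1 / (2 * (Cap : ℝ)) * y))
    (S₀ B lX : ℝ) (hS₀ : 0 < S₀) (hlX : 0 ≤ lX)
    (h : 2 * (Cap : ℝ) * (Real.log (3 * Ccr * K₁ + 1) + B + Real.log S₀) ≤ lX) (x : ℝ) (hx : Real.exp lX < x) :
    S₀ * s4a_pl Ccr (Real.log x) ≤ Real.exp (-B) / 3 * x ^ ((Cap : ℝ)⁻¹) := by
  have hCap0 : (0 : ℝ) < (Cap : ℝ) := by exact_mod_cast hCap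
  have hx0 : 0 < x := (Real.exp_pos _).trans hx
  set y := Real.log x with hy
  have hylX : lX < y := by
    rw [hy, Real.lt_log_iff_exp_lt hx0]
    exact hx
  have hy0 : 0 ≤ y := by linarith
  have hc0 : (0 : ℝ) ≤ (Ccr : ℝ) := Nat.cast_nonneg _
  have hq : 0 < 3 * (Ccr : ℝ) * K₁ + 1 := by positivity
  set E := Real.exp (1 / (2 * (Cap : ℝ)) * y) with hE
  have hE0 : 0 < E := Real.exp_pos _
  have hEE : x ^ ((Cap : ℝ)⁻¹) = E * E := by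
    rw [Real.rpow_def_of_pos hx0, hE, ← Real.exp_add]
    congr 1
    field_simp
    ring
  have hG : (3 * (Ccr : ℝ) * K₁ + 1) * Real.exp B * S₀ ≤ E := by
    have e1 : (3 * (Ccr : ℝ) * K₁ + 1) * Real.exp B * S₀ =
        Real.exp (Real.log (3 * Ccr * K₁ + 1) + B + Real.log S₀) := by
      rw [Real.exp_add, Real.exp_add, Real.exp_log hq, Real.exp_log hS₀]
    rw [e1, hE]
    apply Real.exp_le_exp.2
    rw [div_mul_eq_mul_div, one_mul, le_div_iff₀ (by positivity)]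
    linarith
  have h1 : S₀ * s4a_pl Ccr y ≤ S₀ * ((Ccr : ℝ) * (K₁ * E)) := by
    unfold s4a_pl
    exact mul_le_mul_of_nonneg_left (mul_le_mul_of_nonneg_left (hK₁ y hy0) hc0) hS₀.le
  refine h1.trans ?_
  rw [hEE]
  have hB : Real.exp (-B) * Real.exp B = 1 := by rw [← Real.exp_add]; simp
  have h2 : Real.exp (-B) / 3 * (E * ((3 * (Ccr : ℝ) * K₁ + 1) * Real.exp B * S₀)) ≤ Real.exp (-B) / 3 * (E * E) :=
    mul_le_mul_of_nonneg_left (mul_le_mul_of_nonneg_left hG hE0.le) (by positivity)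
  have h3 : Real.exp (-B) / 3 * (E * ((3 * (Ccr : ℝ) * K₁ + 1) * Real.exp B * S₀)) =
      (Real.exp (-B) * Real.exp B) * (E * (3 * (Ccr : ℝ) * K₁ + 1) * S₀ / 3) := by ring
  rw [h3, hB, one_mul] at h2
  refine le_trans ?_ h2
  have : 0 ≤ E * S₀ := by positivity
  nlinarith

theorem s5a_top_numB (Ct : ℕ) (K₂ : ℝ) (hK₂1 : 1 ≤ K₂)
    (hK₂ : ∀ y : ℝ, 0 ≤ y → (1 + y) ^ Ct ≤ K₂ * Real.exp (1 / 2 * y))
    (S₀ B L₁ z : ℝ) (hS₀ : 0 < S₀) (hL₁ : 0 ≤ L₁) (hz : 0 ≤ z)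
    (h : 2 * (Real.log (3 * Ct * K₂ + 1) + B + Real.log S₀ + Ct * Real.log (1 + L₁)) ≤ z) :
    S₀ * (Real.exp (-z) * s4a_pl Ct (L₁ + z)) ≤ Real.exp (-B) / 3 := by
  have hc0 : (0 : ℝ) ≤ (Ct : ℝ) := Nat.cast_nonneg _
  have hq : 0 < 3 * (Ct : ℝ) * K₂ + 1 := by positivity
  have hL : 0 < 1 + L₁ := by linarith
  set W := Real.exp (1 / 2 * z) with hW
  have hW0 : 0 < W := Real.exp_pos _
  set Λ := (1 + L₁) ^ Ct with hΛ
  have hΛ0 : 0 < Λ := by positivity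
  have hG : (3 * (Ct : ℝ) * K₂ + 1) * Real.exp B * S₀ * Λ ≤ W := by
    have e1 : (3 * (Ct : ℝ) * K₂ + 1) * Real.exp B * S₀ * Λ =
        Real.exp (Real.log (3 * Ct * K₂ + 1) + B + Real.log S₀ + Ct * Real.log (1 + L₁)) := by
      rw [Real.exp_add, Real.exp_add, Real.exp_add, Real.exp_log hq, Real.exp_log hS₀, mul_comm (Ct : ℝ),
        Real.exp_mul, Real.exp_log hL, Real.rpow_natCast]
    rw [e1, hW]
    apply Real.exp_le_exp.2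
    linarith
  have hzW : Real.exp (-z) * (W * W) = 1 := by
    rw [hW, ← Real.exp_add, ← Real.exp_add]
    have : -z + (1 / 2 * z + 1 / 2 * z) = 0 := by ring
    rw [this, Real.exp_zero]
  have hpl : s4a_pl Ct (L₁ + z) ≤ (Ct : ℝ) * (Λ * (K₂ * W)) := by
    unfold s4a_pl
    refine mul_le_mul_of_nonneg_left ?_ hc0
    calc (1 + (L₁ + z)) ^ Ct ≤ ((1 + L₁) * (1 + z)) ^ Ct :=
          pow_le_pow_left₀ (by linarith) (by nlinarith) _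
      _ = Λ * (1 + z) ^ Ct := mul_pow _ _ _
      _ ≤ Λ * (K₂ * W) := mul_le_mul_of_nonneg_left (hK₂ z hz) hΛ0.le
  have hez : 0 < Real.exp (-z) := Real.exp_pos _
  have h1 : S₀ * (Real.exp (-z) * s4a_pl Ct (L₁ + z)) ≤ S₀ * (Real.exp (-z) * ((Ct : ℝ) * (Λ * (K₂ * W)))) :=
    mul_le_mul_of_nonneg_left (mul_le_mul_of_nonneg_left hpl hez.le) hS₀.le
  refine h1.trans ?_
  have hB : Real.exp (-B) * Real.exp B = 1 := by rw [← Real.exp_add]; simp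
  -- multiply `hG` by `exp (-z) * W * exp (-B) / 3`
  have h2 : Real.exp (-z) * W * (Real.exp (-B) / 3) * ((3 * (Ct : ℝ) * K₂ + 1) * Real.exp B * S₀ * Λ) ≤
      Real.exp (-z) * W * (Real.exp (-B) / 3) * W :=
    mul_le_mul_of_nonneg_left hG (by positivity)
  have h3 : Real.exp (-z) * W * (Real.exp (-B) / 3) * W = (Real.exp (-z) * (W * W)) * (Real.exp (-B) / 3) := by ring
  have h4 : Real.exp (-z) * W * (Real.exp (-B) / 3) * ((3 * (Ct : ℝ) * K₂ + 1) * Real.exp B * S₀ * Λ) =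
      (Real.exp (-B) * Real.exp B) * (Real.exp (-z) * W * ((3 * (Ct : ℝ) * K₂ + 1) * S₀ * Λ) / 3) := by ring
  rw [h3, hzW, one_mul, h4, hB, one_mul] at h2
  refine le_trans ?_ h2
  have : 0 ≤ Real.exp (-z) * W * (S₀ * Λ) := by positivity
  nlinarith

theorem s5a_top_num (Cap Ccr Ct : ℕ) (K : ℝ) (hCap : 1 ≤ Cap) (hK : 0 ≤ K) :
    ∃ C : ℕ, 1 ≤ C ∧ ∀ H B : ℝ, Real.exp 2 ≤ H → 1 ≤ B → ∃ (X₁ δ₀ : ℝ) (T : ℕ) (Dp : ℝ),
      H ≤ X₁ ∧ 0 < δ₀ ∧ δ₀ < 1 / 2 ∧ 1 ≤ T ∧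
      (∀ h : ℝ, X₁ < h →
        s4b_qp Cap (Real.log H) * s4a_pl Ccr (Real.log h) ≤ Real.exp (-B) / 3 * h ^ ((Cap : ℝ)⁻¹)) ∧
      s4b_qp Cap (Real.log H) * (δ₀ * s4a_pl Ct (Real.log X₁ + Real.log (8 / δ₀))) ≤ Real.exp (-B) / 3 ∧
      s4b_qp Cap (Real.log H) * (K * (s4b_qp Ct (Real.log X₁ + Real.log (1 / δ₀)) / T) *
        (1 + s4b_qp Ct (Real.log X₁ + Real.log (1 / δ₀)))) ≤ Real.exp (-B) / 3 ∧
      X₁ ≤ Dp ∧
      1 + s4b_qp Cap (Real.log H + Real.log X₁) * (⌊s4b_qp Ct (Real.log X₁ + Real.log (1 / δ₀))⌋₊ : ℝ) *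
        (2 * (T : ℝ) + 1) ^ ⌊Real.log X₁⌋₊ ≤ Dp ∧
      s4b_qp Cap (Real.log H) * (K * s4b_qp Ct (Real.log X₁ + Real.log (1 / δ₀)) *
        (4 * (1 + s4b_qp Ct (Real.log X₁ + Real.log (1 / δ₀))))) ≤ Dp ∧
      Dp ≤ s4b_qp C (B + Real.log H) := by
  have hCap0 : (0 : ℝ) < (Cap : ℝ) := by exact_mod_cast hCap
  obtain ⟨K₁, hK₁1, hK₁⟩ := s5a_pl_exp Ccr (1 / (2 * (Cap : ℝ))) (by positivity)
  obtain ⟨K₂, hK₂1, hK₂⟩ := s5a_pl_exp Ct (1 / 2) (by norm_num)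
  set c₁ : ℝ := Real.log (3 * Ccr * K₁ + 1) with hc₁
  set c₂ : ℝ := Real.log (3 * Ct * K₂ + 1) with hc₂
  have hc₁0 : 0 ≤ c₁ := Real.log_nonneg (by
    have : 0 ≤ 3 * (Ccr : ℝ) * K₁ := by positivity
    linarith)
  have hc₂0 : 0 ≤ c₂ := Real.log_nonneg (by
    have : 0 ≤ 3 * (Ct : ℝ) * K₂ := by positivity
    linarith)
  have hl8 : 0 ≤ Real.log 8 := Real.log_nonneg (by norm_num)
  -- the functions of the parameters `p = (H, B)`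
  set lX : ℝ × ℝ → ℝ := fun p => Real.log p.1 + 2 * (Cap : ℝ) * (c₁ + p.2 + s4a_pl Cap (Real.log p.1)) with hlX
  set zz : ℝ × ℝ → ℝ := fun p => 1 + 2 * (c₂ + p.2 + s4a_pl Cap (Real.log p.1) +
    (Ct : ℝ) * Real.log (1 + (lX p + Real.log 8))) with hzz
  set S₀ : ℝ × ℝ → ℝ := fun p => s4b_qp Cap (Real.log p.1) with hS₀
  set DD : ℝ × ℝ → ℝ := fun p => s4b_qp Ct (lX p + zz p) with hDD
  set TT : ℝ × ℝ → ℕ := fun p => ⌈3 * Real.exp p.2 * S₀ p * K * DD p * (1 + DD p)⌉₊ + 1 with hTT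
  set Dp : ℝ × ℝ → ℝ := fun p => Real.exp (lX p) +
    (1 + s4b_qp Cap (Real.log p.1 + lX p) * (⌊DD p⌋₊ : ℝ) * (2 * (TT p : ℝ) + 1) ^ ⌊lX p⌋₊) +
    S₀ p * (K * DD p * (4 * (1 + DD p))) with hDp
  set V : ℝ × ℝ → Prop := fun p => Real.exp 2 ≤ p.1 ∧ 1 ≤ p.2 with hV
  set x : ℝ × ℝ → ℝ := fun p => p.2 + Real.log p.1 with hxdef
  have hH1 : ∀ p, V p → 1 ≤ p.1 := fun p hp =>
    le_trans (Real.one_le_exp (by norm_num : (0 : ℝ) ≤ 2)) hp.1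
  have hlH : ∀ p, V p → 0 ≤ Real.log p.1 := fun p hp => Real.log_nonneg (hH1 p hp)
  have hx : ∀ p, V p → 0 ≤ x p := fun p hp => add_nonneg (by linarith [hp.2]) (hlH p hp)
  have pc : ∀ c : ℝ, 0 ≤ c → s4a_IsPL V x (fun _ => c) := fun c hc => s4a_IsPL.const hx c hc
  have qc : ∀ c : ℝ, 0 ≤ c → s4a_IsQP V x (fun _ => c) := fun c hc => s4a_IsQP.const hx c hc
  have plH : s4a_IsPL V x (fun p => Real.log p.1) :=
    (s4a_IsPL.size hx).mono hlH (fun p hp => by simp only [hxdef]; linarith [hp.2])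
  have pB : s4a_IsPL V x (fun p => p.2) :=
    (s4a_IsPL.size hx).mono (fun p hp => by linarith [hp.2]) (fun p hp => by
      simp only [hxdef]; linarith [hlH p hp])
  have ppl : s4a_IsPL V x (fun p => s4a_pl Cap (Real.log p.1)) := s4a_IsPL.comp hx Cap plH
  have plX : s4a_IsPL V x lX :=
    plH.add hx (((pc 2 (by norm_num)).mul hx (pc (Cap : ℝ) hCap0.le)).mul hx
      (((pc c₁ hc₁0).add hx pB).add hx ppl))
  have hlX0 : ∀ p, V p → 0 ≤ lX p := fun p hp => by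
    obtain ⟨C, hC⟩ := plX
    exact (hC p hp).1
  have pL₁ : s4a_IsPL V x (fun p => lX p + Real.log 8) := plX.add hx (pc _ hl8)
  have plog1 : s4a_IsPL V x (fun p => Real.log (1 + (lX p + Real.log 8))) :=
    pL₁.mono (fun p hp => Real.log_nonneg (by linarith [hlX0 p hp]))
      (fun p hp => by
        have := Real.log_le_sub_one_of_pos (show 0 < 1 + (lX p + Real.log 8) by linarith [hlX0 p hp])
        linarith)
  have pzz : s4a_IsPL V x zz :=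
    (pc 1 zero_le_one).add hx ((pc 2 (by norm_num)).mul hx
      ((((pc c₂ hc₂0).add hx pB).add hx ppl).add hx ((pc (Ct : ℝ) (Nat.cast_nonneg _)).mul hx plog1)))
  have qS₀ : s4a_IsQP V x S₀ := s4a_IsQP.comp hx Cap plH
  have qDD : s4a_IsQP V x DD := s4a_IsQP.comp hx Ct (plX.add hx pzz)
  have qeB : s4a_IsQP V x (fun p => Real.exp p.2) := s4a_IsQP.exp pB
  have qarg : s4a_IsQP V x (fun p => 3 * Real.exp p.2 * S₀ p * K * DD p * (1 + DD p)) :=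
    (((((qc 3 (by norm_num)).mul hx qeB).mul hx qS₀).mul hx (qc K hK)).mul hx qDD).mul hx
      ((qc 1 zero_le_one).add hx qDD)
  have harg0 : ∀ p, V p → 0 ≤ 3 * Real.exp p.2 * S₀ p * K * DD p * (1 + DD p) := fun p hp => by
    obtain ⟨C, hC⟩ := qarg
    exact (hC p hp).1
  have qTT : s4a_IsQP V x (fun p => (TT p : ℝ)) :=
    (qarg.add hx (qc 2 (by norm_num))).mono (fun p _ => Nat.cast_nonneg _) (fun p hp => by
      simp only [hTT]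
      push_cast
      have := (Nat.ceil_lt_add_one (harg0 p hp)).le
      linarith)
  have qfl : s4a_IsQP V x (fun p => (⌊DD p⌋₊ : ℝ)) :=
    qDD.mono (fun p _ => Nat.cast_nonneg _) (fun p _ => Nat.floor_le (s4a_qp_pos _ _).le)
  have pfl : s4a_IsPL V x (fun p => (⌊lX p⌋₊ : ℝ)) :=
    plX.mono (fun p _ => Nat.cast_nonneg _) (fun p hp => Nat.floor_le (hlX0 p hp))
  have qDp : s4a_IsQP V x Dp :=
    ((s4a_IsQP.exp plX).add hx ((qc 1 zero_le_one).add hx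
      (((s4a_IsQP.comp hx Cap (plH.add hx plX)).mul hx qfl).mul hx
        ((((qc 2 (by norm_num)).mul hx qTT).add hx (qc 1 zero_le_one)).pow hx pfl)))).add hx
      (qS₀.mul hx (((qc K hK).mul hx qDD).mul hx ((qc 4 (by norm_num)).mul hx ((qc 1 zero_le_one).add hx qDD))))
  obtain ⟨C₀, hC₀⟩ := qDp.elim
  refine ⟨max C₀ 1, le_max_right _ _, fun H B hH hB => ?_⟩
  have hp : V (H, B) := ⟨hH, hB⟩
  set p : ℝ × ℝ := (H, B) with hpdef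
  have hlHp : 0 ≤ Real.log H := hlH p hp
  have hS₀pos : 0 < S₀ p := s4a_qp_pos _ _
  have hlogS : Real.log (S₀ p) = s4a_pl Cap (Real.log H) := s4a_log_qp _ _
  have hpl0 : 0 ≤ s4a_pl Cap (Real.log H) := s4a_pl_nonneg Cap hlHp
  have hlXp : 0 ≤ lX p := hlX0 p hp
  have hlXe : lX p = Real.log H + 2 * (Cap : ℝ) * (c₁ + B + s4a_pl Cap (Real.log H)) := rfl
  have hzze : zz p = 1 + 2 * (c₂ + B + s4a_pl Cap (Real.log H) +
      (Ct : ℝ) * Real.log (1 + (lX p + Real.log 8))) := rfl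
  have hlog1 : 0 ≤ (Ct : ℝ) * Real.log (1 + (lX p + Real.log 8)) :=
    mul_nonneg (Nat.cast_nonneg _) (Real.log_nonneg (by linarith))
  have hzz3 : 3 ≤ zz p := by rw [hzze]; linarith
  have hDpos : 0 < DD p := s4a_qp_pos _ _
  have e1 : Real.log (Real.exp (lX p)) = lX p := Real.log_exp _
  have e2 : Real.log (1 / Real.exp (-zz p)) = zz p := by
    rw [one_div, ← Real.exp_neg, neg_neg, Real.log_exp]
  have e3 : Real.log (8 / Real.exp (-zz p)) = Real.log 8 + zz p := by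
    rw [Real.log_div (by norm_num) (Real.exp_pos _).ne', Real.log_exp]
    ring
  have hA0 : 0 ≤ Real.exp (lX p) := (Real.exp_pos _).le
  have hB0 : 0 ≤ 1 + s4b_qp Cap (Real.log H + lX p) * (⌊DD p⌋₊ : ℝ) * (2 * (TT p : ℝ) + 1) ^ ⌊lX p⌋₊ := by
    have := (s4a_qp_pos Cap (Real.log H + lX p)).le
    positivity
  have hC0' : 0 ≤ S₀ p * (K * DD p * (4 * (1 + DD p))) := by positivity
  have hDpe : Dp p = Real.exp (lX p) +
      (1 + s4b_qp Cap (Real.log H + lX p) * (⌊DD p⌋₊ : ℝ) * (2 * (TT p : ℝ) + 1) ^ ⌊lX p⌋₊) +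
      S₀ p * (K * DD p * (4 * (1 + DD p))) := rfl
  refine ⟨Real.exp (lX p), Real.exp (-zz p), TT p, Dp p, ?_, Real.exp_pos _, ?_, Nat.le_add_left _ _, ?_, ?_, ?_,
    ?_, ?_, ?_, ?_⟩
  · calc H = Real.exp (Real.log H) := (Real.exp_log (by linarith [hH1 p hp])).symm
      _ ≤ Real.exp (lX p) := Real.exp_le_exp.2 (by
          rw [hlXe]
          have : 0 ≤ 2 * (Cap : ℝ) * (c₁ + B + s4a_pl Cap (Real.log H)) := by positivity
          linarith)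
  · have h1 : Real.exp (-zz p) ≤ Real.exp (-1) := Real.exp_le_exp.2 (by linarith)
    have h2 : Real.exp (-1) < 1 / 2 := by
      rw [Real.exp_neg, ← one_div]
      apply one_div_lt_one_div_of_lt (by norm_num)
      have := Real.add_one_lt_exp (show (1 : ℝ) ≠ 0 by norm_num)
      linarith
    linarith
  · intro h hh
    refine s5a_top_numA Cap Ccr hCap K₁ hK₁1 hK₁ (S₀ p) B (lX p) hS₀pos hlXp ?_ h hh
    rw [hlogS, hlXe]
    linarith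
  · rw [e1, e3, ← add_assoc]
    refine s5a_top_numB Ct K₂ hK₂1 hK₂ (S₀ p) B (lX p + Real.log 8) (zz p) hS₀pos (by linarith) (by linarith) ?_
    rw [hlogS, hzze]
    linarith
  · rw [e1, e2]
    have hT : 3 * Real.exp B * S₀ p * K * DD p * (1 + DD p) ≤ (TT p : ℝ) := by
      simp only [hTT]
      push_cast
      have := Nat.le_ceil (3 * Real.exp p.2 * S₀ p * K * DD p * (1 + DD p))
      linarith
    have hT0 : (0 : ℝ) < (TT p : ℝ) := by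
      have : 1 ≤ TT p := Nat.le_add_left _ _
      exact_mod_cast this
    have hBB : Real.exp (-B) * Real.exp B = 1 := by rw [← Real.exp_add]; simp
    have e4 : S₀ p * (K * (DD p / (TT p : ℝ)) * (1 + DD p)) = S₀ p * K * DD p * (1 + DD p) / (TT p : ℝ) := by
      ring
    show S₀ p * (K * (DD p / (TT p : ℝ)) * (1 + DD p)) ≤ _
    rw [e4, div_le_iff₀ hT0]
    have h1 : Real.exp (-B) / 3 * (3 * Real.exp B * S₀ p * K * DD p * (1 + DD p)) ≤ Real.exp (-B) / 3 * (TT p : ℝ) :=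
      mul_le_mul_of_nonneg_left hT (by positivity)
    have h2 : Real.exp (-B) / 3 * (3 * Real.exp B * S₀ p * K * DD p * (1 + DD p)) =
        (Real.exp (-B) * Real.exp B) * (S₀ p * K * DD p * (1 + DD p)) := by ring
    rw [h2, hBB, one_mul] at h1
    exact h1
  · rw [hDpe]; linarith
  · rw [e1, e2, hDpe]
    show 1 + s4b_qp Cap (Real.log H + lX p) * (⌊DD p⌋₊ : ℝ) * (2 * (TT p : ℝ) + 1) ^ ⌊lX p⌋₊ ≤ _
    linarith
  · rw [e1, e2, hDpe]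
    show S₀ p * (K * DD p * (4 * (1 + DD p))) ≤ _
    linarith
  · exact (hC₀ p hp).trans (s4a_qp_mono (le_max_left _ _) (hx p hp) le_rfl)

/-- polylogarithms are dominated by small powers (only used for summability) -/
theorem s5a_pl_wt (Ccr Cap : ℕ) (hCap : 1 ≤ Cap) : ∃ K : ℝ, 0 ≤ K ∧ ∀ h : ℝ, 1 ≤ h →
    s4a_pl Ccr (Real.log h) ≤ K * h ^ ((Cap : ℝ)⁻¹) := by
  have hCap0 : (0 : ℝ) < (Cap : ℝ) := by exact_mod_cast hCap
  obtain ⟨K, hK1, hK⟩ := s5a_pl_exp Ccr ((Cap : ℝ)⁻¹) (by positivity)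
  refine ⟨(Ccr : ℝ) * K, by positivity, fun h hh => ?_⟩
  have hy : 0 ≤ Real.log h := Real.log_nonneg hh
  rw [Real.rpow_def_of_pos (by linarith), mul_comm (Real.log h)]
  unfold s4a_pl
  rw [mul_assoc]
  exact mul_le_mul_of_nonneg_left (hK _ hy) (Nat.cast_nonneg _)

theorem s5a_qp_qpoly (C : ℕ) (x : ℝ) (hx : 0 ≤ x) : s4b_qp C x = qpoly (C : ℝ) x := by
  unfold s4b_qp qpoly
  rw [Real.rpow_natCast]

theorem s5a_qpoly_mono {C C' x : ℝ} (hC0 : 0 ≤ C) (hC : C ≤ C') (hx : 0 ≤ x) : qpoly C x ≤ qpoly C' x := by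
  unfold qpoly
  apply Real.exp_le_exp.2
  have h1 : (1 + x) ^ C ≤ (1 + x) ^ C' := Real.rpow_le_rpow_of_exponent_le (by linarith) hC
  exact mul_le_mul hC h1 (by positivity) (hC0.trans hC)

theorem s5a_plog_mono {C C' x : ℝ} (hC0 : 1 ≤ C) (hC : C ≤ C') (hx : 0 ≤ x) : plog C x ≤ plog C' x := by
  unfold plog
  have h1 : C * (1 + x) ≤ C' * (1 + x) := mul_le_mul_of_nonneg_right hC (by linarith)
  have h2 : 1 ≤ C' * (1 + x) := by nlinarith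
  calc (C * (1 + x)) ^ C ≤ (C' * (1 + x)) ^ C := Real.rpow_le_rpow (by positivity) h1 (by linarith)
    _ ≤ (C' * (1 + x)) ^ C' := Real.rpow_le_rpow_of_exponent_le h2 hC

theorem s5a_Ka_le (C₁ : ℕ) (hC₁ : ∀ D : ℝ, 2 ≤ D → 4 * s3_K1 D ≤ ((C₁ : ℝ) * Real.log (2 * D)) ^ C₁)
    (Dh L t : ℝ) (hDh : Real.exp 2 ≤ Dh) (hL : 0 ≤ L) (ht : 1 + Real.log Dh + L ≤ t) :
    s5a_Ka Dh L ≤ (4 * ((C₁ : ℝ) + 1) * t) ^ (C₁ + 1) := by
  have he : (2 : ℝ) ≤ Real.exp 2 := by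
    have := Real.add_one_le_exp (2 : ℝ)
    linarith
  have hD2 : 2 ≤ Dh := he.trans hDh
  have hlD : 0 ≤ Real.log Dh := Real.log_nonneg (by linarith)
  have ht1 : 1 ≤ t := by linarith
  have hl2 : Real.log (2 * Dh) ≤ t := by
    rw [Real.log_mul (by norm_num) (by linarith)]
    have : Real.log 2 ≤ 1 := by
      have := Real.log_two_lt_d9
      linarith
    linarith
  have hl0 : 0 ≤ Real.log (2 * Dh) := Real.log_nonneg (by linarith)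
  set c : ℝ := (C₁ : ℝ) + 1 with hc
  have hc1 : 1 ≤ c := by
    have : (0 : ℝ) ≤ (C₁ : ℝ) := Nat.cast_nonneg _
    linarith
  have hct : 1 ≤ c * t := by nlinarith
  have hK := hC₁ Dh hD2
  have hK1 : 1 ≤ 4 * s3_K1 Dh := by
    have := s3_one_le_K1 Dh
    linarith
  have hsq : Real.sqrt (4 * s3_K1 Dh) ≤ 4 * s3_K1 Dh := by
    rw [Real.sqrt_le_left (by linarith)]
    nlinarith
  have hb : ((C₁ : ℝ) * Real.log (2 * Dh)) ^ C₁ ≤ (c * t) ^ (C₁ + 1) := by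
    calc ((C₁ : ℝ) * Real.log (2 * Dh)) ^ C₁ ≤ (c * t) ^ C₁ := by
          refine pow_le_pow_left₀ (by positivity) ?_ _
          exact mul_le_mul (by linarith) hl2 hl0 (by linarith)
      _ ≤ (c * t) ^ (C₁ + 1) := pow_le_pow_right₀ hct (Nat.le_succ _)
  have ht' : t ≤ (c * t) ^ (C₁ + 1) := by
    calc t ≤ c * t := by nlinarith
      _ = (c * t) ^ 1 := (pow_one _).symm
      _ ≤ (c * t) ^ (C₁ + 1) := pow_le_pow_right₀ hct (by omega)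
  have h4 : (4 : ℝ) ≤ 4 ^ (C₁ + 1) := by
    calc (4 : ℝ) = 4 ^ 1 := (pow_one _).symm
      _ ≤ 4 ^ (C₁ + 1) := pow_le_pow_right₀ (by norm_num) (by omega)
  unfold s5a_Ka
  have e : (4 * c * t) ^ (C₁ + 1) = 4 ^ (C₁ + 1) * (c * t) ^ (C₁ + 1) := by
    rw [mul_assoc, mul_pow]
  rw [e]
  have hpos : 0 ≤ (c * t) ^ (C₁ + 1) := by positivity
  nlinarith

theorem s5a_top_num2 : ∃ C : ℕ, 1 ≤ C ∧ ∀ (Dh L : ℝ) (K0 : ℕ), Real.exp 2 ≤ Dh → 0 ≤ L →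
    s5a_Ka Dh K0 * s5a_Ka Dh L ≤ plog (C : ℝ) (Real.log Dh + L + K0) := by
  obtain ⟨C₁, hC₁⟩ := s3_K1_le
  refine ⟨4 * (C₁ + 1), by omega, fun Dh L K0 hDh hL => ?_⟩
  have hK0 : (0 : ℝ) ≤ (K0 : ℝ) := Nat.cast_nonneg _
  set t : ℝ := 1 + (Real.log Dh + L + K0) with ht
  have h1 := s5a_Ka_le C₁ hC₁ Dh K0 t hDh hK0 (by rw [ht]; linarith)
  have h2 := s5a_Ka_le C₁ hC₁ Dh L t hDh hL (by rw [ht]; linarith)
  have hlD : 0 ≤ Real.log Dh := Real.log_nonneg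
    (le_trans (Real.one_le_exp (by norm_num : (0 : ℝ) ≤ 2)) hDh)
  have ht1 : 1 ≤ t := by rw [ht]; linarith
  have hC0 : (0 : ℝ) ≤ (C₁ : ℝ) := Nat.cast_nonneg _
  have hbase : 1 ≤ 4 * ((C₁ : ℝ) + 1) * t := by nlinarith
  unfold plog
  rw [Real.rpow_natCast, ← ht]
  push_cast
  calc s5a_Ka Dh K0 * s5a_Ka Dh L
      ≤ (4 * ((C₁ : ℝ) + 1) * t) ^ (C₁ + 1) * (4 * ((C₁ : ℝ) + 1) * t) ^ (C₁ + 1) :=
        mul_le_mul h1 h2 (by linarith [s5a_one_le_Ka Dh L hL]) (by positivity)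
    _ = (4 * ((C₁ : ℝ) + 1) * t) ^ (2 * (C₁ + 1)) := by rw [← pow_add]; congr 1; ring
    _ ≤ (4 * ((C₁ : ℝ) + 1) * t) ^ (4 * (C₁ + 1)) := pow_le_pow_right₀ hbase (by omega)

end Claimed.Agent.R258
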