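/-
Row 258, block [S5a] (architect helper192).  FILE Shape = leaf P-S5a-SHAPE: the explicit cutoff `χ = s5a_chi c0`, the moments `m_k`, the mean-zero shapes `sh_k` and the bumps
`s5a_bump c0 I k u = sh_k((u - mid I)/|I|)`.       No paper.  Mathlib only (`Real.smoothTransition`).

With `c1 = min c0 (1/4) ∈ (0, 1/4]`:  `χ(p) = sT((1/2 - c1/2 - p)(2/c1)) * sT((1/2 - c1/2 + p)(2/c1))`, `sT = Real.smoothTransition` (`= 0` on `(-∞,0]`, `= 1` on `[1,∞)`, values in `[0,1]`, `ContDiff ℝ ∞`).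
PLANS.
* `s5a_chi_eq_one`: `|p| ≤ 1/2 - c1` gives both arguments `≥ (c1/2)(2/c1) = 1` (`Real.smoothTransition.one_of_one_le`).   `s5a_chi_eq_zero`: one argument `≤ 0` (`zero_of_nonpos`).
* integrability: continuous with compact support (`Continuous.integrable_of_hasCompactSupport`; support inside `Icc (-1/2) (1/2)`).
* `s5a_mom_zero`: `ee 0 = 1`; `∫ χ ≥ ∫_{[-1/4,1/4]} 1 = 1/2 > 0` (`χ = 1` there because `1/2 - c1 ≥ 1/4`); `∫ χ ≤ 1` (support in `[-1/2,1/2]`, `χ ≤ 1`).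
* `s5a_mom_le`: `‖∫ χ e_k‖ ≤ ∫ χ` (`norm_integral_le_integral_norm`, `‖ee _‖ = 1`).
* `s5a_sh_int`: linearity: `m_k - (m_k/m_0) m_0 = 0`.
* `s5a_sh_bd`: `‖sh_k p‖ ≤ χ + (|m_k|/|m_0|) χ ≤ 2`.     derivative: `sh_k' = χ' e_k + 2π i k χ e_k - (m_k/m_0) χ'`, so `‖sh_k'‖ ≤ 2 X + 2π |k|`, `X = sup |χ'| < ∞` (continuous with compact support: `Continuous.bounded_above_of_compact_support`/`HasCompactSupport.exists_bound_of_continuous`).
  Take `Cχ = 2 X + 7`.
* `s5a_bump_bump`: composition with the affine map `u ↦ (u - mid)/|I|` (`deriv_comp`, factor `1/|I|`); support: `|(u - mid)/|I|| < 1/2 - c1/2 < 1/2`  iff  `left < u < right` region (`mid = left + |I|/2`, `right = left + |I|`: `Cell.right`, `Cell.left`, `ring`).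
* `s5a_bump_int`: substitution (`integral_comp_div`/`integral_comp_sub_div`-type: `MeasureTheory.integral_comp_mul_left`, `integral_sub_right_eq_self`): `∫ bump = |I| ∫ sh_k = 0`.
-/
import Claimed.Agent.R258.S5a.Defs
import Claimed.Agent.R258.Pack006

set_option autoImplicit false
open MeasureTheory
open scoped ENNReal ContDiff ComplexConjugate

namespace Claimed.Agent.R258

variable {c0 : ℝ}

theorem s5a_c1_pos (h : 0 < c0) : 0 < s5a_c1 c0 := lt_min h (by norm_num)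

theorem s5a_c1_le (c0 : ℝ) : s5a_c1 c0 ≤ 1 / 4 := min_le_right _ _

theorem s5a_c1_le' (c0 : ℝ) : s5a_c1 c0 ≤ c0 := min_le_left _ _

theorem s5a_chi_smooth (c0 : ℝ) : ContDiff ℝ ∞ (s5a_chi c0) := by
  unfold s5a_chi
  exact (Real.smoothTransition.contDiff.comp ((contDiff_const.sub contDiff_id).mul contDiff_const)).mul
    (Real.smoothTransition.contDiff.comp ((contDiff_const.add contDiff_id).mul contDiff_const))

theorem s5a_chi_nonneg (c0 p : ℝ) : 0 ≤ s5a_chi c0 p :=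
  mul_nonneg (Real.smoothTransition.nonneg _) (Real.smoothTransition.nonneg _)

theorem s5a_chi_le_one (c0 p : ℝ) : s5a_chi c0 p ≤ 1 :=
  mul_le_one₀ (Real.smoothTransition.le_one _) (Real.smoothTransition.nonneg _) (Real.smoothTransition.le_one _)

theorem s5a_chi_eq_one (h : 0 < c0) {p : ℝ} (hp : |p| ≤ 1 / 2 - s5a_c1 c0) : s5a_chi c0 p = 1 := by
  have hc := s5a_c1_pos h
  have hp' := abs_le.1 hp
  unfold s5a_chi
  rw [Real.smoothTransition.one_of_one_le, Real.smoothTransition.one_of_one_le, one_mul]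
  · rw [mul_div_assoc', le_div_iff₀ hc]
    linarith [hp'.1]
  · rw [mul_div_assoc', le_div_iff₀ hc]
    linarith [hp'.2]

theorem s5a_chi_eq_zero (h : 0 < c0) {p : ℝ} (hp : 1 / 2 - s5a_c1 c0 / 2 ≤ |p|) : s5a_chi c0 p = 0 := by
  have hc := s5a_c1_pos h
  have h2 : 0 ≤ 2 / s5a_c1 c0 := by positivity
  unfold s5a_chi
  rcases le_abs.1 hp with h1 | h1
  · rw [Real.smoothTransition.zero_of_nonpos (mul_nonpos_of_nonpos_of_nonneg (by linarith) h2), zero_mul]
  · rw [Real.smoothTransition.zero_of_nonpos (x := (1 / 2 - s5a_c1 c0 / 2 + p) * (2 / s5a_c1 c0))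
      (mul_nonpos_of_nonpos_of_nonneg (by linarith) h2), mul_zero]

theorem s5a_chi_zero_off (h : 0 < c0) {p : ℝ} (hp : p ∉ Set.Icc (-(1 / 2 : ℝ)) (1 / 2)) : s5a_chi c0 p = 0 := by
  apply s5a_chi_eq_zero h
  have hc := s5a_c1_pos h
  by_contra hcon
  push Not at hcon
  exact hp (abs_le.1 (by linarith))

theorem s5a_ee_lin_contDiff (c : ℝ) : ContDiff ℝ ∞ fun p : ℝ => ee (c * p) :=
  gev_ee_contDiff.comp (contDiff_const.mul contDiff_id)

theorem s5a_chiC_contDiff (c0 : ℝ) : ContDiff ℝ ∞ fun p : ℝ => (s5a_chi c0 p : ℂ) :=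
  Complex.ofRealCLM.contDiff.comp (s5a_chi_smooth c0)

theorem s5a_chi_integrable (h : 0 < c0) (k : ℤ) : Integrable (fun p : ℝ => (s5a_chi c0 p : ℂ) * ee ((k : ℝ) * p)) volume := by
  apply Continuous.integrable_of_hasCompactSupport
  · exact (s5a_chiC_contDiff c0).continuous.mul (s5a_ee_lin_contDiff _).continuous
  · refine HasCompactSupport.of_support_subset_isCompact (isCompact_Icc (a := -(1 / 2 : ℝ)) (b := 1 / 2)) fun p hp => ?_
    by_contra hcon
    exact hp (by simp only [s5a_chi_zero_off h hcon, Complex.ofReal_zero, zero_mul])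

theorem s5a_chiC_integrable (h : 0 < c0) : Integrable (fun p : ℝ => (s5a_chi c0 p : ℂ)) volume := by
  have := s5a_chi_integrable h 0
  simpa [wy_ee_zero] using this

theorem s5a_chiR_integrable (h : 0 < c0) : Integrable (s5a_chi c0) volume := by
  have := (s5a_chiC_integrable h).re
  simpa using this

/-- `m_0 = ∫ χ ∈ [1/2, 1]` -/
theorem s5a_mom_zero (h : 0 < c0) : ∃ m0 : ℝ, 1 / 2 ≤ m0 ∧ m0 ≤ 1 ∧ s5a_mom c0 0 = (m0 : ℂ) ∧ ∫ p, s5a_chi c0 p = m0 := by
  refine ⟨∫ p, s5a_chi c0 p, ?_, ?_, ?_, rfl⟩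
  · have hi : Integrable ((Set.Icc (-(1 / 4 : ℝ)) (1 / 4)).indicator fun _ : ℝ => (1 : ℝ)) :=
      (integrable_indicator_iff measurableSet_Icc).2 (integrableOn_const (by simp))
    have h1 : ∫ p, (Set.Icc (-(1 / 4 : ℝ)) (1 / 4)).indicator (fun _ : ℝ => (1 : ℝ)) p ≤ ∫ p, s5a_chi c0 p := by
      refine integral_mono hi (s5a_chiR_integrable h) fun p => ?_
      by_cases hp : p ∈ Set.Icc (-(1 / 4 : ℝ)) (1 / 4)
      · simp only [Set.indicator_of_mem hp]
        rw [s5a_chi_eq_one h (by have := s5a_c1_le c0; have := abs_le.2 hp; linarith)]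
      · simp only [Set.indicator_of_notMem hp]
        exact s5a_chi_nonneg c0 p
    rw [integral_indicator measurableSet_Icc, setIntegral_const, Real.volume_real_Icc_of_le (by norm_num)] at h1
    norm_num at h1
    linarith
  · have hi : Integrable ((Set.Icc (-(1 / 2 : ℝ)) (1 / 2)).indicator fun _ : ℝ => (1 : ℝ)) :=
      (integrable_indicator_iff measurableSet_Icc).2 (integrableOn_const (by simp))
    have h1 : ∫ p, s5a_chi c0 p ≤ ∫ p, (Set.Icc (-(1 / 2 : ℝ)) (1 / 2)).indicator (fun _ : ℝ => (1 : ℝ)) p := by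
      refine integral_mono (s5a_chiR_integrable h) hi fun p => ?_
      by_cases hp : p ∈ Set.Icc (-(1 / 2 : ℝ)) (1 / 2)
      · simp only [Set.indicator_of_mem hp]
        exact s5a_chi_le_one c0 p
      · simp only [Set.indicator_of_notMem hp]
        exact (s5a_chi_zero_off h hp).le
    rw [integral_indicator measurableSet_Icc, setIntegral_const, Real.volume_real_Icc_of_le (by norm_num)] at h1
    norm_num at h1
    linarith
  · unfold s5a_mom
    simp only [Int.cast_zero, zero_mul, wy_ee_zero, mul_one]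
    exact integral_complex_ofReal

theorem s5a_mom_le (h : 0 < c0) (k : ℤ) : ‖s5a_mom c0 k‖ ≤ ‖s5a_mom c0 0‖ := by
  obtain ⟨m0, h1, _, h3, h4⟩ := s5a_mom_zero h
  rw [h3, Complex.norm_real, Real.norm_of_nonneg (by linarith), ← h4]
  unfold s5a_mom
  refine (norm_integral_le_integral_norm _).trans (le_of_eq ?_)
  refine integral_congr_ae (Filter.Eventually.of_forall fun p => ?_)
  simp only
  rw [norm_mul, wy_ee_norm, mul_one, Complex.norm_real, Real.norm_of_nonneg (s5a_chi_nonneg c0 p)]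

theorem s5a_mom_zero_ne (h : 0 < c0) : s5a_mom c0 0 ≠ 0 := by
  obtain ⟨m0, h1, _, h3, _⟩ := s5a_mom_zero h
  rw [h3]
  have : m0 ≠ 0 := by linarith
  exact_mod_cast this

theorem s5a_mom_ratio_le (h : 0 < c0) (k : ℤ) : ‖s5a_mom c0 k / s5a_mom c0 0‖ ≤ 1 := by
  rw [norm_div]
  exact div_le_one_of_le₀ (s5a_mom_le h k) (norm_nonneg _)

theorem s5a_sh_smooth (c0 : ℝ) (k : ℤ) : ContDiff ℝ ∞ (s5a_sh c0 k) := by
  unfold s5a_sh
  exact ((s5a_chiC_contDiff c0).mul (s5a_ee_lin_contDiff _)).sub (contDiff_const.mul (s5a_chiC_contDiff c0))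

theorem s5a_sh_eq_zero (h : 0 < c0) (k : ℤ) {p : ℝ} (hp : 1 / 2 - s5a_c1 c0 / 2 ≤ |p|) : s5a_sh c0 k p = 0 := by
  unfold s5a_sh
  rw [s5a_chi_eq_zero h hp]
  simp

theorem s5a_sh_integrable (h : 0 < c0) (k : ℤ) : Integrable (s5a_sh c0 k) volume :=
  (s5a_chi_integrable h k).sub ((s5a_chiC_integrable h).const_mul _)

theorem s5a_sh_int (h : 0 < c0) (k : ℤ) : ∫ p, s5a_sh c0 k p = 0 := by
  unfold s5a_sh
  rw [integral_sub (s5a_chi_integrable h k) ((s5a_chiC_integrable h).const_mul _), integral_const_mul]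
  have h0 : ∫ p : ℝ, (s5a_chi c0 p : ℂ) = s5a_mom c0 0 := by
    unfold s5a_mom
    simp only [Int.cast_zero, zero_mul, wy_ee_zero, mul_one]
  rw [h0, div_mul_cancel₀ _ (s5a_mom_zero_ne h)]
  exact sub_self _

theorem s5a_sh_bd (h : 0 < c0) (k : ℤ) (p : ℝ) : ‖s5a_sh c0 k p‖ ≤ 2 := by
  unfold s5a_sh
  have hn : ‖(s5a_chi c0 p : ℂ)‖ ≤ 1 := by
    rw [Complex.norm_real, Real.norm_of_nonneg (s5a_chi_nonneg c0 p)]
    exact s5a_chi_le_one c0 p
  calc _ ≤ ‖(s5a_chi c0 p : ℂ) * ee ((k : ℝ) * p)‖ + ‖s5a_mom c0 k / s5a_mom c0 0 * (s5a_chi c0 p : ℂ)‖ := norm_sub_le _ _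
    _ ≤ 1 + 1 := by
        apply add_le_add
        · rw [norm_mul, wy_ee_norm, mul_one]
          exact hn
        · rw [norm_mul]
          exact mul_le_one₀ (s5a_mom_ratio_le h k) (norm_nonneg _) hn
    _ = 2 := by norm_num

theorem s5a_sh_hasDerivAt (c0 : ℝ) (k : ℤ) (p : ℝ) : HasDerivAt (s5a_sh c0 k)
    (((deriv (s5a_chi c0) p : ℝ) : ℂ) * ee ((k : ℝ) * p)
      + (s5a_chi c0 p : ℂ) * (2 * Real.pi * (k : ℝ) * Complex.I * ee ((k : ℝ) * p))
      - s5a_mom c0 k / s5a_mom c0 0 * ((deriv (s5a_chi c0) p : ℝ) : ℂ)) p := by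
  have h1 : HasDerivAt (fun p : ℝ => (s5a_chi c0 p : ℂ)) ((deriv (s5a_chi c0) p : ℝ) : ℂ) p :=
    (((s5a_chi_smooth c0).differentiable (by simp)).differentiableAt.hasDerivAt).ofReal_comp
  have h2 : HasDerivAt (fun p : ℝ => ee ((k : ℝ) * p)) (2 * Real.pi * (k : ℝ) * Complex.I * ee ((k : ℝ) * p)) p := by
    have g1 : HasDerivAt (fun y : ℝ => (k : ℝ) * y) (k : ℝ) p := by simpa using (hasDerivAt_id p).const_mul (k : ℝ)
    have g2 := HasDerivAt.scomp (g₁ := ee) (h := fun y : ℝ => (k : ℝ) * y) p (gev_ee_hasDerivAt ((k : ℝ) * p)) g1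
    refine g2.congr_deriv ?_
    rw [Complex.real_smul]
    ring
  exact (h1.mul h2).sub (h1.const_mul _)

theorem s5a_sh_der (h : 0 < c0) : ∃ Cχ : ℝ, 2 ≤ Cχ ∧ ∀ (k : ℤ) (p : ℝ), ‖deriv (s5a_sh c0 k) p‖ ≤ Cχ * (1 + |(k : ℝ)|) := by
  have hcs : HasCompactSupport (s5a_chi c0) :=
    HasCompactSupport.of_support_subset_isCompact (isCompact_Icc (a := -(1 / 2 : ℝ)) (b := 1 / 2)) fun p hp => by
      by_contra hcon
      exact hp (s5a_chi_zero_off h hcon)
  obtain ⟨X, hX⟩ := ((s5a_chi_smooth c0).continuous_deriv (by simp)).bounded_above_of_compact_support hcs.deriv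
  have hX0 : 0 ≤ X := (norm_nonneg _).trans (hX 0)
  refine ⟨2 * X + 7, by linarith, fun k p => ?_⟩
  rw [(s5a_sh_hasDerivAt c0 k p).deriv]
  have hd : ‖((deriv (s5a_chi c0) p : ℝ) : ℂ)‖ ≤ X := by
    rw [Complex.norm_real]
    exact hX p
  have hn : ‖(s5a_chi c0 p : ℂ)‖ ≤ 1 := by
    rw [Complex.norm_real, Real.norm_of_nonneg (s5a_chi_nonneg c0 p)]
    exact s5a_chi_le_one c0 p
  have t1 : ‖((deriv (s5a_chi c0) p : ℝ) : ℂ) * ee ((k : ℝ) * p)‖ ≤ X := by
    rw [norm_mul, wy_ee_norm, mul_one]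
    exact hd
  have t2 : ‖(s5a_chi c0 p : ℂ) * (2 * Real.pi * (k : ℝ) * Complex.I * ee ((k : ℝ) * p))‖ ≤ 7 * |(k : ℝ)| := by
    have hpi : 2 * Real.pi ≤ 7 := by have := Real.pi_lt_d2; linarith
    have hk : 0 ≤ |(k : ℝ)| := abs_nonneg _
    have e : ‖(2 * Real.pi * (k : ℝ) * Complex.I * ee ((k : ℝ) * p) : ℂ)‖ = 2 * Real.pi * |(k : ℝ)| := by
      rw [norm_mul, norm_mul, norm_mul, norm_mul, wy_ee_norm, Complex.norm_I, Complex.norm_real, Complex.norm_real,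
        Real.norm_of_nonneg Real.pi_pos.le, Real.norm_eq_abs, Complex.norm_ofNat, mul_one, mul_one]
    rw [norm_mul, e]
    calc ‖(s5a_chi c0 p : ℂ)‖ * (2 * Real.pi * |(k : ℝ)|) ≤ 1 * (7 * |(k : ℝ)|) :=
          mul_le_mul hn (mul_le_mul_of_nonneg_right hpi hk) (by positivity) (by norm_num)
      _ = 7 * |(k : ℝ)| := one_mul _
  have t3 : ‖s5a_mom c0 k / s5a_mom c0 0 * ((deriv (s5a_chi c0) p : ℝ) : ℂ)‖ ≤ X := by
    rw [norm_mul]
    calc _ ≤ 1 * X := mul_le_mul (s5a_mom_ratio_le h k) hd (norm_nonneg _) (by norm_num)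
      _ = X := one_mul _
  have hk : 0 ≤ |(k : ℝ)| := abs_nonneg _
  calc _ ≤ ‖((deriv (s5a_chi c0) p : ℝ) : ℂ) * ee ((k : ℝ) * p)
        + (s5a_chi c0 p : ℂ) * (2 * Real.pi * (k : ℝ) * Complex.I * ee ((k : ℝ) * p))‖
        + ‖s5a_mom c0 k / s5a_mom c0 0 * ((deriv (s5a_chi c0) p : ℝ) : ℂ)‖ := norm_sub_le _ _
    _ ≤ (X + 7 * |(k : ℝ)|) + X := add_le_add ((norm_add_le _ _).trans (add_le_add t1 t2)) t3
    _ ≤ (2 * X + 7) * (1 + |(k : ℝ)|) := by nlinarith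

theorem s5a_bump_hasDerivAt (c0 : ℝ) (I : Cell) (k : ℤ) (u : ℝ) :
    HasDerivAt (s5a_bump c0 I k) (I.len⁻¹ • deriv (s5a_sh c0 k) ((u - s5a_mid I) / I.len)) u := by
  have g1 : HasDerivAt (fun u : ℝ => (u - s5a_mid I) / I.len) (I.len⁻¹) u := by
    have := ((hasDerivAt_id u).sub_const (s5a_mid I)).div_const I.len
    simpa [one_div] using this
  have g0 : HasDerivAt (s5a_sh c0 k) (deriv (s5a_sh c0 k) ((u - s5a_mid I) / I.len)) ((u - s5a_mid I) / I.len) :=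
    ((s5a_sh_smooth c0 k).differentiable (by simp)).differentiableAt.hasDerivAt
  exact HasDerivAt.scomp (g₁ := s5a_sh c0 k) (h := fun u : ℝ => (u - s5a_mid I) / I.len) u g0 g1

/-- the bumps are bumps -/
theorem s5a_bump_bump (h : 0 < c0) : ∃ Cχ : ℝ, 2 ≤ Cχ ∧ ∀ (I : Cell) (k : ℤ),
    s5a_Bump I (Cχ * (1 + |(k : ℝ)|)) (s5a_bump c0 I k) := by
  obtain ⟨Cχ, hC, hd⟩ := s5a_sh_der h
  refine ⟨Cχ, hC, fun I k => ?_⟩
  have hr := cell_len_pos I
  have hk : 0 ≤ |(k : ℝ)| := abs_nonneg _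
  refine ⟨?_, fun u hu => ?_, fun u => ?_, fun u => ?_⟩
  · unfold s5a_bump
    exact (s5a_sh_smooth c0 k).comp ((contDiff_id.sub contDiff_const).div_const _)
  · have hc := s5a_c1_pos h
    have h1 : |(u - s5a_mid I) / I.len| < 1 / 2 - s5a_c1 c0 / 2 := by
      by_contra hcon
      push Not at hcon
      exact hu (s5a_sh_eq_zero h k hcon)
    rw [abs_lt, lt_div_iff₀ hr, div_lt_iff₀ hr] at h1
    rw [cell_right_eq]
    unfold s5a_mid at h1
    constructor <;> nlinarith [h1.1, h1.2]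
  · refine (s5a_sh_bd h k _).trans ?_
    nlinarith
  · rw [(s5a_bump_hasDerivAt c0 I k u).deriv, norm_smul, Real.norm_of_nonneg (inv_nonneg.2 hr.le),
      div_eq_inv_mul (Cχ * (1 + |(k : ℝ)|))]
    exact mul_le_mul_of_nonneg_left (hd k _) (inv_nonneg.2 hr.le)

theorem s5a_bump_bd (h : 0 < c0) (I : Cell) (k : ℤ) (u : ℝ) : ‖s5a_bump c0 I k u‖ ≤ 2 := s5a_sh_bd h k _

theorem s5a_bump_int (h : 0 < c0) (I : Cell) (k : ℤ) : ∫ u, s5a_bump c0 I k u = 0 := by
  unfold s5a_bump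
  rw [integral_sub_right_eq_self (fun u => s5a_sh c0 k (u / I.len)) (s5a_mid I),
    Measure.integral_comp_div (s5a_sh c0 k) I.len, s5a_sh_int h k, smul_zero]

/-- general facts on bumps -/
theorem s5a_Bump.continuous {I : Cell} {S : ℝ} {om : ℝ → ℂ} (h : s5a_Bump I S om) : Continuous om := h.smooth.continuous

theorem s5a_Bump.nonneg {I : Cell} {S : ℝ} {om : ℝ → ℂ} (h : s5a_Bump I S om) : 0 ≤ S :=
  (norm_nonneg _).trans (h.bd 0)

theorem s5a_Bump.hasCompactSupport {I : Cell} {S : ℝ} {om : ℝ → ℂ} (h : s5a_Bump I S om) : HasCompactSupport om :=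
  HasCompactSupport.of_support_subset_isCompact (isCompact_Icc (a := I.left) (b := I.right)) fun u hu =>
    ⟨(h.supp u hu).1.le, (h.supp u hu).2.le⟩

theorem s5a_Bump.eq_zero {I : Cell} {S : ℝ} {om : ℝ → ℂ} (h : s5a_Bump I S om) {u : ℝ} (hu : u ∉ I.set) : om u = 0 := by
  by_contra hne
  exact hu ⟨(h.supp u hne).1.le, (h.supp u hne).2⟩

theorem s5a_Bump.memLp {I : Cell} {S : ℝ} {om : ℝ → ℂ} (h : s5a_Bump I S om) : MemLp om 2 volume :=
  h.continuous.memLp_of_hasCompactSupport h.hasCompactSupport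

theorem s5a_Bump.integrable {I : Cell} {S : ℝ} {om : ℝ → ℂ} (h : s5a_Bump I S om) : Integrable om volume :=
  h.continuous.integrable_of_hasCompactSupport h.hasCompactSupport

/-- `|om u - om u'| ≤ (S/|I|) |u - u'|` -/
theorem s5a_Bump.lip {I : Cell} {S : ℝ} {om : ℝ → ℂ} (h : s5a_Bump I S om) (u u' : ℝ) :
    ‖om u - om u'‖ ≤ S / I.len * |u - u'| := by
  have := Convex.norm_image_sub_le_of_norm_deriv_le (f := om) (s := Set.univ) (C := S / I.len)
    (fun x _ => (h.smooth.differentiable (by simp)).differentiableAt) (fun x _ => h.der x) convex_univ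
    (Set.mem_univ u') (Set.mem_univ u)
  simpa [Real.norm_eq_abs] using this

theorem s5a_Bump.mono {I : Cell} {S S' : ℝ} {om : ℝ → ℂ} (h : s5a_Bump I S om) (hS : S ≤ S') : s5a_Bump I S' om :=
  ⟨h.smooth, h.supp, fun u => (h.bd u).trans hS, fun u => (h.der u).trans
    (div_le_div_of_nonneg_right hS (cell_len_pos I).le)⟩

end Claimed.Agent.R258
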