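/-
Row 258, block [S5a] (architect helper192).  FILE Fb = leaves P-S5a-FB1 (section FB1) and P-S5a-FB2 (section FB2): **the frequency-side Bessel inequality for mean-zero bumps at one scale**
      `∑_{I ∈ S, depth I = s} |∫ om_I(u) e(ν u) g(u) du|² ≤ 2 A² r ∫ P(ζ) k0(2π r (ζ+ν)) dζ`,   `r = 2^{-s}`,  `P = |ĝ|²`,  `k0(x) = min(x², x⁻²)`.
(base.tex l.205-215: "mean zero and Poincaré give O(2^ℓ), integration by parts gives O(2^{-2ℓ})".)     No paper needed.  Mathlib only + Shape.lean.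

NOTATION: for a test function `ρ` (smooth, compact support) `s5a_ft ρ ζ = ∫ ρ(u) e(u ζ) du` (`= 𝓕⁻ ρ ζ = 𝓕 ρ (-ζ)`).
FB1 (tools).
* `s5a_prim`: `Om u = ∫ t in I.left..u, om t` (interval integral).  `deriv Om = om` (`Continuous.deriv_integral`), smooth (`contDiff_infty_iff_deriv` / `contDiff_succ_iff_deriv`), `Om u = 0` for `u ≤ left` (integrand vanishes) and for `u ≥ right`
  (`= ∫_ℝ om = 0`: `intervalIntegral.integral_of_le`, `setIntegral_eq_integral_of_forall_compl_eq_zero`); `‖Om u‖ ≤ ∫_I ‖om‖ ≤ A |I|`.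
* `s5a_planch`: `ĝ := 𝓕 (hg.toLp g) : Lp ℂ 2` (`MeasureTheory.Lp.fourierTransformₗᵢ`, Mathlib.Analysis.Fourier.LpSpace).  `‖ĝ‖ = ‖g‖` (`Lp.norm_fourier_eq`) gives `∫ ‖ĝ‖² = ∫ ‖g‖²` (`L2.norm_sq_eq_inner`/`MeasureTheory.L2.inner_def` or `Lp.norm_def`, `eLpNorm` at `p = 2`).
  For a test function `ρ`: `φ := (conj ∘ ρ)` as a Schwartz map (`HasCompactSupport.toSchwartzMap`), `∫ ρ g = ⟪φ.toLp 2, g⟫ = ⟪𝓕 (φ.toLp 2), ĝ⟫` (`Lp.inner_fourier_eq`) `= ⟪(𝓕 φ).toLp 2, ĝ⟫` (`SchwartzMap.toLp_fourier_eq`) `= ∫ conj (𝓕 φ ζ) ĝ ζ`, and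
  `conj (𝓕 φ ζ) = conj ∫ e(-u ζ) conj(ρ u) du = ∫ e(u ζ) ρ u du` (`integral_conj`, `Real.fourierIntegral_eq`/`Real.fourier_eq`, `Real.fourierChar_apply`; `ee t = exp(2π t i)`).
* `s5a_ft_inner`: Plancherel for two test functions (`SchwartzMap.integral_inner_fourier_fourier`, or `s5a_planch` applied to `g = conj ρ₂`-type argument).
* `s5a_ft_deriv`: integration by parts (`integral_mul_deriv_eq_deriv_mul_of_integrable`, or `Real.fourierIntegral_deriv`/`Real.fourier_deriv`): `ft (ρ') ζ = -2π i ζ ft ρ ζ`.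
FB2.  Fix `S, s, om, A, ν`.  `r = 2^{-s} = |I|`.  `Om_I` from `s5a_prim`.  Test functions `Ψ_I = Om_I e(ν·)`, `ρ_I = om_I e(ν·)`, `Ξ_I = om_I' e(ν·)`:   `Ψ_I' = ρ_I + 2π i ν Ψ_I`, `ρ_I' = Ξ_I + 2π i ν ρ_I`, hence
     `ft ρ_I ζ = -2π i (ζ+ν) ft Ψ_I ζ`,     `-2π i (ζ+ν) ft ρ_I ζ = ft Ξ_I ζ`.
  Split `ℝ = Lo ∪ Hi`, `Lo = {2π r |ζ+ν| ≤ 1}`.   `∫ ρ_I g = ∫ ft ρ_I ĝ = ∫ ft Ψ_I G♭ + ∫ ft Ξ_I G♯`, `G♭ = -2π i (ζ+ν) 1_Lo ĝ`, `G♯ = (-2π i (ζ+ν))⁻¹ 1_Hi ĝ` (both in `L²`: bounded multipliers).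
  `s5a_ft_bessel` (the `ft Ψ_I` are pairwise orthogonal in `L²` with norms `‖Ψ_I‖₂` because the `Ψ_I` have disjoint supports [different cells of the same depth: `cell_disjoint…`] ; Bessel: `∑ |⟨e_I, G⟩|² ≤ ‖G‖²` for the orthonormal
  family `e_I = ft Ψ_I/‖·‖`, `Orthonormal.sum_inner_products_le`; drop the `I` with `Ψ_I = 0`):
     `∑_I |∫ ft Ψ_I G♭|² ≤ sup ‖Ψ_I‖₂² ∫ |G♭|² ≤ A² r³ ∫_Lo (2π(ζ+ν))² P`,      `∑_I |∫ ft Ξ_I G♯|² ≤ (A²/r) ∫_Hi (2π(ζ+ν))⁻² P`;    `|x+y|² ≤ 2|x|² + 2|y|²`;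
  `A² r³ (2π(ζ+ν))² = A² r x²`, `(A²/r) (2π (ζ+ν))⁻² = A² r x⁻²`, `x = 2π r (ζ+ν)`; on `Lo`: `x² = k0 x`, on `Hi`: `x⁻² = k0 x`.
PROVED (helper132).  Only change of a statement: `s5a_ft_bessel` has the extra hypothesis `0 ≤ a` (false for `s = ∅`, `a < 0` otherwise).
-/
import Claimed.Agent.R258.S5a.Shape
import Claimed.Agent.R258.Pack004

set_option autoImplicit false
open MeasureTheory
open scoped ENNReal ContDiff ComplexConjugate FourierTransform InnerProductSpace SchwartzMap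

namespace Claimed.Agent.R258

/-- `∫ ρ(u) e(u ζ) du` -/
noncomputable def s5a_ft (ρ : ℝ → ℂ) (ζ : ℝ) : ℂ := ∫ u : ℝ, ρ u * ee (u * ζ)

section FB1

theorem s5a_ft_eq (ρ : ℝ → ℂ) : s5a_ft ρ = 𝓕⁻ ρ := by
  funext ζ
  rw [Real.fourierInv_eq']
  unfold s5a_ft ee
  congr 1; funext u
  rw [smul_eq_mul, mul_comm]
  congr 2
  simp
  ring

theorem s5a_ee_contDiff (ν : ℝ) : ContDiff ℝ ∞ (fun u : ℝ => ee (ν * u)) := by
  unfold ee
  have h0 : ContDiff ℝ ∞ (fun u : ℝ => ((ν * u : ℝ) : ℂ)) :=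
    Complex.ofRealCLM.contDiff.comp (contDiff_const.mul contDiff_id)
  exact ((contDiff_const.mul h0).mul contDiff_const).cexp

theorem s5a_ee_hasDerivAt (ν u : ℝ) :
    HasDerivAt (fun u : ℝ => ee (ν * u)) (2 * Real.pi * ν * Complex.I * ee (ν * u)) u := by
  unfold ee
  have h1 : HasDerivAt (fun u : ℝ => (2 * (Real.pi : ℂ) * ((ν * u : ℝ) : ℂ) * Complex.I))
      (2 * Real.pi * ν * Complex.I) u := by
    have h0 : HasDerivAt (fun u : ℝ => ((ν * u : ℝ) : ℂ)) ((ν : ℝ) : ℂ) u := by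
      have := ((hasDerivAt_id u).const_mul ν).ofReal_comp
      simpa using this
    have := (h0.const_mul (2 * (Real.pi : ℂ))).mul_const Complex.I
    simpa [mul_assoc] using this
  have := h1.cexp
  convert this using 1
  ring

theorem s5a_ft_integrable {f : ℝ → ℂ} (hf : Integrable f volume) (ζ : ℝ) :
    Integrable (fun u => f u * ee (u * ζ)) volume := by
  refine hf.mul_bdd (c := 1) ?_ ?_
  · exact (wy_ee_continuous.comp (continuous_id.mul continuous_const)).aestronglyMeasurable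
  · exact Filter.Eventually.of_forall fun u => (wy_ee_norm _).le

theorem s5a_ft_add {f g : ℝ → ℂ} (hf : Integrable f volume) (hg : Integrable g volume) (ζ : ℝ) :
    s5a_ft (fun u => f u + g u) ζ = s5a_ft f ζ + s5a_ft g ζ := by
  unfold s5a_ft
  rw [← integral_add (s5a_ft_integrable hf ζ) (s5a_ft_integrable hg ζ)]
  congr 1; funext u; ring

theorem s5a_ft_const_mul (c : ℂ) (f : ℝ → ℂ) (ζ : ℝ) : s5a_ft (fun u => c * f u) ζ = c * s5a_ft f ζ := by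
  unfold s5a_ft
  rw [← integral_const_mul]
  congr 1; funext u; ring

/-- the compactly supported primitive of a mean-zero bump -/
theorem s5a_prim {I : Cell} {A : ℝ} {om : ℝ → ℂ} (h : s5a_Bump I A om) (h0 : ∫ u, om u = 0) :
    ∃ Om : ℝ → ℂ, ContDiff ℝ ∞ Om ∧ (∀ u, deriv Om u = om u) ∧ (∀ u, Om u ≠ 0 → I.left < u ∧ u < I.right) ∧
      ∀ u, ‖Om u‖ ≤ A * I.len := by
  set Om : ℝ → ℂ := fun u => ∫ t in I.left..u, om t with hOm
  have hc : Continuous om := h.continuous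
  have hd : ∀ u, HasDerivAt Om (om u) u := fun u =>
    intervalIntegral.integral_hasDerivAt_right (hc.intervalIntegrable _ _) (hc.stronglyMeasurableAtFilter _ _)
      hc.continuousAt
  have hderiv : deriv Om = om := funext fun u => (hd u).deriv
  have hsupp : ∀ u, Om u ≠ 0 → I.left < u ∧ u < I.right := by
    intro u hu
    by_contra hcon
    apply hu
    rw [not_and_or, not_lt, not_lt] at hcon
    rcases hcon with hl | hr
    · show ∫ t in I.left..u, om t = 0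
      have : ∀ t ∈ Set.uIcc I.left u, om t = (fun _ => (0 : ℂ)) t := by
        intro t ht
        rw [Set.uIcc_of_ge hl] at ht
        by_contra hne
        exact absurd (h.supp t hne).1 (not_lt.2 ht.2)
      rw [intervalIntegral.integral_congr this]
      simp
    · show ∫ t in I.left..u, om t = 0
      have hle : I.left ≤ u := (cell_left_lt_right I).le.trans hr
      rw [intervalIntegral.integral_of_le hle, ← h0]
      apply setIntegral_eq_integral_of_forall_compl_eq_zero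
      intro t ht
      by_contra hne
      obtain ⟨h1, h2⟩ := h.supp t hne
      exact ht ⟨h1, h2.le.trans hr⟩
  refine ⟨Om, ?_, fun u => (hd u).deriv, hsupp, ?_⟩
  · rw [contDiff_infty_iff_deriv]
    exact ⟨fun u => (hd u).differentiableAt, by rw [hderiv]; exact h.smooth⟩
  · intro u
    by_cases hu : I.left < u ∧ u < I.right
    · have := intervalIntegral.norm_integral_le_of_norm_le_const (a := I.left) (b := u) (f := om) (C := A)
        (fun t _ => h.bd t)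
      refine this.trans ?_
      apply mul_le_mul_of_nonneg_left _ h.nonneg
      rw [abs_of_pos (by linarith [hu.1])]
      have := cell_right_eq I
      linarith [hu.2]
    · have : Om u = 0 := by_contra fun hne => hu (hsupp u hne)
      rw [this, norm_zero]
      exact mul_nonneg h.nonneg (cell_len_nonneg I)

theorem s5a_normsq_Lp (F : Lp ℂ 2 (volume : Measure ℝ)) : ‖F‖ ^ 2 = ∫ y, ‖(F : ℝ → ℂ) y‖ ^ 2 := by
  have h := L2.inner_def (𝕜 := ℂ) F F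
  rw [inner_self_eq_norm_sq_to_K] at h
  have h2 : (fun y => ⟪(F : ℝ → ℂ) y, (F : ℝ → ℂ) y⟫_ℂ) = fun y => ((‖(F : ℝ → ℂ) y‖ ^ 2 : ℝ) : ℂ) := by
    funext y
    rw [inner_self_eq_norm_sq_to_K]; norm_cast
  rw [h2] at h
  have h3 : ∫ y, ((‖(F : ℝ → ℂ) y‖ ^ 2 : ℝ) : ℂ) = ((∫ y, ‖(F : ℝ → ℂ) y‖ ^ 2 : ℝ) : ℂ) := integral_ofReal
  rw [h3] at h
  have h4 := congrArg Complex.re h
  rw [Complex.ofReal_re] at h4
  rw [← h4]
  norm_cast

theorem s5a_conj_fourier_conj (ρ : ℝ → ℂ) (ζ : ℝ) : conj (𝓕 (fun u => conj (ρ u)) ζ) = s5a_ft ρ ζ := by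
  rw [Real.fourier_real_eq_integral_exp_smul, ← integral_conj]
  unfold s5a_ft ee
  congr 1; funext u
  rw [smul_eq_mul, map_mul, Complex.conj_conj, mul_comm, ← Complex.exp_conj]
  congr 2
  rw [map_mul, Complex.conj_ofReal, Complex.conj_I]
  push_cast
  ring

/-- Plancherel: the `L²` Fourier transform of `g`, tested against smooth compactly supported functions -/
theorem s5a_planch (g : ℝ → ℂ) (hg : MemLp g 2 volume) :
    ∃ gh : ℝ → ℂ, MemLp gh 2 volume ∧ ∫ ζ, ‖gh ζ‖ ^ 2 = ∫ y, ‖g y‖ ^ 2 ∧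
      ∀ ρ : ℝ → ℂ, ContDiff ℝ ∞ ρ → HasCompactSupport ρ → ∫ u, ρ u * g u = ∫ ζ, s5a_ft ρ ζ * gh ζ := by
  set gL : Lp ℂ 2 (volume : Measure ℝ) := hg.toLp g with hgL
  set gH : Lp ℂ 2 (volume : Measure ℝ) := 𝓕 gL with hgH
  refine ⟨gH, Lp.memLp gH, ?_, ?_⟩
  · rw [← s5a_normsq_Lp, hgH, Lp.norm_fourier_eq, s5a_normsq_Lp]
    apply integral_congr_ae
    filter_upwards [hg.coeFn_toLp] with y hy
    rw [hy]
  · intro ρ h1 h2
    have hc1 : ContDiff ℝ ∞ (fun u => conj (ρ u)) := Complex.conjCLE.contDiff.comp h1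
    have hc2 : HasCompactSupport (fun u => conj (ρ u)) := h2.comp_left (map_zero _)
    set φ : 𝓢(ℝ, ℂ) := hc2.toSchwartzMap hc1 with hφ
    have e1 : ⟪φ.toLp 2, gL⟫_ℂ = ∫ u, ρ u * g u := by
      rw [L2.inner_def]
      apply integral_congr_ae
      filter_upwards [φ.coeFn_toLp 2 volume, hg.coeFn_toLp] with u h3 h4
      rw [h3, h4]
      simp [φ, mul_comm]
    have e2 : ⟪𝓕 (φ.toLp 2), gH⟫_ℂ = ∫ ζ, s5a_ft ρ ζ * gH ζ := by
      rw [SchwartzMap.toLp_fourier_eq, L2.inner_def]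
      apply integral_congr_ae
      filter_upwards [(𝓕 φ).coeFn_toLp 2 volume] with ζ h3
      have hcoe : (φ : ℝ → ℂ) = fun u => conj (ρ u) := rfl
      rw [h3, ← s5a_conj_fourier_conj, SchwartzMap.fourier_coe, hcoe, RCLike.inner_apply, mul_comm]
    rw [← e1, ← e2, hgH, Lp.inner_fourier_eq]

theorem s5a_ft_coe (ρ : ℝ → ℂ) (h1 : ContDiff ℝ ∞ ρ) (h2 : HasCompactSupport ρ) :
    s5a_ft ρ = ((𝓕⁻ (h2.toSchwartzMap h1) : 𝓢(ℝ, ℂ)) : ℝ → ℂ) := by
  rw [s5a_ft_eq, SchwartzMap.fourierInv_coe]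
  rfl

theorem s5a_ft_memLp (ρ : ℝ → ℂ) (h1 : ContDiff ℝ ∞ ρ) (h2 : HasCompactSupport ρ) : MemLp (s5a_ft ρ) 2 volume := by
  rw [s5a_ft_coe ρ h1 h2]
  exact SchwartzMap.memLp _ 2 volume

/-- Plancherel for two test functions -/
theorem s5a_ft_inner (ρ₁ ρ₂ : ℝ → ℂ) (h1 : ContDiff ℝ ∞ ρ₁) (h1' : HasCompactSupport ρ₁) (h2 : ContDiff ℝ ∞ ρ₂)
    (h2' : HasCompactSupport ρ₂) : ∫ ζ, conj (s5a_ft ρ₁ ζ) * s5a_ft ρ₂ ζ = ∫ u, conj (ρ₁ u) * ρ₂ u := by
  have h := SchwartzMap.integral_inner_fourier_fourier (𝓕⁻ (h1'.toSchwartzMap h1) : 𝓢(ℝ, ℂ))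
    (𝓕⁻ (h2'.toSchwartzMap h2) : 𝓢(ℝ, ℂ))
  rw [FourierTransform.fourier_fourierInv_eq, FourierTransform.fourier_fourierInv_eq] at h
  rw [s5a_ft_coe ρ₁ h1 h1', s5a_ft_coe ρ₂ h2 h2']
  simp only [RCLike.inner_apply] at h
  have e1 : ∀ a b : ℂ, conj a * b = b * conj a := fun a b => mul_comm _ _
  simp only [e1]
  exact h.symm

theorem s5a_ft_deriv (ρ : ℝ → ℂ) (h1 : ContDiff ℝ ∞ ρ) (h2 : HasCompactSupport ρ) (ζ : ℝ) :
    s5a_ft (deriv ρ) ζ = -(2 * Real.pi * ζ * Complex.I) * s5a_ft ρ ζ := by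
  have hi : Integrable ρ volume := h1.continuous.integrable_of_hasCompactSupport h2
  have hd : Differentiable ℝ ρ := h1.differentiable (by simp)
  have hi' : Integrable (deriv ρ) volume :=
    (h1.continuous_deriv (by simp)).integrable_of_hasCompactSupport h2.deriv
  rw [s5a_ft_eq, s5a_ft_eq, Real.fourierInv_eq_fourier_neg, Real.fourierInv_eq_fourier_neg,
    Real.fourier_deriv hi hd hi']
  simp only [smul_eq_mul]
  push_cast
  ring

/-- `ft ((Om e_ν)' - 2π i ν Om e_ν)`: if `deriv Om = om` then `ft (om e_ν) ζ = -2π i (ζ+ν) ft (Om e_ν) ζ` -/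
theorem s5a_ft_mod (Om om : ℝ → ℂ) (h1 : ContDiff ℝ ∞ Om) (h2 : HasCompactSupport Om) (hd : ∀ u, deriv Om u = om u) (ν ζ : ℝ) :
    s5a_ft (fun u => om u * ee (ν * u)) ζ = -(2 * Real.pi * (ζ + ν) * Complex.I) * s5a_ft (fun u => Om u * ee (ν * u)) ζ := by
  have hom : om = deriv Om := funext fun u => (hd u).symm
  have hΨ1 : ContDiff ℝ ∞ (fun u => Om u * ee (ν * u)) := h1.mul (s5a_ee_contDiff ν)
  have hΨ2 : HasCompactSupport (fun u => Om u * ee (ν * u)) := h2.mul_right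
  have hder : deriv (fun u => Om u * ee (ν * u))
      = fun u => om u * ee (ν * u) + (2 * Real.pi * ν * Complex.I) * (Om u * ee (ν * u)) := by
    funext u
    have hO : HasDerivAt Om (om u) u := by
      rw [← hd u]; exact (h1.differentiable (by simp) u).hasDerivAt
    have := (hO.mul (s5a_ee_hasDerivAt ν u)).deriv
    have e : (Om * fun u => ee (ν * u)) = fun u => Om u * ee (ν * u) := rfl
    rw [e] at this
    rw [this]
    ring
  have hc : Continuous om := by rw [hom]; exact h1.continuous_deriv (by simp)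
  have hs : HasCompactSupport om := by rw [hom]; exact h2.deriv
  have hee : Continuous fun u : ℝ => ee (ν * u) := (s5a_ee_contDiff ν).continuous
  have i1 : Integrable (fun u => om u * ee (ν * u)) volume :=
    (hc.mul hee).integrable_of_hasCompactSupport hs.mul_right
  have i2 : Integrable (fun u => (2 * Real.pi * ν * Complex.I) * (Om u * ee (ν * u))) volume :=
    (hΨ1.continuous.integrable_of_hasCompactSupport hΨ2).const_mul _
  have h := s5a_ft_deriv _ hΨ1 hΨ2 ζ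
  rw [hder, s5a_ft_add i1 i2, s5a_ft_const_mul] at h
  linear_combination h

end FB1

section FB2

theorem s5a_normsq_sum_orth {E : Type*} [NormedAddCommGroup E] [InnerProductSpace ℂ E] {ι : Type*} (s : Finset ι)
    (w : ι → E) (h : ∀ i ∈ s, ∀ j ∈ s, i ≠ j → ⟪w i, w j⟫_ℂ = 0) : ‖∑ i ∈ s, w i‖ ^ 2 = ∑ i ∈ s, ‖w i‖ ^ 2 := by
  classical
  induction s using Finset.induction_on with
  | empty => simp
  | insert i s hi ih =>
    rw [Finset.sum_insert hi, Finset.sum_insert hi]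
    have h0 : ⟪w i, ∑ j ∈ s, w j⟫_ℂ = 0 := by
      rw [inner_sum]
      exact Finset.sum_eq_zero fun j hj =>
        h i (Finset.mem_insert_self _ _) j (Finset.mem_insert_of_mem hj) (by rintro rfl; exact hi hj)
    have h1 := norm_add_sq_eq_norm_sq_add_norm_sq_of_inner_eq_zero (𝕜 := ℂ) _ _ h0
    rw [pow_two, h1, ← ih fun a ha b hb => h a (Finset.mem_insert_of_mem ha) b (Finset.mem_insert_of_mem hb)]
    ring

/-- Bessel's inequality for a finite orthogonal family of vectors of square norm `≤ a` -/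
theorem s5a_bessel_abs {E : Type*} [NormedAddCommGroup E] [InnerProductSpace ℂ E] {ι : Type*} (s : Finset ι) (v : ι → E)
    (horth : ∀ i ∈ s, ∀ j ∈ s, i ≠ j → ⟪v i, v j⟫_ℂ = 0) (a : ℝ) (ha0 : 0 ≤ a) (ha : ∀ i ∈ s, ‖v i‖ ^ 2 ≤ a) (x : E) :
    ∑ i ∈ s, ‖⟪v i, x⟫_ℂ‖ ^ 2 ≤ a * ‖x‖ ^ 2 := by
  set c : ι → ℂ := fun i => ⟪v i, x⟫_ℂ with hc
  set y : E := ∑ i ∈ s, c i • v i with hy
  set X : ℝ := ∑ i ∈ s, ‖c i‖ ^ 2 with hX
  have hX0 : 0 ≤ X := Finset.sum_nonneg fun i _ => sq_nonneg _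
  have h1 : ⟪y, x⟫_ℂ = (X : ℂ) := by
    rw [hy, sum_inner, hX]
    push_cast
    refine Finset.sum_congr rfl fun i _ => ?_
    rw [inner_smul_left]
    show conj (c i) * c i = _
    rw [mul_comm, Complex.mul_conj, Complex.normSq_eq_norm_sq]
    push_cast; rfl
  have h2 : ‖y‖ ^ 2 ≤ a * X := by
    rw [hy, s5a_normsq_sum_orth s (fun i => c i • v i) (fun i hi j hj hij => by
      rw [inner_smul_left, inner_smul_right, horth i hi j hj hij]; simp), hX, Finset.mul_sum]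
    refine Finset.sum_le_sum fun i hi => ?_
    rw [norm_smul, mul_pow, mul_comm]
    exact mul_le_mul_of_nonneg_right (ha i hi) (sq_nonneg _)
  have h3 : X ≤ ‖y‖ * ‖x‖ := by
    have := norm_inner_le_norm (𝕜 := ℂ) y x
    rw [h1, Complex.norm_real, Real.norm_of_nonneg hX0] at this
    exact this
  have h4 : X ^ 2 ≤ a * X * ‖x‖ ^ 2 := by
    calc X ^ 2 ≤ (‖y‖ * ‖x‖) ^ 2 := pow_le_pow_left₀ hX0 h3 2
      _ = ‖y‖ ^ 2 * ‖x‖ ^ 2 := by ring
      _ ≤ a * X * ‖x‖ ^ 2 := mul_le_mul_of_nonneg_right h2 (sq_nonneg _)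
  rcases hX0.eq_or_lt with h0 | h0
  · rw [← h0]; positivity
  · have : X * X ≤ X * (a * ‖x‖ ^ 2) := by nlinarith
    exact le_of_mul_le_mul_left this h0

open Classical in
/-- a function as an element of `L²` (junk value `0`) -/
noncomputable def s5a_toL2 (f : ℝ → ℂ) : Lp ℂ 2 (volume : Measure ℝ) := if h : MemLp f 2 volume then h.toLp f else 0

theorem s5a_toL2_ae {f : ℝ → ℂ} (h : MemLp f 2 volume) : (s5a_toL2 f : ℝ → ℂ) =ᵐ[volume] f := by
  unfold s5a_toL2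
  rw [dif_pos h]
  exact h.coeFn_toLp

theorem s5a_toL2_inner {f g : ℝ → ℂ} (hf : MemLp f 2 volume) (hg : MemLp g 2 volume) :
    ⟪s5a_toL2 f, s5a_toL2 g⟫_ℂ = ∫ y, conj (f y) * g y := by
  rw [L2.inner_def]
  apply integral_congr_ae
  filter_upwards [s5a_toL2_ae hf, s5a_toL2_ae hg] with y h1 h2
  rw [h1, h2, RCLike.inner_apply, mul_comm]

theorem s5a_toL2_normsq {f : ℝ → ℂ} (hf : MemLp f 2 volume) : ‖s5a_toL2 f‖ ^ 2 = ∫ y, ‖f y‖ ^ 2 := by
  rw [s5a_normsq_Lp]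
  apply integral_congr_ae
  filter_upwards [s5a_toL2_ae hf] with y h1
  rw [h1]

theorem s5a_memLp_conj {f : ℝ → ℂ} (hf : MemLp f 2 volume) : MemLp (fun y => conj (f y)) 2 volume :=
  hf.congr_norm (Complex.continuous_conj.comp_aestronglyMeasurable hf.1)
    (Filter.Eventually.of_forall fun y => (RCLike.norm_conj (f y)).symm)

theorem s5a_ft_normsq (ρ : ℝ → ℂ) (h1 : ContDiff ℝ ∞ ρ) (h2 : HasCompactSupport ρ) :
    ∫ ζ, ‖s5a_ft ρ ζ‖ ^ 2 = ∫ u, ‖ρ u‖ ^ 2 := by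
  have h := SchwartzMap.integral_norm_sq_fourier (𝓕⁻ (h2.toSchwartzMap h1) : 𝓢(ℝ, ℂ))
  rw [FourierTransform.fourier_fourierInv_eq] at h
  rw [s5a_ft_coe ρ h1 h2]
  exact h.symm

/-- Bessel inequality on the frequency side for test functions with pairwise disjoint supports -/
theorem s5a_ft_bessel {ι : Type} (s : Finset ι) (Ψ : ι → ℝ → ℂ) (h1 : ∀ i ∈ s, ContDiff ℝ ∞ (Ψ i))
    (h2 : ∀ i ∈ s, HasCompactSupport (Ψ i)) (hdisj : ∀ i ∈ s, ∀ j ∈ s, i ≠ j → ∀ u, Ψ i u = 0 ∨ Ψ j u = 0) (a : ℝ)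
    (ha0 : 0 ≤ a) (ha : ∀ i ∈ s, ∫ u, ‖Ψ i u‖ ^ 2 ≤ a) (G : ℝ → ℂ) (hG : MemLp G 2 volume) :
    ∑ i ∈ s, ‖∫ ζ, s5a_ft (Ψ i) ζ * G ζ‖ ^ 2 ≤ a * ∫ ζ, ‖G ζ‖ ^ 2 := by
  have hm : ∀ i ∈ s, MemLp (fun ζ => conj (s5a_ft (Ψ i) ζ)) 2 volume :=
    fun i hi => s5a_memLp_conj (s5a_ft_memLp _ (h1 i hi) (h2 i hi))
  have key := s5a_bessel_abs s (fun i => s5a_toL2 (fun ζ => conj (s5a_ft (Ψ i) ζ))) ?_ a ha0 ?_ (s5a_toL2 G)
  · rw [s5a_toL2_normsq hG] at key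
    refine le_trans (le_of_eq ?_) key
    refine Finset.sum_congr rfl fun i hi => ?_
    rw [s5a_toL2_inner (hm i hi) hG]
    simp only [Complex.conj_conj]
  · intro i hi j hj hij
    rw [s5a_toL2_inner (hm i hi) (hm j hj)]
    simp only [Complex.conj_conj]
    have e : ∀ ζ, s5a_ft (Ψ i) ζ * conj (s5a_ft (Ψ j) ζ) = conj (s5a_ft (Ψ j) ζ) * s5a_ft (Ψ i) ζ :=
      fun ζ => mul_comm _ _
    simp only [e]
    rw [s5a_ft_inner _ _ (h1 j hj) (h2 j hj) (h1 i hi) (h2 i hi)]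
    have : ∀ u, conj (Ψ j u) * Ψ i u = 0 := by
      intro u
      rcases hdisj i hi j hj hij u with h | h <;> simp [h]
    simp only [this, integral_zero]
  · intro i hi
    rw [s5a_toL2_normsq (hm i hi)]
    simp only [RCLike.norm_conj]
    rw [s5a_ft_normsq _ (h1 i hi) (h2 i hi)]
    exact ha i hi

theorem s5a_int_sq_le {I : Cell} {f : ℝ → ℂ} {B : ℝ} (hsupp : ∀ u, f u ≠ 0 → I.left < u ∧ u < I.right)
    (hb : ∀ u, ‖f u‖ ≤ B) : ∫ u, ‖f u‖ ^ 2 ≤ B ^ 2 * I.len := by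
  have h1 : ∀ u, ‖f u‖ ^ 2 ≤ I.set.indicator (fun _ => B ^ 2) u := by
    intro u
    by_cases hu : f u = 0
    · rw [hu]
      simpa using Set.indicator_nonneg (fun _ _ => sq_nonneg B) u
    · have := hsupp u hu
      rw [Set.indicator_of_mem (show u ∈ I.set from ⟨this.1.le, this.2⟩)]
      exact pow_le_pow_left₀ (norm_nonneg _) (hb u) 2
  have hint : Integrable (I.set.indicator (fun _ => B ^ 2)) volume :=
    (integrable_indicator_iff (cell_measurableSet I)).2 (integrableOn_const (cell_volume_ne_top I))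
  calc ∫ u, ‖f u‖ ^ 2 ≤ ∫ u, I.set.indicator (fun _ => B ^ 2) u :=
        integral_mono_of_nonneg (Filter.Eventually.of_forall fun u => sq_nonneg _) hint (Filter.Eventually.of_forall h1)
    _ = B ^ 2 * I.len := by
        rw [integral_indicator (cell_measurableSet I), cell_integral_const, mul_comm]

theorem s5a_deriv_zero_of_left {f : ℝ → ℂ} {u : ℝ} (hf : DifferentiableAt ℝ f u) (h : ∀ t ≤ u, f t = 0) :
    deriv f u = 0 := by
  have h1 : HasDerivWithinAt f (deriv f u) (Set.Iic u) u := hf.hasDerivAt.hasDerivWithinAt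
  have h2 : HasDerivWithinAt f 0 (Set.Iic u) u :=
    (hasDerivWithinAt_const u (Set.Iic u) (0 : ℂ)).congr (fun t ht => h t ht) (h u le_rfl)
  exact (uniqueDiffWithinAt_Iic u).eq_deriv _ h1 h2

theorem s5a_deriv_zero_of_right {f : ℝ → ℂ} {u : ℝ} (hf : DifferentiableAt ℝ f u) (h : ∀ t, u ≤ t → f t = 0) :
    deriv f u = 0 := by
  have h1 : HasDerivWithinAt f (deriv f u) (Set.Ici u) u := hf.hasDerivAt.hasDerivWithinAt
  have h2 : HasDerivWithinAt f 0 (Set.Ici u) u :=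
    (hasDerivWithinAt_const u (Set.Ici u) (0 : ℂ)).congr (fun t ht => h t ht) (h u le_rfl)
  exact (uniqueDiffWithinAt_Ici u).eq_deriv _ h1 h2

theorem s5a_Bump.deriv_supp {I : Cell} {A : ℝ} {om : ℝ → ℂ} (h : s5a_Bump I A om) (u : ℝ) (hu : deriv om u ≠ 0) :
    I.left < u ∧ u < I.right := by
  have hd : DifferentiableAt ℝ om u := h.smooth.differentiable (by simp) u
  by_contra hcon
  apply hu
  rw [not_and_or, not_lt, not_lt] at hcon
  rcases hcon with hl | hr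
  · refine s5a_deriv_zero_of_left hd fun t ht => ?_
    by_contra hne
    exact absurd (h.supp t hne).1 (not_lt.2 (ht.trans hl))
  · refine s5a_deriv_zero_of_right hd fun t ht => ?_
    by_contra hne
    exact absurd (h.supp t hne).2 (not_lt.2 (hr.trans ht))

theorem s5a_hcs_of_supp {I : Cell} {f : ℝ → ℂ} (h : ∀ u, f u ≠ 0 → I.left < u ∧ u < I.right) : HasCompactSupport f := by
  refine HasCompactSupport.intro (isCompact_Icc (a := I.left) (b := I.right)) fun u hu => ?_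
  by_contra hne
  exact hu ⟨(h u hne).1.le, (h u hne).2.le⟩

theorem s5a_k0_lo {x : ℝ} (h : x ^ 2 ≤ 1) : s5a_k0 x = x ^ 2 := by
  unfold s5a_k0
  apply min_eq_left
  rcases (sq_nonneg x).eq_or_lt with h0 | h0
  · rw [← h0]; simp
  · exact h.trans ((one_le_inv₀ h0).2 h)

theorem s5a_k0_hi {x : ℝ} (h : 1 < x ^ 2) : s5a_k0 x = (x ^ 2)⁻¹ := by
  unfold s5a_k0
  apply min_eq_right
  exact (inv_le_one_of_one_le₀ h.le).trans h.le

/-- **the frequency-side Bessel inequality at one scale** -/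
theorem s5a_fb (g : ℝ → ℂ) (hg : MemLp g 2 volume) :
    ∃ P : ℝ → ℝ, (∀ ζ, 0 ≤ P ζ) ∧ Integrable P volume ∧ ∫ ζ, P ζ = ∫ y, ‖g y‖ ^ 2 ∧
      ∀ (S : Finset Cell) (s : ℤ) (om : Cell → ℝ → ℂ) (A ν : ℝ), (∀ I ∈ S, I.depth = s) →
        (∀ I ∈ S, s5a_Bump I A (om I)) → (∀ I ∈ S, ∫ u, om I u = 0) →
        ∑ I ∈ S, ‖∫ u, om I u * ee (ν * u) * g u‖ ^ 2 ≤
          2 * A ^ 2 * (2 : ℝ) ^ (-s) * ∫ ζ, P ζ * s5a_k0 (2 * Real.pi * (2 : ℝ) ^ (-s) * (ζ + ν)) := by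
  obtain ⟨gh, hgh, hnorm, hpl⟩ := s5a_planch g hg
  have hsqint : ∀ {G : ℝ → ℂ}, MemLp G 2 volume → Integrable (fun ζ => ‖G ζ‖ ^ 2) volume :=
    fun {G} hG => (memLp_two_iff_integrable_sq_norm hG.1).1 hG
  refine ⟨fun ζ => ‖gh ζ‖ ^ 2, fun ζ => sq_nonneg _, hsqint hgh, hnorm, ?_⟩
  intro S s om A ν hdepth hbump hmean
  set r : ℝ := (2 : ℝ) ^ (-s) with hr
  have hr0 : 0 < r := by positivity
  have hpi := Real.pi_pos
  have hlen : ∀ I ∈ S, I.len = r := fun I hI => by unfold Cell.len; rw [hdepth I hI]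
  -- primitives
  have hex : ∀ I, ∃ Om : ℝ → ℂ, I ∈ S → (ContDiff ℝ ∞ Om ∧ (∀ u, deriv Om u = om I u) ∧
      (∀ u, Om u ≠ 0 → I.left < u ∧ u < I.right) ∧ ∀ u, ‖Om u‖ ≤ A * I.len) := by
    intro I
    by_cases hI : I ∈ S
    · obtain ⟨Om, h⟩ := s5a_prim (hbump I hI) (hmean I hI)
      exact ⟨Om, fun _ => h⟩
    · exact ⟨0, fun h => absurd h hI⟩
  choose Om hOm using hex
  have hee := s5a_ee_contDiff ν
  have hne : ∀ u : ℝ, ee (ν * u) ≠ 0 := fun u => wy_ee_ne_zero _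
  -- the multiplier
  set m : ℝ → ℂ := fun ζ => -(2 * Real.pi * (ζ + ν) * Complex.I) with hm
  have hmn : ∀ ζ, ‖m ζ‖ = 2 * Real.pi * |ζ + ν| := by
    intro ζ
    simp only [hm, norm_neg, norm_mul, Complex.norm_I, mul_one, Complex.norm_real, Real.norm_eq_abs]
    rw [abs_of_pos hpi]
    have : ‖(2 : ℂ)‖ = 2 := by simp
    rw [this, ← Complex.ofReal_add, Complex.norm_real, Real.norm_eq_abs]
  have hmc : Continuous m := by
    simp only [hm]
    exact ((continuous_const.mul ((Complex.continuous_ofReal).add continuous_const)).mul continuous_const).neg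
  set Lo : Set ℝ := {ζ | 2 * Real.pi * r * |ζ + ν| ≤ 1} with hLo
  have hLom : MeasurableSet Lo := measurableSet_le (by fun_prop) measurable_const
  set Gl : ℝ → ℂ := Lo.indicator (fun ζ => m ζ * gh ζ) with hGl
  set Gh : ℝ → ℂ := Loᶜ.indicator (fun ζ => (m ζ)⁻¹ * gh ζ) with hGh
  have hGlm : MemLp Gl 2 volume := by
    refine hgh.of_le_mul (c := r⁻¹) ((hmc.aestronglyMeasurable.mul hgh.1).indicator hLom)
      (Filter.Eventually.of_forall fun ζ => ?_)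
    by_cases hζ : ζ ∈ Lo
    · rw [hGl, Set.indicator_of_mem hζ, norm_mul, hmn]
      refine mul_le_mul_of_nonneg_right ?_ (norm_nonneg _)
      have hζ' : 2 * Real.pi * r * |ζ + ν| ≤ 1 := hζ
      rw [← one_div, le_div_iff₀ hr0]
      linarith
    · rw [hGl, Set.indicator_of_notMem hζ, norm_zero]; positivity
  have hHi : ∀ ζ, ζ ∉ Lo → 1 < 2 * Real.pi * r * |ζ + ν| := fun ζ hζ => not_le.1 hζ
  have hHipos : ∀ ζ, ζ ∉ Lo → 0 < |ζ + ν| := by
    intro ζ hζ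
    have h1 := hHi ζ hζ
    by_contra h
    have h2 : |ζ + ν| = 0 := le_antisymm (not_lt.1 h) (abs_nonneg _)
    rw [h2] at h1
    norm_num at h1
  have hGhm : MemLp Gh 2 volume := by
    refine hgh.of_le_mul (c := r) ((hmc.measurable.inv.aestronglyMeasurable.mul hgh.1).indicator hLom.compl)
      (Filter.Eventually.of_forall fun ζ => ?_)
    by_cases hζ : ζ ∈ Lo
    · rw [hGh, Set.indicator_of_notMem (by simpa using hζ), norm_zero]; positivity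
    · rw [hGh, Set.indicator_of_mem (by simpa using hζ), norm_mul, norm_inv, hmn]
      refine mul_le_mul_of_nonneg_right ?_ (norm_nonneg _)
      have h1 := hHi ζ hζ
      have hpos' := hHipos ζ hζ
      have hpos : 0 < 2 * Real.pi * |ζ + ν| := by positivity
      calc (2 * Real.pi * |ζ + ν|)⁻¹ = 1 * (2 * Real.pi * |ζ + ν|)⁻¹ := (one_mul _).symm
        _ ≤ (2 * Real.pi * r * |ζ + ν|) * (2 * Real.pi * |ζ + ν|)⁻¹ :=
            mul_le_mul_of_nonneg_right h1.le (inv_nonneg.2 hpos.le)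
        _ = r := by field_simp
  -- pointwise identity of the profiles
  have hprof : ∀ ζ, r ^ 3 * ‖Gl ζ‖ ^ 2 + r⁻¹ * ‖Gh ζ‖ ^ 2
      = r * (‖gh ζ‖ ^ 2 * s5a_k0 (2 * Real.pi * r * (ζ + ν))) := by
    intro ζ
    have hx2 : (2 * Real.pi * r * (ζ + ν)) ^ 2 = (2 * Real.pi * r * |ζ + ν|) ^ 2 := by
      rw [mul_pow, mul_pow _ (|ζ + ν|), sq_abs]
    by_cases hζ : ζ ∈ Lo
    · have h1 : (2 * Real.pi * r * (ζ + ν)) ^ 2 ≤ 1 := by
        rw [hx2]; exact pow_le_one₀ (by positivity) hζ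
      rw [s5a_k0_lo h1, hGl, hGh, Set.indicator_of_mem hζ, Set.indicator_of_notMem (by simpa using hζ), norm_mul,
        hmn, hx2, norm_zero]
      ring
    · have h1 : 1 < (2 * Real.pi * r * (ζ + ν)) ^ 2 := by
        rw [hx2]; exact one_lt_pow₀ (hHi ζ hζ) (by norm_num)
      have hpos := hHipos ζ hζ
      rw [s5a_k0_hi h1, hGl, hGh, Set.indicator_of_notMem hζ, Set.indicator_of_mem (by simpa using hζ), norm_mul,
        norm_inv, hmn, hx2, norm_zero]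
      field_simp
      ring
  -- decomposition of the coefficients
  have hΨ1 : ∀ I ∈ S, ContDiff ℝ ∞ (fun u => Om I u * ee (ν * u)) := fun I hI => (hOm I hI).1.mul hee
  have hΨ2 : ∀ I ∈ S, HasCompactSupport (fun u => Om I u * ee (ν * u)) :=
    fun I hI => (s5a_hcs_of_supp (hOm I hI).2.2.1).mul_right
  have hΞ1 : ∀ I ∈ S, ContDiff ℝ ∞ (fun u => deriv (om I) u * ee (ν * u)) :=
    fun I hI => (contDiff_infty_iff_deriv.1 (hbump I hI).smooth).2.mul hee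
  have hΞ2 : ∀ I ∈ S, HasCompactSupport (fun u => deriv (om I) u * ee (ν * u)) :=
    fun I hI => (s5a_hcs_of_supp (hbump I hI).deriv_supp).mul_right
  have hdec : ∀ I ∈ S, ∫ u, om I u * ee (ν * u) * g u
      = (∫ ζ, s5a_ft (fun u => Om I u * ee (ν * u)) ζ * Gl ζ)
        + ∫ ζ, s5a_ft (fun u => deriv (om I) u * ee (ν * u)) ζ * Gh ζ := by
    intro I hI
    obtain ⟨hO1, hO2, hO3, _⟩ := hOm I hI
    have hb := hbump I hI
    have hρ1 : ContDiff ℝ ∞ (fun u => om I u * ee (ν * u)) := hb.smooth.mul hee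
    have hρ2 : HasCompactSupport (fun u => om I u * ee (ν * u)) := (s5a_hcs_of_supp hb.supp).mul_right
    have i1 : Integrable (fun ζ => s5a_ft (fun u => Om I u * ee (ν * u)) ζ * Gl ζ) volume :=
      (s5a_ft_memLp _ (hΨ1 I hI) (hΨ2 I hI)).integrable_mul hGlm
    have i2 : Integrable (fun ζ => s5a_ft (fun u => deriv (om I) u * ee (ν * u)) ζ * Gh ζ) volume :=
      (s5a_ft_memLp _ (hΞ1 I hI) (hΞ2 I hI)).integrable_mul hGhm
    rw [hpl _ hρ1 hρ2, ← integral_add i1 i2]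
    congr 1; funext ζ
    have e1 : s5a_ft (fun u => om I u * ee (ν * u)) ζ = m ζ * s5a_ft (fun u => Om I u * ee (ν * u)) ζ :=
      s5a_ft_mod (Om I) (om I) hO1 (s5a_hcs_of_supp hO3) hO2 ν ζ
    have e2 : s5a_ft (fun u => deriv (om I) u * ee (ν * u)) ζ = m ζ * s5a_ft (fun u => om I u * ee (ν * u)) ζ :=
      s5a_ft_mod (om I) (deriv (om I)) hb.smooth (s5a_hcs_of_supp hb.supp) (fun _ => rfl) ν ζ
    by_cases hζ : ζ ∈ Lo
    · rw [hGl, hGh, Set.indicator_of_mem hζ, Set.indicator_of_notMem (by simpa using hζ), e1]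
      ring
    · have hm0 : m ζ ≠ 0 := by
        rw [← norm_pos_iff, hmn]
        have := hHipos ζ hζ
        positivity
      rw [hGl, hGh, Set.indicator_of_notMem hζ, Set.indicator_of_mem (by simpa using hζ), e2]
      field_simp
      ring
  -- the two Bessel inequalities
  have hdisj : ∀ (F : Cell → ℝ → ℂ), (∀ I ∈ S, ∀ u, F I u ≠ 0 → I.left < u ∧ u < I.right) →
      ∀ I ∈ S, ∀ J ∈ S, I ≠ J → ∀ u, F I u * ee (ν * u) = 0 ∨ F J u * ee (ν * u) = 0 := by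
    intro F hF I hI J hJ hIJ u
    by_contra hcon
    rw [not_or] at hcon
    have h1 := hF I hI u (left_ne_zero_of_mul hcon.1)
    have h2 := hF J hJ u (left_ne_zero_of_mul hcon.2)
    exact hIJ (cell_eq_of_depth_of_mem ((hdepth I hI).trans (hdepth J hJ).symm) ⟨h1.1.le, h1.2⟩ ⟨h2.1.le, h2.2⟩)
  have hB1 : ∑ I ∈ S, ‖∫ ζ, s5a_ft (fun u => Om I u * ee (ν * u)) ζ * Gl ζ‖ ^ 2
      ≤ (A ^ 2 * r ^ 3) * ∫ ζ, ‖Gl ζ‖ ^ 2 := by
    refine s5a_ft_bessel S (fun I u => Om I u * ee (ν * u)) hΨ1 hΨ2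
      (hdisj Om fun I hI => (hOm I hI).2.2.1) _ (by positivity) (fun I hI => ?_) Gl hGlm
    have h := s5a_int_sq_le (I := I) (f := fun u => Om I u * ee (ν * u)) (B := A * r)
      (fun u hu => (hOm I hI).2.2.1 u (left_ne_zero_of_mul hu))
      (fun u => by rw [norm_mul, wy_ee_norm, mul_one, ← hlen I hI]; exact (hOm I hI).2.2.2 u)
    rw [hlen I hI] at h
    refine h.trans (le_of_eq ?_)
    ring
  have hB2 : ∑ I ∈ S, ‖∫ ζ, s5a_ft (fun u => deriv (om I) u * ee (ν * u)) ζ * Gh ζ‖ ^ 2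
      ≤ (A ^ 2 * r⁻¹) * ∫ ζ, ‖Gh ζ‖ ^ 2 := by
    refine s5a_ft_bessel S (fun I u => deriv (om I) u * ee (ν * u)) hΞ1 hΞ2
      (hdisj (fun I => deriv (om I)) fun I hI => (hbump I hI).deriv_supp) _ (by positivity) (fun I hI => ?_) Gh hGhm
    have h := s5a_int_sq_le (I := I) (f := fun u => deriv (om I) u * ee (ν * u)) (B := A / r)
      (fun u hu => (hbump I hI).deriv_supp u (left_ne_zero_of_mul hu))
      (fun u => by rw [norm_mul, wy_ee_norm, mul_one, ← hlen I hI]; exact (hbump I hI).der u)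
    rw [hlen I hI] at h
    refine h.trans (le_of_eq ?_)
    field_simp
  -- conclusion
  have hfin : r ^ 3 * (∫ ζ, ‖Gl ζ‖ ^ 2) + r⁻¹ * ∫ ζ, ‖Gh ζ‖ ^ 2
      = r * ∫ ζ, ‖gh ζ‖ ^ 2 * s5a_k0 (2 * Real.pi * r * (ζ + ν)) := by
    rw [← integral_const_mul, ← integral_const_mul, ← integral_const_mul,
      ← integral_add ((hsqint hGlm).const_mul _) ((hsqint hGhm).const_mul _)]
    exact integral_congr_ae (Filter.Eventually.of_forall hprof)
  calc ∑ I ∈ S, ‖∫ u, om I u * ee (ν * u) * g u‖ ^ 2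
      ≤ ∑ I ∈ S, (2 * ‖∫ ζ, s5a_ft (fun u => Om I u * ee (ν * u)) ζ * Gl ζ‖ ^ 2
          + 2 * ‖∫ ζ, s5a_ft (fun u => deriv (om I) u * ee (ν * u)) ζ * Gh ζ‖ ^ 2) := by
        refine Finset.sum_le_sum fun I hI => ?_
        rw [hdec I hI]
        have h1 := norm_add_le (∫ ζ, s5a_ft (fun u => Om I u * ee (ν * u)) ζ * Gl ζ)
          (∫ ζ, s5a_ft (fun u => deriv (om I) u * ee (ν * u)) ζ * Gh ζ)
        have h2 := pow_le_pow_left₀ (norm_nonneg _) h1 2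
        nlinarith [sq_nonneg (‖∫ ζ, s5a_ft (fun u => Om I u * ee (ν * u)) ζ * Gl ζ‖
          - ‖∫ ζ, s5a_ft (fun u => deriv (om I) u * ee (ν * u)) ζ * Gh ζ‖)]
    _ = 2 * ∑ I ∈ S, ‖∫ ζ, s5a_ft (fun u => Om I u * ee (ν * u)) ζ * Gl ζ‖ ^ 2
          + 2 * ∑ I ∈ S, ‖∫ ζ, s5a_ft (fun u => deriv (om I) u * ee (ν * u)) ζ * Gh ζ‖ ^ 2 := by
        rw [Finset.sum_add_distrib, Finset.mul_sum, Finset.mul_sum]
    _ ≤ 2 * ((A ^ 2 * r ^ 3) * ∫ ζ, ‖Gl ζ‖ ^ 2) + 2 * ((A ^ 2 * r⁻¹) * ∫ ζ, ‖Gh ζ‖ ^ 2) := by linarith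
    _ = 2 * A ^ 2 * (r ^ 3 * (∫ ζ, ‖Gl ζ‖ ^ 2) + r⁻¹ * ∫ ζ, ‖Gh ζ‖ ^ 2) := by ring
    _ = 2 * A ^ 2 * r * ∫ ζ, ‖gh ζ‖ ^ 2 * s5a_k0 (2 * Real.pi * r * (ζ + ν)) := by rw [hfin]; ring

end FB2

end Claimed.Agent.R258
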