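/-
Row 258, block [S5a] (architect helper192).  FILE Cnt = leaves P-S5a-CNT (section CNT) and P-S5a-MB (section MB).     No paper.
CNT: elementary sums over dyadic scales (Mathlib only).   `k0 x = min (x²) (x²)⁻¹` (`k0 0 = 0`, `0 ≤ k0 ≤ 1`, even).
* `s5a_geo`: a finite set `S` of integers, `c (2^{-s})^n ≤ X` on `S` (`n = 1, 2`): let `s₀ = min S`; `∑_{s ∈ S} c (2^{-s})^n ≤ c (2^{-s₀})^n ∑_{j ≥ 0} 2^{-jn} ≤ 2 X`.  (Map `S` injectively into `ℕ` by `s ↦ (s - s₀).toNat`; `Finset.sum_le_sum_of_subset…` into a `range`; `geom_sum`; or induction on `S` ordered by `min'`.)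
* `s5a_cnt1`: `y_s = 2^{-s} |x|`.  If `x = 0` all terms vanish.  Otherwise split `S` into `{y_s ≤ 1}` (`k0 ≤ y_s²`, `s5a_geo` with `n = 2`, `c = x²`, `X = 1`) and `{y_s > 1}` (`k0 ≤ y_s⁻² = (2^{s})² x⁻²`: `s5a_geo` for the reflected set `-S`).   Total `≤ 4`.
* `s5a_cnt`: for `(s,ν)` with `ζ + ν ≠ 0` let `ℓ = ⌊log₂ (2^{-s}|ζ+ν|)⌋` (`Int.log 2` or `Int.floor (Real.logb 2 _)`).  For fixed `ℓ`: at most `𝔥` depths `s`; for fixed `(ℓ,s)` the `ν ∈ N s` of the shell lie in an interval of length `2^{ℓ+2} 2^{s}` and are `2^{s}`-separated: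
  at most `2^{ℓ+2} + 1` of them (`s5a_sep_card`);  `k0(2π x) ≤ min(16 π² 4^ℓ, 4^{-ℓ}/(4π²))` for `x ∈ [2^ℓ, 2^{ℓ+1})`.   `ℓ ≤ -1`: `(2^{ℓ+2}+1) ≤ 3`, `16π² ≤ 158`: `∑ ≤ 3·158/3 = 158`;  `ℓ ≥ 0`: `(2^{ℓ+2}+1) ≤ 5·2^ℓ`, `∑ 5·2^{-ℓ}/39 ≤ 1`.
  (Only finitely many `ℓ` occur; bound the finite sum over the occurring `ℓ` by the two geometric series: `s5a_geo`-type argument or `Summable`/`tsum` on `ℤ`.)
MB: from `s5a_fb`: group the pairs `(I,ν)` by `(depth I, ν)`;  `(√|I|)⁻² · 2 S² |I| = 2 S²`;   `∑_{s,ν} ∫ P k0(…) = ∫ P ∑ k0(…) ≤ 𝔥 ∫ P` (`integral_finsetSum`, `integral_mono`, integrability: `P` integrable, `0 ≤ k0 ≤ 1` measurable).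
-/
import Claimed.Agent.R258.S5a.Fb

set_option autoImplicit false
open MeasureTheory
open scoped ENNReal ContDiff ComplexConjugate

namespace Claimed.Agent.R258

section CNT

theorem s5a_k0_nonneg (x : ℝ) : 0 ≤ s5a_k0 x := by
  unfold s5a_k0
  exact le_min (sq_nonneg _) (inv_nonneg.2 (sq_nonneg _))

theorem s5a_k0_le_one (x : ℝ) : s5a_k0 x ≤ 1 := by
  rcases le_or_gt (x ^ 2) 1 with h | h
  · rw [s5a_k0_lo h]; exact h
  · rw [s5a_k0_hi h]; exact inv_le_one_of_one_le₀ h.le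

theorem s5a_k0_neg (x : ℝ) : s5a_k0 (-x) = s5a_k0 x := by
  unfold s5a_k0
  rw [neg_sq]

theorem s5a_k0_measurable : Measurable s5a_k0 := by
  unfold s5a_k0
  exact (measurable_id.pow_const 2).min (measurable_id.pow_const 2).inv

theorem s5a_k0_le_sq (x : ℝ) : s5a_k0 x ≤ x ^ 2 := min_le_left _ _

theorem s5a_k0_le_inv (x : ℝ) : s5a_k0 x ≤ (x ^ 2)⁻¹ := min_le_right _ _

/-- a finite part of a geometric series -/
theorem s5a_geom_le (T : Finset ℕ) (ρ : ℝ) (h0 : 0 ≤ ρ) (h1 : ρ < 1) : ∑ j ∈ T, ρ ^ j ≤ (1 - ρ)⁻¹ := by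
  rw [← tsum_geometric_of_lt_one h0 h1]
  exact (summable_geometric_of_lt_one h0 h1).sum_le_tsum T fun j _ => pow_nonneg h0 j

/-- a sum over a finite set of integers `≥ s₀` dominated by a geometric sequence -/
theorem s5a_geom_int (S : Finset ℤ) (s₀ : ℤ) (hS : ∀ s ∈ S, s₀ ≤ s) (ρ : ℝ) (h0 : 0 ≤ ρ) (h1 : ρ < 1) :
    ∑ s ∈ S, ρ ^ (s - s₀).toNat ≤ (1 - ρ)⁻¹ := by
  classical
  have hinj : Set.InjOn (fun s : ℤ => (s - s₀).toNat) (S : Set ℤ) := by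
    intro s hs s' hs' h
    have h2 := hS s hs
    have h3 := hS s' hs'
    simp only at h
    omega
  rw [← Finset.sum_image (f := fun j => ρ ^ j) hinj]
  exact s5a_geom_le _ ρ h0 h1

/-- geometric sums over a finite set of depths -/
theorem s5a_geo (S : Finset ℤ) (c X : ℝ) (n : ℕ) (hn : 1 ≤ n) (hc : 0 ≤ c) (hX : 0 ≤ X) (h : ∀ s ∈ S, c * ((2 : ℝ) ^ (-s)) ^ n ≤ X) :
    ∑ s ∈ S, c * ((2 : ℝ) ^ (-s)) ^ n ≤ 2 * X := by
  rcases S.eq_empty_or_nonempty with rfl | hne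
  · simp; positivity
  set s₀ := S.min' hne with hs₀
  have hmin : ∀ s ∈ S, s₀ ≤ s := fun s hs => Finset.min'_le S s hs
  have hterm : ∀ s ∈ S, c * ((2 : ℝ) ^ (-s)) ^ n ≤ X * (1 / 2 : ℝ) ^ (s - s₀).toNat := by
    intro s hs
    have h1 := hmin s hs
    set j := (s - s₀).toNat with hj
    have hsj : s = s₀ + (j : ℤ) := by omega
    have e : ((2 : ℝ) ^ (-s)) ^ n = ((2 : ℝ) ^ (-s₀)) ^ n * ((1 / 2 : ℝ) ^ j) ^ n := by
      rw [← mul_pow]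
      congr 1
      rw [hsj, neg_add, zpow_add₀ (by norm_num : (2 : ℝ) ≠ 0), zpow_neg _ (j : ℤ), zpow_natCast, one_div, inv_pow]
    have h2 : ((1 / 2 : ℝ) ^ j) ^ n ≤ (1 / 2 : ℝ) ^ j :=
      pow_le_of_le_one (by positivity) (pow_le_one₀ (by norm_num) (by norm_num)) (by omega)
    calc c * ((2 : ℝ) ^ (-s)) ^ n = (c * ((2 : ℝ) ^ (-s₀)) ^ n) * ((1 / 2 : ℝ) ^ j) ^ n := by rw [e]; ring
      _ ≤ X * (1 / 2 : ℝ) ^ j := mul_le_mul (h s₀ (Finset.min'_mem S hne)) h2 (by positivity) hX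
  calc ∑ s ∈ S, c * ((2 : ℝ) ^ (-s)) ^ n ≤ ∑ s ∈ S, X * (1 / 2 : ℝ) ^ (s - s₀).toNat := Finset.sum_le_sum hterm
    _ = X * ∑ s ∈ S, (1 / 2 : ℝ) ^ (s - s₀).toNat := by rw [Finset.mul_sum]
    _ ≤ X * (1 - 1 / 2 : ℝ)⁻¹ := mul_le_mul_of_nonneg_left (s5a_geom_int S s₀ hmin _ (by norm_num) (by norm_num)) hX
    _ = 2 * X := by norm_num; ring

/-- one fixed frequency -/
theorem s5a_cnt1 (S : Finset ℤ) (x : ℝ) : ∑ s ∈ S, s5a_k0 ((2 : ℝ) ^ (-s) * x) ≤ 4 := by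
  classical
  rw [← Finset.sum_filter_add_sum_filter_not S (fun s => ((2 : ℝ) ^ (-s) * x) ^ 2 ≤ 1)]
  have h1 : ∑ s ∈ S.filter (fun s => ((2 : ℝ) ^ (-s) * x) ^ 2 ≤ 1), s5a_k0 ((2 : ℝ) ^ (-s) * x) ≤ 2 * 1 := by
    refine le_trans (Finset.sum_le_sum fun s _ => ?_)
      (s5a_geo (S.filter (fun s => ((2 : ℝ) ^ (-s) * x) ^ 2 ≤ 1)) (x ^ 2) 1 2 (by norm_num) (sq_nonneg _) zero_le_one ?_)
    · refine (s5a_k0_le_sq _).trans (le_of_eq ?_)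
      ring
    · intro s hs
      have := (Finset.mem_filter.1 hs).2
      calc x ^ 2 * ((2 : ℝ) ^ (-s)) ^ 2 = ((2 : ℝ) ^ (-s) * x) ^ 2 := by ring
        _ ≤ 1 := this
  have h2 : ∑ s ∈ S.filter (fun s => ¬ ((2 : ℝ) ^ (-s) * x) ^ 2 ≤ 1), s5a_k0 ((2 : ℝ) ^ (-s) * x) ≤ 2 * 1 := by
    set S₂ := S.filter (fun s => ¬ ((2 : ℝ) ^ (-s) * x) ^ 2 ≤ 1) with hS₂
    have e : ∀ s : ℤ, (((2 : ℝ) ^ (-s) * x) ^ 2)⁻¹ = (x ^ 2)⁻¹ * ((2 : ℝ) ^ (-(-s))) ^ 2 := by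
      intro s
      rw [mul_pow, mul_inv, neg_neg, zpow_neg, inv_pow, inv_inv, mul_comm]
    have hg := s5a_geo (S₂.image (fun s => -s)) ((x ^ 2)⁻¹) 1 2 (by norm_num) (inv_nonneg.2 (sq_nonneg _)) zero_le_one ?_
    · rw [Finset.sum_image (fun a _ b _ hab => neg_injective hab)] at hg
      refine le_trans (Finset.sum_le_sum fun s _ => ?_) hg
      rw [← e]
      exact s5a_k0_le_inv _
    · intro s' hs'
      obtain ⟨s, hs, rfl⟩ := Finset.mem_image.1 hs'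
      rw [← e]
      have := not_le.1 (Finset.mem_filter.1 hs).2
      exact inv_le_one_of_one_le₀ this.le
  linarith

/-- `δ`-separated points in an interval of length `L` -/
theorem s5a_sep_card (N : Finset ℝ) (δ L x₀ : ℝ) (hδ : 0 < δ) (hL : 0 ≤ L) (hsep : ∀ ν ∈ N, ∀ ν' ∈ N, ν ≠ ν' → δ ≤ |ν - ν'|)
    (hN : ∀ ν ∈ N, x₀ ≤ ν ∧ ν ≤ x₀ + L) : (N.card : ℝ) ≤ L / δ + 1 := by
  classical
  have hmaps : ∀ ν ∈ N, ⌊(ν - x₀) / δ⌋ ∈ Finset.Icc (0 : ℤ) ⌊L / δ⌋ := by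
    intro ν hν
    rw [Finset.mem_Icc]
    constructor
    · exact Int.floor_nonneg.2 (div_nonneg (by linarith [(hN ν hν).1]) hδ.le)
    · exact Int.floor_le_floor (div_le_div_of_nonneg_right (by linarith [(hN ν hν).2]) hδ.le)
  have hinj : Set.InjOn (fun ν : ℝ => ⌊(ν - x₀) / δ⌋) (N : Set ℝ) := by
    intro ν hν ν' hν' h
    by_contra hne
    have h1 := hsep ν hν ν' hν' hne
    have h2 : |(ν - x₀) / δ - (ν' - x₀) / δ| < 1 := Int.abs_sub_lt_one_of_floor_eq_floor h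
    have h3 : (ν - x₀) / δ - (ν' - x₀) / δ = (ν - ν') / δ := by ring
    rw [h3, abs_div, abs_of_pos hδ, div_lt_one hδ] at h2
    linarith
  have hcard := Finset.card_le_card_of_injOn _ hmaps hinj
  rw [Int.card_Icc] at hcard
  have h0 : (0 : ℤ) ≤ ⌊L / δ⌋ := Int.floor_nonneg.2 (div_nonneg hL hδ.le)
  have h4 : ((⌊L / δ⌋ + 1 - 0).toNat : ℝ) = (⌊L / δ⌋ : ℝ) + 1 := by
    have : ((⌊L / δ⌋ + 1 - 0).toNat : ℤ) = ⌊L / δ⌋ + 1 := by omega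
    exact_mod_cast this
  calc (N.card : ℝ) ≤ ((⌊L / δ⌋ + 1 - 0).toNat : ℝ) := by exact_mod_cast hcard
    _ = (⌊L / δ⌋ : ℝ) + 1 := h4
    _ ≤ L / δ + 1 := by linarith [Int.floor_le (L / δ)]

/-- the weight of the shell `ℓ` -/
noncomputable def s5a_W (ℓ : ℤ) : ℝ := if ℓ < 0 then 480 * ((2 : ℝ) ^ ℓ) ^ 2 else 5 / 36 * ((2 : ℝ) ^ ℓ)⁻¹

theorem s5a_W_nonneg (ℓ : ℤ) : 0 ≤ s5a_W ℓ := by
  unfold s5a_W
  split_ifs <;> positivity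

theorem s5a_W_sum (L : Finset ℤ) : ∑ ℓ ∈ L, s5a_W ℓ ≤ 161 := by
  classical
  rw [← Finset.sum_filter_add_sum_filter_not L (fun ℓ => ℓ < 0)]
  have h1 : ∑ ℓ ∈ L.filter (fun ℓ => ℓ < 0), s5a_W ℓ ≤ 160 := by
    have hg := s5a_geom_int ((L.filter (fun ℓ => ℓ < 0)).image (fun ℓ => -ℓ)) 1 (by
      intro s hs
      obtain ⟨ℓ, hℓ, rfl⟩ := Finset.mem_image.1 hs
      have := (Finset.mem_filter.1 hℓ).2
      omega) (1 / 4 : ℝ) (by norm_num) (by norm_num)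
    rw [Finset.sum_image (fun a _ b _ hab => neg_injective hab)] at hg
    have e : ∀ ℓ ∈ L.filter (fun ℓ => ℓ < 0), s5a_W ℓ = 120 * (1 / 4 : ℝ) ^ (-ℓ - 1).toNat := by
      intro ℓ hℓ
      have hneg := (Finset.mem_filter.1 hℓ).2
      unfold s5a_W
      rw [if_pos hneg]
      set j := (-ℓ - 1).toNat with hj
      have hℓj : ℓ = -((j : ℤ) + 1) := by omega
      have e2 : (2 : ℝ) ^ ℓ = (1 / 2 : ℝ) ^ (j + 1) := by
        have e3 : ((j : ℤ) + 1) = ((j + 1 : ℕ) : ℤ) := by push_cast; ring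
        rw [hℓj, zpow_neg, one_div, inv_pow, e3, zpow_natCast]
      rw [e2, ← pow_mul, mul_comm (j + 1) 2, pow_mul, pow_succ]
      norm_num
      ring
    rw [Finset.sum_congr rfl e, ← Finset.mul_sum]
    have : (1 - 1 / 4 : ℝ)⁻¹ = 4 / 3 := by norm_num
    rw [this] at hg
    linarith
  have h2 : ∑ ℓ ∈ L.filter (fun ℓ => ¬ ℓ < 0), s5a_W ℓ ≤ 1 := by
    have hg := s5a_geom_int (L.filter (fun ℓ => ¬ ℓ < 0)) 0 (by
      intro s hs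
      have := (Finset.mem_filter.1 hs).2
      omega) (1 / 2 : ℝ) (by norm_num) (by norm_num)
    have e : ∀ ℓ ∈ L.filter (fun ℓ => ¬ ℓ < 0), s5a_W ℓ = 5 / 36 * (1 / 2 : ℝ) ^ (ℓ - 0).toNat := by
      intro ℓ hℓ
      have hneg := (Finset.mem_filter.1 hℓ).2
      unfold s5a_W
      rw [if_neg hneg]
      set j := (ℓ - 0).toNat with hj
      have hℓj : ℓ = (j : ℤ) := by omega
      rw [hℓj, zpow_natCast, one_div, inv_pow]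
    rw [Finset.sum_congr rfl e, ← Finset.mul_sum]
    have : (1 - 1 / 2 : ℝ)⁻¹ = 2 := by norm_num
    rw [this] at hg
    linarith
  linarith

/-- one depth and one shell -/
theorem s5a_cnt_shell (s : ℤ) (N : Finset ℝ) (hsep : ∀ ν ∈ N, ∀ ν' ∈ N, ν ≠ ν' → 1 ≤ (2 : ℝ) ^ (-s) * |ν - ν'|) (ζ : ℝ)
    (ℓ : ℤ) (hN : ∀ ν ∈ N, (2 : ℝ) ^ ℓ ≤ (2 : ℝ) ^ (-s) * |ζ + ν| ∧ (2 : ℝ) ^ (-s) * |ζ + ν| < (2 : ℝ) ^ (ℓ + 1)) :
    ∑ ν ∈ N, s5a_k0 (2 * Real.pi * (2 : ℝ) ^ (-s) * (ζ + ν)) ≤ s5a_W ℓ := by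
  set a : ℝ := (2 : ℝ) ^ ℓ with ha
  have ha0 : 0 < a := by positivity
  have ha1 : (2 : ℝ) ^ (ℓ + 1) = 2 * a := by rw [zpow_add₀ (by norm_num : (2 : ℝ) ≠ 0), zpow_one, mul_comm]
  set b : ℝ := (2 : ℝ) ^ s with hb
  have hb0 : 0 < b := by positivity
  have hbi : (2 : ℝ) ^ (-s) = b⁻¹ := by rw [zpow_neg]
  rw [hbi] at hsep hN ⊢
  rw [ha1] at hN
  have hcard : (N.card : ℝ) ≤ 4 * a + 1 := by
    have h := s5a_sep_card N b (4 * a * b) (-ζ - 2 * a * b) hb0 (by positivity) (fun ν hν ν' hν' hne => by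
      have h1 := hsep ν hν ν' hν' hne
      rw [inv_mul_eq_div, le_div_iff₀ hb0, one_mul] at h1
      exact h1) (fun ν hν => by
      have h1 := (hN ν hν).2
      rw [inv_mul_eq_div, div_lt_iff₀ hb0] at h1
      have h2 := abs_lt.1 h1
      constructor <;> linarith [h2.1, h2.2])
    have e : 4 * a * b / b = 4 * a := by field_simp
    rw [e] at h
    exact h
  have hx2 : ∀ ν, (2 * Real.pi * b⁻¹ * (ζ + ν)) ^ 2 = 4 * Real.pi ^ 2 * (b⁻¹ * |ζ + ν|) ^ 2 := by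
    intro ν
    rw [mul_pow b⁻¹, sq_abs]
    ring
  have hpi3 := Real.pi_gt_three
  have hpi4 := Real.pi_lt_d2
  unfold s5a_W
  split_ifs with hℓ
  · have ha2 : a ≤ 1 / 2 := by
      have : (2 : ℝ) ^ ℓ ≤ (2 : ℝ) ^ (-1 : ℤ) := zpow_le_zpow_right₀ (by norm_num) (by omega)
      rw [zpow_neg_one] at this
      rw [ha]; linarith
    have hterm : ∀ ν ∈ N, s5a_k0 (2 * Real.pi * b⁻¹ * (ζ + ν)) ≤ 160 * a ^ 2 := by
      intro ν hν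
      refine (s5a_k0_le_sq _).trans ?_
      rw [hx2]
      have h1 : (b⁻¹ * |ζ + ν|) ^ 2 ≤ (2 * a) ^ 2 := pow_le_pow_left₀ (by positivity) (hN ν hν).2.le 2
      have h2 : Real.pi ^ 2 ≤ 10 := by nlinarith
      calc 4 * Real.pi ^ 2 * (b⁻¹ * |ζ + ν|) ^ 2 ≤ 4 * 10 * (2 * a) ^ 2 := by
            apply mul_le_mul (by linarith) h1 (by positivity) (by norm_num)
        _ = 160 * a ^ 2 := by ring
    calc ∑ ν ∈ N, s5a_k0 (2 * Real.pi * b⁻¹ * (ζ + ν)) ≤ ∑ _ν ∈ N, 160 * a ^ 2 := Finset.sum_le_sum hterm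
      _ = (N.card : ℝ) * (160 * a ^ 2) := by rw [Finset.sum_const, nsmul_eq_mul]
      _ ≤ 3 * (160 * a ^ 2) := mul_le_mul_of_nonneg_right (by linarith) (by positivity)
      _ = 480 * a ^ 2 := by ring
  · have ha2 : 1 ≤ a := by
      rw [ha]; exact one_le_zpow₀ (by norm_num) (by omega)
    have hterm : ∀ ν ∈ N, s5a_k0 (2 * Real.pi * b⁻¹ * (ζ + ν)) ≤ (36 * a ^ 2)⁻¹ := by
      intro ν hν
      refine (s5a_k0_le_inv _).trans ?_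
      rw [hx2]
      have h1 : a ^ 2 ≤ (b⁻¹ * |ζ + ν|) ^ 2 := pow_le_pow_left₀ ha0.le (hN ν hν).1 2
      have h2 : 9 ≤ Real.pi ^ 2 := by nlinarith
      apply inv_anti₀ (by positivity)
      calc 36 * a ^ 2 = 4 * 9 * a ^ 2 := by ring
        _ ≤ 4 * Real.pi ^ 2 * (b⁻¹ * |ζ + ν|) ^ 2 := by
            apply mul_le_mul (by linarith) h1 (by positivity) (by positivity)
    calc ∑ ν ∈ N, s5a_k0 (2 * Real.pi * b⁻¹ * (ζ + ν)) ≤ ∑ _ν ∈ N, (36 * a ^ 2)⁻¹ := Finset.sum_le_sum hterm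
      _ = (N.card : ℝ) * (36 * a ^ 2)⁻¹ := by rw [Finset.sum_const, nsmul_eq_mul]
      _ ≤ (5 * a) * (36 * a ^ 2)⁻¹ := mul_le_mul_of_nonneg_right (by linarith) (by positivity)
      _ = 5 / 36 * a⁻¹ := by field_simp

/-- separated centres at every depth + a bound for the number of depths seeing a given shell -/
theorem s5a_cnt (S : Finset ℤ) (N : ℤ → Finset ℝ) (𝔥 : ℝ) (h𝔥 : 0 ≤ 𝔥)
    (hsep : ∀ s ∈ S, ∀ ν ∈ N s, ∀ ν' ∈ N s, ν ≠ ν' → 1 ≤ (2 : ℝ) ^ (-s) * |ν - ν'|) (ζ : ℝ)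
    (hcount : ∀ ℓ : ℤ, (({s ∈ S | ∃ ν ∈ N s, (2 : ℝ) ^ ℓ ≤ (2 : ℝ) ^ (-s) * |ζ + ν| ∧
      (2 : ℝ) ^ (-s) * |ζ + ν| < (2 : ℝ) ^ (ℓ + 1)} : Finset ℤ).card : ℝ) ≤ 𝔥) :
    ∑ s ∈ S, ∑ ν ∈ N s, s5a_k0 (2 * Real.pi * (2 : ℝ) ^ (-s) * (ζ + ν)) ≤ 200 * 𝔥 := by
  classical
  set t : ℤ → ℝ → ℝ := fun s ν => s5a_k0 (2 * Real.pi * (2 : ℝ) ^ (-s) * (ζ + ν)) with ht
  set Sh : ℤ → ℤ → ℝ → Prop := fun ℓ s ν =>
    (2 : ℝ) ^ ℓ ≤ (2 : ℝ) ^ (-s) * |ζ + ν| ∧ (2 : ℝ) ^ (-s) * |ζ + ν| < (2 : ℝ) ^ (ℓ + 1) with hSh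
  set lg : ℤ → ℝ → ℤ := fun s ν => Int.log 2 ((2 : ℝ) ^ (-s) * |ζ + ν|) with hlg
  set L : Finset ℤ := S.biUnion fun s => (N s).image (lg s) with hL
  have ht0 : ∀ s ν, 0 ≤ t s ν := fun s ν => s5a_k0_nonneg _
  -- every term lies in one shell
  have h1 : ∀ s ∈ S, ∀ ν ∈ N s, t s ν ≤ ∑ ℓ ∈ L, if Sh ℓ s ν then t s ν else 0 := by
    intro s hs ν hν
    by_cases h0 : ζ + ν = 0
    · have : t s ν = 0 := by
        simp only [ht, h0, mul_zero]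
        unfold s5a_k0; simp
      rw [this]
      exact Finset.sum_nonneg fun ℓ _ => by split_ifs <;> exact le_rfl
    · have hy : 0 < (2 : ℝ) ^ (-s) * |ζ + ν| := mul_pos (by positivity) (abs_pos.2 h0)
      have hsh : Sh (lg s ν) s ν := by
        constructor
        · have := Int.zpow_log_le_self (b := 2) (by norm_num) hy
          exact_mod_cast this
        · have := Int.lt_zpow_succ_log_self (b := 2) (by norm_num) ((2 : ℝ) ^ (-s) * |ζ + ν|)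
          exact_mod_cast this
      have hmem : lg s ν ∈ L := Finset.mem_biUnion.2 ⟨s, hs, Finset.mem_image_of_mem _ hν⟩
      have := Finset.single_le_sum (f := fun ℓ => if Sh ℓ s ν then t s ν else 0)
        (fun ℓ _ => by split_ifs <;> [exact ht0 s ν; exact le_rfl]) hmem
      simpa only [if_pos hsh] using this
  -- one shell, one depth
  have h2 : ∀ ℓ, ∀ s ∈ S, ∑ ν ∈ N s, (if Sh ℓ s ν then t s ν else 0)
      ≤ if (∃ ν ∈ N s, Sh ℓ s ν) then s5a_W ℓ else 0 := by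
    intro ℓ s hs
    rw [← Finset.sum_filter]
    split_ifs with hex
    · exact s5a_cnt_shell s ((N s).filter (Sh ℓ s))
        (fun ν hν ν' hν' => hsep s hs ν (Finset.mem_filter.1 hν).1 ν' (Finset.mem_filter.1 hν').1) ζ ℓ
        (fun ν hν => (Finset.mem_filter.1 hν).2)
    · refine le_of_eq (Finset.sum_eq_zero fun ν hν => ?_)
      exact absurd ⟨ν, (Finset.mem_filter.1 hν).1, (Finset.mem_filter.1 hν).2⟩ hex
  -- one shell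
  have h3 : ∀ ℓ, ∑ s ∈ S, (if (∃ ν ∈ N s, Sh ℓ s ν) then s5a_W ℓ else 0) ≤ s5a_W ℓ * 𝔥 := by
    intro ℓ
    rw [← Finset.sum_filter, Finset.sum_const, nsmul_eq_mul, mul_comm]
    refine mul_le_mul_of_nonneg_left ?_ (s5a_W_nonneg ℓ)
    convert hcount ℓ
  calc ∑ s ∈ S, ∑ ν ∈ N s, t s ν
      ≤ ∑ s ∈ S, ∑ ν ∈ N s, ∑ ℓ ∈ L, (if Sh ℓ s ν then t s ν else 0) :=
        Finset.sum_le_sum fun s hs => Finset.sum_le_sum fun ν hν => h1 s hs ν hν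
    _ = ∑ ℓ ∈ L, ∑ s ∈ S, ∑ ν ∈ N s, (if Sh ℓ s ν then t s ν else 0) := by
        rw [Finset.sum_comm]
        refine Finset.sum_congr rfl fun s _ => ?_
        rw [Finset.sum_comm]
    _ ≤ ∑ ℓ ∈ L, s5a_W ℓ * 𝔥 :=
        Finset.sum_le_sum fun ℓ _ => (Finset.sum_le_sum fun s hs => h2 ℓ s hs).trans (h3 ℓ)
    _ = (∑ ℓ ∈ L, s5a_W ℓ) * 𝔥 := by rw [Finset.sum_mul]
    _ ≤ 161 * 𝔥 := mul_le_mul_of_nonneg_right (s5a_W_sum L) h𝔥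
    _ ≤ 200 * 𝔥 := by linarith

end CNT

section MB

/-- **multi-scale Bessel inequality** for modulated mean-zero bumps -/
theorem s5a_mb (A : Finset Cell) (N : ℤ → Finset ℝ) (𝔥 : ℝ)
    (h : ∀ ζ : ℝ, ∑ s ∈ A.image Cell.depth, ∑ ν ∈ N s, s5a_k0 (2 * Real.pi * (2 : ℝ) ^ (-s) * (ζ + ν)) ≤ 𝔥)
    (om : Cell → ℝ → ℂ) (S : ℝ) (hom : ∀ I ∈ A, s5a_Bump I S (om I)) (h0 : ∀ I ∈ A, ∫ u, om I u = 0) (g : ℝ → ℂ)
    (hg : MemLp g 2 volume) :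
    ∑ I ∈ A, ∑ ν ∈ N I.depth, ‖((Real.sqrt I.len)⁻¹ : ℝ) * ∫ u, om I u * ee (ν * u) * g u‖ ^ 2 ≤
      2 * S ^ 2 * 𝔥 * ∫ y, ‖g y‖ ^ 2 := by
  classical
  obtain ⟨P, hP0, hPi, hPn, hfb⟩ := s5a_fb g hg
  set D : Finset ℤ := A.image Cell.depth with hD
  set F : Cell → ℝ → ℝ := fun I ν => ‖((Real.sqrt I.len)⁻¹ : ℝ) * ∫ u, om I u * ee (ν * u) * g u‖ ^ 2 with hF
  set K : ℤ → ℝ → ℝ → ℝ := fun s ν ζ => P ζ * s5a_k0 (2 * Real.pi * (2 : ℝ) ^ (-s) * (ζ + ν)) with hK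
  have e1 : ∑ I ∈ A, ∑ ν ∈ N I.depth, F I ν = ∑ s ∈ D, ∑ I ∈ A.filter (fun I => I.depth = s), ∑ ν ∈ N I.depth, F I ν :=
    (Finset.sum_fiberwise_of_maps_to (fun I hI => Finset.mem_image_of_mem _ hI) _).symm
  have e2 : ∀ s ∈ D, ∑ I ∈ A.filter (fun I => I.depth = s), ∑ ν ∈ N I.depth, F I ν
      ≤ ∑ ν ∈ N s, 2 * S ^ 2 * ∫ ζ, K s ν ζ := by
    intro s _
    have hr0 : 0 < (2 : ℝ) ^ (-s) := by positivity
    have c1 : ∑ I ∈ A.filter (fun I => I.depth = s), ∑ ν ∈ N I.depth, F I ν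
        = ∑ I ∈ A.filter (fun I => I.depth = s), ∑ ν ∈ N s, F I ν :=
      Finset.sum_congr rfl fun I hI => by rw [(Finset.mem_filter.1 hI).2]
    rw [c1, Finset.sum_comm]
    refine Finset.sum_le_sum fun ν _ => ?_
    have hb := hfb (A.filter (fun I => I.depth = s)) s om S ν (fun I hI => (Finset.mem_filter.1 hI).2)
      (fun I hI => hom I (Finset.mem_filter.1 hI).1) (fun I hI => h0 I (Finset.mem_filter.1 hI).1)
    have c2 : ∀ I ∈ A.filter (fun I => I.depth = s),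
        F I ν = ((2 : ℝ) ^ (-s))⁻¹ * ‖∫ u, om I u * ee (ν * u) * g u‖ ^ 2 := by
      intro I hI
      have hlen : I.len = (2 : ℝ) ^ (-s) := by unfold Cell.len; rw [(Finset.mem_filter.1 hI).2]
      simp only [hF]
      rw [norm_mul, mul_pow, Complex.norm_real, Real.norm_eq_abs, sq_abs, inv_pow, Real.sq_sqrt (cell_len_nonneg I), hlen]
    rw [Finset.sum_congr rfl c2, ← Finset.mul_sum]
    calc ((2 : ℝ) ^ (-s))⁻¹ * ∑ I ∈ A.filter (fun I => I.depth = s), ‖∫ u, om I u * ee (ν * u) * g u‖ ^ 2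
        ≤ ((2 : ℝ) ^ (-s))⁻¹ * (2 * S ^ 2 * (2 : ℝ) ^ (-s) * ∫ ζ, K s ν ζ) :=
          mul_le_mul_of_nonneg_left hb (inv_nonneg.2 hr0.le)
      _ = 2 * S ^ 2 * ∫ ζ, K s ν ζ := by field_simp
  have hint : ∀ s ν, Integrable (K s ν) volume := by
    intro s ν
    refine hPi.mul_bdd (c := 1) ?_ (Filter.Eventually.of_forall fun ζ => ?_)
    · exact (s5a_k0_measurable.comp (by fun_prop)).aestronglyMeasurable
    · rw [Real.norm_of_nonneg (s5a_k0_nonneg _)]; exact s5a_k0_le_one _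
  have e3 : ∑ s ∈ D, ∑ ν ∈ N s, ∫ ζ, K s ν ζ = ∫ ζ, ∑ s ∈ D, ∑ ν ∈ N s, K s ν ζ := by
    rw [integral_finsetSum D fun s _ => integrable_finsetSum _ fun ν _ => hint s ν]
    exact Finset.sum_congr rfl fun s _ => (integral_finsetSum _ fun ν _ => hint s ν).symm
  have e4 : ∫ ζ, ∑ s ∈ D, ∑ ν ∈ N s, K s ν ζ ≤ ∫ ζ, P ζ * 𝔥 := by
    refine integral_mono (integrable_finsetSum _ fun s _ => integrable_finsetSum _ fun ν _ => hint s ν)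
      (hPi.mul_const _) fun ζ => ?_
    simp only [hK, ← Finset.mul_sum]
    exact mul_le_mul_of_nonneg_left (h ζ) (hP0 ζ)
  rw [integral_mul_const, hPn] at e4
  calc ∑ I ∈ A, ∑ ν ∈ N I.depth, F I ν
      ≤ ∑ s ∈ D, ∑ ν ∈ N s, 2 * S ^ 2 * ∫ ζ, K s ν ζ := by rw [e1]; exact Finset.sum_le_sum e2
    _ = 2 * S ^ 2 * ∑ s ∈ D, ∑ ν ∈ N s, ∫ ζ, K s ν ζ := by simp only [Finset.mul_sum]
    _ ≤ 2 * S ^ 2 * ((∫ y, ‖g y‖ ^ 2) * 𝔥) := by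
        rw [e3]; exact mul_le_mul_of_nonneg_left e4 (by positivity)
    _ = 2 * S ^ 2 * 𝔥 * ∫ y, ‖g y‖ ^ 2 := by ring

end MB

end Claimed.Agent.R258
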