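/-
Row 258, block [S5a] (architect helper192).  FILE Form = leaves P-S5a-F1 (section F1) and P-S5a-F2 (section F2): API of the two-input form
  `s5a_formG I w a b G f g = |I|^{-2} ∫∫ w(x,t) G(x,t) f(x + a t) g(x + b t) dx dt`.        No paper.  Mathlib + R258/Defs only.

FACTS.  `w` is continuous, `‖w‖ ≤ s5a_Cw C0 = (2 C0)^(2 C0)` (`Admissible.deriv` with `n = 0`, `norm_iteratedFDeriv_zero`), and `w p ≠ 0` forces all four
`y_l = p.1 + l p.2` into `[left + c0 |I|, right - c0 |I|]`; `y_3 - y_0 = 3 t` gives `|t| ≤ |I|/3`.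
The linear map `L(x,t) = (x + a t, x + b t)` of `ℝ²` has determinant `κ = b - a ≠ 0`:   `∫ F(L p) dp = |κ|⁻¹ ∫ F`
(`MeasureTheory.Measure.map_linearMap_addHaar_eq_smul_addHaar` / `integral_comp_...`, or two one-dimensional substitutions with `integral_prod`:
 `∫∫ F(x + a t, x + b t) dx dt`: substitute `x ↦ x - a t` (`integral_add_right_eq_self`), then `t ↦ (v - x)/κ` (`integral_comp_mul_left`-type lemmas), Fubini).
PLANS.
* `s5a_int_tensor`: the change of variables for `F(u,v) = F1 u * F2 v` (`Integrable.mul_prod`, `integral_prod_mul`).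
* `s5a_dom_integrable`: `(x,t) ↦ 1_I(y_a) |f(y_a)| 1_I(y_b) |g(y_b)|` is integrable with integral `|κ|⁻¹ ‖f‖_{L¹(I)} ‖g‖_{L¹(I)}`, and `‖f‖_{L¹(I)} ≤ √|I| ‖f‖_{L²(I)}` (Cauchy-Schwarz,
  `integral_mul_le_Lp_mul_Lq` or `MeasureTheory.integral_mul_norm_le_Lp_mul_Lq`, or `inner_mul_le_norm_mul_norm` in `L²`).
* `s5a_formG_sup`: `norm_integral_le_of_norm_le` (no measurability of `G` needed) with the dominating function above times `Cw e`;  `|κ|⁻¹ ≤ 1`.
* `s5a_formG_hasSum`: `hasSum_integral_of_summable_integral_norm` (or `integral_tsum` + dominated convergence): the `τ`-th integrand is measurable (`w` continuous, `Gs τ` measurable, `f ∘ (x + a t)`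
  a.e.-strongly measurable because `(x,t) ↦ x + a t` is quasi-measure-preserving: `Measure.QuasiMeasurePreserving`, e.g. via `measurePreserving_add_prod`-type lemmas or the change of variables `L`),
  norm integral `≤ ‖c τ‖ * const`.
* `s5a_formG_cv`: change of variables `L` + `integral_prod` (integrability from the domination).
-/
import Claimed.Agent.R258.S5a.Defs
import Claimed.Agent.R258.Pack006

set_option autoImplicit false
open MeasureTheory
open scoped ENNReal ContDiff ComplexConjugate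

namespace Claimed.Agent.R258

/-- the sup bound of admissible kernels -/
noncomputable def s5a_Cw (C0 : ℝ) : ℝ := (C0 * 2) ^ (C0 * 2)

section F1
variable {c0 C0 : ℝ} {I : Cell} {w : ℝ × ℝ → ℂ}

theorem s5a_Cw_pos {C0 : ℝ} (h : 1 ≤ C0) : 1 ≤ s5a_Cw C0 := by
  unfold s5a_Cw
  exact Real.one_le_rpow (by linarith) (by linarith)

theorem s5a_kap_ne {a b : Fin 4} (h : a ≠ b) : s5a_kap a b ≠ 0 := by
  unfold s5a_kap
  rw [sub_ne_zero]
  intro hh
  exact h (Fin.val_injective (Nat.cast_injective hh)).symm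

theorem s5a_one_le_abs_kap {a b : Fin 4} (h : a ≠ b) : 1 ≤ |s5a_kap a b| := by
  unfold s5a_kap
  have h1 : ((b : ℕ) : ℤ) - ((a : ℕ) : ℤ) ≠ 0 := by
    rw [sub_ne_zero]
    intro hh
    exact h (Fin.val_injective (Nat.cast_injective hh)).symm
  have h2 := Int.one_le_abs h1
  have h3 : ((1 : ℤ) : ℝ) ≤ ((|((b : ℕ) : ℤ) - ((a : ℕ) : ℤ)| : ℤ) : ℝ) := by exact_mod_cast h2
  push_cast at h3
  exact h3

theorem s5a_f_slot_le (a : Fin 4) : ((a : ℕ) : ℝ) ≤ 3 := by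
  have : (a : ℕ) ≤ 3 := by omega
  exact_mod_cast this

theorem s5a_abs_kap_le (a b : Fin 4) : |s5a_kap a b| ≤ 3 := by
  unfold s5a_kap
  have h1 := s5a_f_slot_le a
  have h2 := s5a_f_slot_le b
  have h3 : (0 : ℝ) ≤ ((a : ℕ) : ℝ) := by positivity
  have h4 : (0 : ℝ) ≤ ((b : ℕ) : ℝ) := by positivity
  rw [abs_le]
  constructor <;> linarith

theorem s5a_w_bound (hw : Admissible c0 C0 I w) (p : ℝ × ℝ) : ‖w p‖ ≤ s5a_Cw C0 := by
  have h := hw.deriv 0 p
  rw [norm_iteratedFDeriv_zero] at h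
  unfold s5a_Cw
  simpa using h

theorem s5a_w_continuous (hw : Admissible c0 C0 I w) : Continuous w := hw.smooth.continuous

theorem s5a_supp (hw : Admissible c0 C0 I w) (hc0 : 0 < c0) {p : ℝ × ℝ} (hp : w p ≠ 0) (l : Fin 4) :
    I.left < p.1 + (l : ℝ) * p.2 ∧ p.1 + (l : ℝ) * p.2 < I.right := by
  have h := hw.supp p hp l
  have hpos : 0 < c0 * I.len := mul_pos hc0 (cell_len_pos I)
  constructor
  · linarith [h.1]
  · linarith [h.2]

theorem s5a_supp_set (hw : Admissible c0 C0 I w) (hc0 : 0 < c0) {p : ℝ × ℝ} (hp : w p ≠ 0) (l : Fin 4) :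
    p.1 + (l : ℝ) * p.2 ∈ I.set := by
  have h := s5a_supp hw hc0 hp l
  exact ⟨h.1.le, h.2⟩

theorem s5a_supp_t (hw : Admissible c0 C0 I w) (hc0 : 0 < c0) {p : ℝ × ℝ} (hp : w p ≠ 0) : |p.2| ≤ I.len / 3 := by
  have h0 := s5a_supp hw hc0 hp 0
  have h3 := s5a_supp hw hc0 hp 3
  have hr := cell_right_eq I
  simp only [Fin.val_zero, Nat.cast_zero, zero_mul, add_zero] at h0
  have e3 : (((3 : Fin 4) : ℕ) : ℝ) = 3 := by norm_num
  rw [e3] at h3
  rw [abs_le]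
  constructor <;> linarith [h0.1, h0.2, h3.1, h3.2]

/-- `t = (y_b - y_a)/κ` -/
theorem s5a_t_eq {a b : Fin 4} (h : a ≠ b) (x t : ℝ) :
    t = ((x + (b : ℝ) * t) - (x + (a : ℝ) * t)) / s5a_kap a b := by
  rw [eq_div_iff (s5a_kap_ne h)]
  unfold s5a_kap
  ring

theorem s5a_formG_congr (a b : Fin 4) {G G' : ℝ × ℝ → ℂ} (h : ∀ p, w p ≠ 0 → G p = G' p) (f g : ℝ → ℂ) :
    s5a_formG I w a b G f g = s5a_formG I w a b G' f g := by
  unfold s5a_formG
  congr 1
  refine integral_congr_ae (Filter.Eventually.of_forall fun p => ?_)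
  simp only
  by_cases hp : w p = 0
  · rw [hp]
    simp
  · rw [h p hp]

/-- multipliers in the two slots -/
theorem s5a_formG_mul (a b : Fin 4) (G : ℝ × ℝ → ℂ) (ψa ψb f g : ℝ → ℂ) :
    s5a_formG I w a b (fun p => ψa (p.1 + (a : ℝ) * p.2) * ψb (p.1 + (b : ℝ) * p.2) * G p) f g =
      s5a_formG I w a b G (fun u => ψa u * f u) (fun v => ψb v * g v) := by
  unfold s5a_formG
  congr 1
  refine integral_congr_ae (Filter.Eventually.of_forall fun p => ?_)
  simp only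
  ring

theorem s5a_f_ee_add (s t : ℝ) : ee (s + t) = ee s * ee t := by
  unfold ee
  rw [← Complex.exp_add]
  congr 1
  push_cast
  ring

/-- `e(γ t) = e(-γ y_a/κ) e(γ y_b/κ)` -/
theorem s5a_formG_mod {a b : Fin 4} (h : a ≠ b) (G : ℝ × ℝ → ℂ) (γ : ℝ) (f g : ℝ → ℂ) :
    s5a_formG I w a b (fun p => ee (γ * p.2) * G p) f g =
      s5a_formG I w a b G (fun u => ee (-(γ / s5a_kap a b) * u) * f u) (fun v => ee (γ / s5a_kap a b * v) * g v) := by
  rw [← s5a_formG_mul a b G (fun u => ee (-(γ / s5a_kap a b) * u)) (fun v => ee (γ / s5a_kap a b * v)) f g]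
  congr 1
  funext p
  rw [← s5a_f_ee_add]
  congr 2
  have hκ := s5a_kap_ne h
  have : γ = γ / s5a_kap a b * s5a_kap a b := by
    rw [div_mul_cancel₀ _ hκ]
  conv_lhs => rw [this]
  unfold s5a_kap
  ring

theorem s5a_f_univ : ∀ i j a b : Fin 4, i ≠ j ∧ i ≠ a ∧ i ≠ b ∧ j ≠ a ∧ j ≠ b ∧ a ≠ b →
    (Finset.univ : Finset (Fin 4)) = {i, j, a, b} := by
  decide

theorem s5a_f_prod {i j a b : Fin 4} (h : slot4 i j a b) (F : Fin 4 → ℂ) : ∏ l, F l = F i * F j * F a * F b := by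
  obtain ⟨h1, h2, h3, h4, h5, h6⟩ := h
  rw [s5a_f_univ i j a b ⟨h1, h2, h3, h4, h5, h6⟩, Finset.prod_insert, Finset.prod_insert, Finset.prod_insert,
    Finset.prod_singleton]
  · ring
  · simp [h6]
  · simp [h4, h5]
  · simp [h1, h2, h3]

/-- the four-input form with two fixed functions is a two-input form -/
theorem s5a_form_put4 {i j a b : Fin 4} (h : slot4 i j a b) (φ φ' f g : ℝ → ℂ) :
    form I w (put4 i j a φ φ' f g) =
      s5a_formG I w a b (fun p => φ (p.1 + (i : ℝ) * p.2) * φ' (p.1 + (j : ℝ) * p.2)) f g := by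
  unfold form s5a_formG
  congr 1
  refine integral_congr_ae (Filter.Eventually.of_forall fun p => ?_)
  simp only
  rw [s5a_f_prod h]
  obtain ⟨h1, h2, h3, h4, h5, h6⟩ := h
  have e1 : put4 i j a φ φ' f g i = φ := by simp [put4]
  have e2 : put4 i j a φ φ' f g j = φ' := by simp [put4, h1.symm]
  have e3 : put4 i j a φ φ' f g a = f := by simp [put4, h2.symm, h4.symm]
  have e4 : put4 i j a φ φ' f g b = g := by simp [put4, h3.symm, h5.symm, h6.symm]
  rw [e1, e2, e3, e4]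
  ring

end F1

section F2
variable {c0 C0 : ℝ} {I : Cell} {w : ℝ × ℝ → ℂ}

/-- the map `(x,t) ↦ (y_a, y_b)` -/
def s5a_f_L (a b : Fin 4) (p : ℝ × ℝ) : ℝ × ℝ := (p.1 + (a : ℝ) * p.2, p.1 + (b : ℝ) * p.2)

theorem s5a_f_map {a b : Fin 4} (h : a ≠ b) :
    Measure.map (s5a_f_L a b) volume = ENNReal.ofReal |s5a_kap a b|⁻¹ • (volume : Measure (ℝ × ℝ)) := by
  set f : (ℝ × ℝ) →ₗ[ℝ] (ℝ × ℝ) := Matrix.toLin (Module.Basis.finTwoProd ℝ) (Module.Basis.finTwoProd ℝ) !![1, (a : ℝ); 1, (b : ℝ)] with hf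
  have hdet : LinearMap.det f = s5a_kap a b := by
    rw [hf, LinearMap.det_toLin, Matrix.det_fin_two_of]
    unfold s5a_kap
    ring
  have hfun : (f : ℝ × ℝ → ℝ × ℝ) = s5a_f_L a b := by
    funext p
    rw [hf, Matrix.toLin_finTwoProd_apply]
    unfold s5a_f_L
    simp
  have := Measure.map_linearMap_addHaar_eq_smul_addHaar (μ := (volume : Measure (ℝ × ℝ))) (f := f)
    (by rw [hdet]; exact s5a_kap_ne h)
  rw [hfun, hdet, abs_inv] at this
  exact this

/-- the point `(x,t)` with `y_a = u`, `y_b = v` -/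
noncomputable def s5a_X (a b : Fin 4) (u v : ℝ) : ℝ × ℝ := (u - (a : ℝ) * ((v - u) / s5a_kap a b), (v - u) / s5a_kap a b)

theorem s5a_f_XL {a b : Fin 4} (h : a ≠ b) (p : ℝ × ℝ) : s5a_X a b (s5a_f_L a b p).1 (s5a_f_L a b p).2 = p := by
  have hκ := s5a_kap_ne h
  have e : (p.1 + (b : ℝ) * p.2 - (p.1 + (a : ℝ) * p.2)) / s5a_kap a b = p.2 := by
    rw [div_eq_iff hκ]
    unfold s5a_kap
    ring
  unfold s5a_X s5a_f_L
  simp only
  rw [e]
  ext
  · simp
  · simp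

theorem s5a_f_LX {a b : Fin 4} (h : a ≠ b) (q : ℝ × ℝ) : s5a_f_L a b (s5a_X a b q.1 q.2) = q := by
  have hκ := s5a_kap_ne h
  unfold s5a_X s5a_f_L
  ext
  · simp
  · simp only
    have : q.1 - (a : ℝ) * ((q.2 - q.1) / s5a_kap a b) + (b : ℝ) * ((q.2 - q.1) / s5a_kap a b)
        = q.1 + s5a_kap a b * ((q.2 - q.1) / s5a_kap a b) := by
      unfold s5a_kap
      ring
    rw [this, mul_div_cancel₀ _ hκ]
    ring

theorem s5a_f_L_cont (a b : Fin 4) : Continuous (s5a_f_L a b) := by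
  unfold s5a_f_L
  fun_prop

theorem s5a_f_X_cont (a b : Fin 4) : Continuous fun q : ℝ × ℝ => s5a_X a b q.1 q.2 := by
  unfold s5a_X
  fun_prop

/-- the change of variables as a measurable equivalence -/
noncomputable def s5a_f_E {a b : Fin 4} (h : a ≠ b) : (ℝ × ℝ) ≃ᵐ (ℝ × ℝ) where
  toFun := s5a_f_L a b
  invFun := fun q => s5a_X a b q.1 q.2
  left_inv := s5a_f_XL h
  right_inv := s5a_f_LX h
  measurable_toFun := (s5a_f_L_cont a b).measurable
  measurable_invFun := (s5a_f_X_cont a b).measurable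

theorem s5a_f_cv_int {a b : Fin 4} (h : a ≠ b) (F : ℝ × ℝ → ℂ) :
    ∫ p, F (s5a_f_L a b p) = ((|s5a_kap a b|⁻¹ : ℝ) : ℂ) * ∫ q, F q := by
  have h1 := integral_map_equiv (μ := (volume : Measure (ℝ × ℝ))) (s5a_f_E h) F
  have h2 : Measure.map (s5a_f_E h) volume = ENNReal.ofReal |s5a_kap a b|⁻¹ • (volume : Measure (ℝ × ℝ)) := s5a_f_map h
  rw [h2, integral_smul_measure, ENNReal.toReal_ofReal (by positivity)] at h1
  rw [← Complex.real_smul, h1]
  rfl

theorem s5a_f_cv_integrable {a b : Fin 4} (h : a ≠ b) (F : ℝ × ℝ → ℂ) :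
    Integrable (fun p => F (s5a_f_L a b p)) volume ↔ Integrable F volume := by
  have h1 := integrable_map_equiv (μ := (volume : Measure (ℝ × ℝ))) (s5a_f_E h) F
  have h2 : Measure.map (s5a_f_E h) volume = ENNReal.ofReal |s5a_kap a b|⁻¹ • (volume : Measure (ℝ × ℝ)) := s5a_f_map h
  rw [h2] at h1
  have hκ : 0 < |s5a_kap a b|⁻¹ := by
    have := s5a_one_le_abs_kap h
    positivity
  rw [integrable_smul_measure (by simpa using hκ) ENNReal.ofReal_ne_top] at h1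
  exact h1.symm

theorem s5a_f_qmp {a b : Fin 4} (h : a ≠ b) : Measure.QuasiMeasurePreserving (s5a_f_L a b) volume volume := by
  refine ⟨(s5a_f_L_cont a b).measurable, ?_⟩
  rw [s5a_f_map h]
  exact Measure.smul_absolutelyContinuous

/-- change of variables for a tensor product -/
theorem s5a_int_tensor {a b : Fin 4} (h : a ≠ b) (F1 F2 : ℝ → ℂ) (h1 : Integrable F1 volume) (h2 : Integrable F2 volume) :
    Integrable (fun p : ℝ × ℝ => F1 (p.1 + (a : ℝ) * p.2) * F2 (p.1 + (b : ℝ) * p.2)) volume ∧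
    ∫ p : ℝ × ℝ, F1 (p.1 + (a : ℝ) * p.2) * F2 (p.1 + (b : ℝ) * p.2) =
      ((|s5a_kap a b|⁻¹ : ℝ) : ℂ) * ((∫ u, F1 u) * ∫ v, F2 v) := by
  constructor
  · exact (s5a_f_cv_integrable h (fun q => F1 q.1 * F2 q.2)).mpr (h1.mul_prod h2)
  · have := s5a_f_cv_int h (fun q => F1 q.1 * F2 q.2)
    rw [← integral_prod_mul F1 F2]
    exact this

theorem s5a_f_cs {s : Set ℝ} {μ : ℝ} (hs : volume s = ENNReal.ofReal μ) (hμ : 0 < μ) {h : ℝ → ℝ}
    (h1 : IntegrableOn h s) (h2 : IntegrableOn (fun y => h y ^ 2) s) :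
    (∫ y in s, h y) ^ 2 ≤ μ * ∫ y in s, h y ^ 2 := by
  set A := ∫ y in s, h y with hA
  set t := A / μ with ht
  have hc : ∫ _y in s, (t ^ 2 : ℝ) = μ * t ^ 2 := by
    rw [setIntegral_const, Measure.real, hs, ENNReal.toReal_ofReal hμ.le, smul_eq_mul]
  have hfin : volume s ≠ ⊤ := by rw [hs]; exact ENNReal.ofReal_ne_top
  have hi1 : IntegrableOn (fun y => 2 * t * h y) s := h1.const_mul _
  have hi2 : IntegrableOn (fun _ : ℝ => t ^ 2) s := integrableOn_const hfin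
  have key : 0 ≤ ∫ y in s, (h y - t) ^ 2 := integral_nonneg fun y => sq_nonneg _
  have e : ∫ y in s, (h y - t) ^ 2 = (∫ y in s, h y ^ 2) - 2 * t * A + μ * t ^ 2 := by
    have e1 : ∀ y, (h y - t) ^ 2 = h y ^ 2 - 2 * t * h y + t ^ 2 := fun y => by ring
    simp only [e1]
    have hi3 : IntegrableOn (fun y => h y ^ 2 - 2 * t * h y) s := h2.sub hi1
    rw [integral_add hi3 hi2, integral_sub h2 hi1, integral_const_mul, hc]
  rw [e] at key
  have e2 : 2 * t * A = 2 * (A ^ 2 / μ) := by rw [ht]; ring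
  have e3 : μ * t ^ 2 = A ^ 2 / μ := by rw [ht]; field_simp
  rw [e2, e3] at key
  have : A ^ 2 / μ ≤ ∫ y in s, h y ^ 2 := by linarith
  rwa [div_le_iff₀ hμ, mul_comm] at this

/-- `‖f‖_{L¹(I)} ≤ √|I| ‖f‖_{L²(I)}` -/
theorem s5a_l1_le (f : ℝ → ℂ) (hf : MemLp f 2 volume) :
    IntegrableOn f I.set volume ∧ ∫ y in I.set, ‖f y‖ ≤ Real.sqrt I.len * Real.sqrt (∫ y in I.set, ‖f y‖ ^ 2) := by
  have hfin : IsFiniteMeasure (volume.restrict I.set) := ⟨by
    rw [Measure.restrict_apply_univ]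
    exact (cell_volume_ne_top I).lt_top⟩
  have h1 : IntegrableOn f I.set volume := by
    have : MemLp f 1 (volume.restrict I.set) := (hf.restrict I.set).mono_exponent (by norm_num)
    exact memLp_one_iff_integrable.mp this
  refine ⟨h1, ?_⟩
  have h2 : IntegrableOn (fun y => ‖f y‖ ^ 2) I.set volume :=
    ((memLp_two_iff_integrable_sq_norm hf.1).mp hf).integrableOn
  have h3 := s5a_f_cs (cell_volume_set I) (cell_len_pos I) h1.norm h2
  rw [← Real.sqrt_mul (cell_len_nonneg I)]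
  exact Real.le_sqrt_of_sq_le h3

/-- composition with `(x,t) ↦ x + l t` preserves a.e.-strong measurability -/
theorem s5a_aesm_comp (l : Fin 4) (f : ℝ → ℂ) (hf : AEStronglyMeasurable f volume) :
    AEStronglyMeasurable (fun p : ℝ × ℝ => f (p.1 + (l : ℝ) * p.2)) volume := by
  obtain ⟨l', hl⟩ : ∃ l' : Fin 4, l ≠ l' := ⟨l + 1, by
    intro h
    have := congrArg Fin.val h
    fin_cases l <;> simp at this⟩
  have h1 : Measure.QuasiMeasurePreserving (fun p : ℝ × ℝ => (s5a_f_L l l' p).1) volume volume :=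
    Measure.quasiMeasurePreserving_fst.comp (s5a_f_qmp hl)
  exact hf.comp_quasiMeasurePreserving h1

/-- the dominating function -/
noncomputable def s5a_f_D (I : Cell) (a b : Fin 4) (f g : ℝ → ℂ) (p : ℝ × ℝ) : ℝ :=
  ‖(I.set).indicator f (p.1 + (a : ℝ) * p.2)‖ * ‖(I.set).indicator g (p.1 + (b : ℝ) * p.2)‖

theorem s5a_f_D_nonneg (I : Cell) (a b : Fin 4) (f g : ℝ → ℂ) (p : ℝ × ℝ) : 0 ≤ s5a_f_D I a b f g p := by
  unfold s5a_f_D
  positivity

theorem s5a_f_ind_int (I : Cell) (f : ℝ → ℂ) (hf : MemLp f 2 volume) :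
    Integrable (fun u => ((‖(I.set).indicator f u‖ : ℝ) : ℂ)) volume ∧
      ∫ u, ((‖(I.set).indicator f u‖ : ℝ) : ℂ) = ((∫ y in I.set, ‖f y‖ : ℝ) : ℂ) := by
  have hm := cell_measurableSet I
  have h1 : Integrable ((I.set).indicator f) volume := (integrable_indicator_iff hm).mpr (s5a_l1_le f hf).1
  refine ⟨h1.norm.ofReal, ?_⟩
  rw [integral_complex_ofReal]
  congr 1
  rw [← integral_indicator hm]
  refine integral_congr_ae (Filter.Eventually.of_forall fun u => ?_)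
  simp only
  rw [norm_indicator_eq_indicator_norm]

theorem s5a_f_D_int {a b : Fin 4} (h : a ≠ b) (I : Cell) (f g : ℝ → ℂ) (hf : MemLp f 2 volume) (hg : MemLp g 2 volume) :
    Integrable (s5a_f_D I a b f g) volume ∧
      ∫ p, s5a_f_D I a b f g p = |s5a_kap a b|⁻¹ * ((∫ y in I.set, ‖f y‖) * ∫ y in I.set, ‖g y‖) := by
  obtain ⟨hf1, hf2⟩ := s5a_f_ind_int I f hf
  obtain ⟨hg1, hg2⟩ := s5a_f_ind_int I g hg
  obtain ⟨h1, h2⟩ := s5a_int_tensor h _ _ hf1 hg1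
  have e : ∀ p : ℝ × ℝ, ((‖(I.set).indicator f (p.1 + (a : ℝ) * p.2)‖ : ℝ) : ℂ) *
      ((‖(I.set).indicator g (p.1 + (b : ℝ) * p.2)‖ : ℝ) : ℂ) = ((s5a_f_D I a b f g p : ℝ) : ℂ) := by
    intro p
    unfold s5a_f_D
    push_cast
    ring
  simp_rw [e] at h1 h2
  constructor
  · have := h1.re
    simpa using this
  · rw [integral_complex_ofReal, hf2, hg2, ← Complex.ofReal_mul, ← Complex.ofReal_mul] at h2
    exact Complex.ofReal_injective h2

theorem s5a_f_le (hc0 : 0 < c0) (hw : Admissible c0 C0 I w) (a b : Fin 4) (G : ℝ × ℝ → ℂ) (e : ℝ) (he : 0 ≤ e)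
    (hG : ∀ p, w p ≠ 0 → ‖G p‖ ≤ e) (f g : ℝ → ℂ) (p : ℝ × ℝ) :
    ‖w p * G p * f (p.1 + (a : ℝ) * p.2) * g (p.1 + (b : ℝ) * p.2)‖ ≤ s5a_Cw C0 * e * s5a_f_D I a b f g p := by
  by_cases hp : w p = 0
  · rw [hp]
    simp only [zero_mul, norm_zero]
    have h1 : 0 ≤ s5a_Cw C0 := (norm_nonneg _).trans (s5a_w_bound hw p)
    have h2 := s5a_f_D_nonneg I a b f g p
    positivity
  · unfold s5a_f_D
    rw [Set.indicator_of_mem (s5a_supp_set hw hc0 hp a), Set.indicator_of_mem (s5a_supp_set hw hc0 hp b),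
      norm_mul, norm_mul, norm_mul, ← mul_assoc]
    have h1 : ‖w p‖ * ‖G p‖ ≤ s5a_Cw C0 * e :=
      mul_le_mul (s5a_w_bound hw p) (hG p hp) (norm_nonneg _) ((norm_nonneg _).trans (s5a_w_bound hw p))
    gcongr

theorem s5a_f_integrable (hc0 : 0 < c0) (hw : Admissible c0 C0 I w) {a b : Fin 4} (hab : a ≠ b) (G : ℝ × ℝ → ℂ)
    (hm : Measurable G) (B : ℝ) (hb : ∀ p, ‖G p‖ ≤ B) (f g : ℝ → ℂ) (hf : MemLp f 2 volume) (hg : MemLp g 2 volume) :
    Integrable (fun p : ℝ × ℝ => w p * G p * f (p.1 + (a : ℝ) * p.2) * g (p.1 + (b : ℝ) * p.2)) volume := by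
  have hB : 0 ≤ B := (norm_nonneg _).trans (hb 0)
  refine Integrable.mono' ((s5a_f_D_int hab I f g hf hg).1.const_mul (s5a_Cw C0 * B)) ?_
    (Filter.Eventually.of_forall fun p => s5a_f_le hc0 hw a b G B hB (fun p _ => hb p) f g p)
  exact (((s5a_w_continuous hw).aestronglyMeasurable.mul hm.aestronglyMeasurable).mul (s5a_aesm_comp a f hf.1)).mul
    (s5a_aesm_comp b g hg.1)

/-- the sup bound -/
theorem s5a_formG_sup (hc0 : 0 < c0) (hw : Admissible c0 C0 I w) {a b : Fin 4} (hab : a ≠ b) (G : ℝ × ℝ → ℂ) (e : ℝ)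
    (he : 0 ≤ e) (hG : ∀ p, w p ≠ 0 → ‖G p‖ ≤ e) (f g : ℝ → ℂ) (hf : MemLp f 2 volume) (hg : MemLp g 2 volume) :
    I.len * ‖s5a_formG I w a b G f g‖ ≤
      s5a_Cw C0 * e * Real.sqrt (∫ y in I.set, ‖f y‖ ^ 2) * Real.sqrt (∫ y in I.set, ‖g y‖ ^ 2) := by
  have hlen := cell_len_pos I
  have hCw : 0 ≤ s5a_Cw C0 := (norm_nonneg _).trans (s5a_w_bound hw 0)
  obtain ⟨hD1, hD2⟩ := s5a_f_D_int hab I f g hf hg
  have h1 : ‖∫ p : ℝ × ℝ, w p * G p * f (p.1 + (a : ℝ) * p.2) * g (p.1 + (b : ℝ) * p.2)‖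
      ≤ ∫ p, s5a_Cw C0 * e * s5a_f_D I a b f g p :=
    norm_integral_le_of_norm_le (hD1.const_mul _)
      (Filter.Eventually.of_forall fun p => s5a_f_le hc0 hw a b G e he hG f g p)
  rw [integral_const_mul, hD2] at h1
  have hf1 := (s5a_l1_le (I := I) f hf).2
  have hg1 := (s5a_l1_le (I := I) g hg).2
  have hf0 : 0 ≤ ∫ y in I.set, ‖f y‖ := integral_nonneg fun _ => norm_nonneg _
  have hg0 : 0 ≤ ∫ y in I.set, ‖g y‖ := integral_nonneg fun _ => norm_nonneg _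
  have hκ : |s5a_kap a b|⁻¹ ≤ 1 := inv_le_one_of_one_le₀ (s5a_one_le_abs_kap hab)
  have hκ0 : 0 ≤ |s5a_kap a b|⁻¹ := by positivity
  set Ef := Real.sqrt (∫ y in I.set, ‖f y‖ ^ 2) with hEf
  set Eg := Real.sqrt (∫ y in I.set, ‖g y‖ ^ 2) with hEg
  have hEf0 : 0 ≤ Ef := Real.sqrt_nonneg _
  have hEg0 : 0 ≤ Eg := Real.sqrt_nonneg _
  have hs0 : 0 ≤ Real.sqrt I.len := Real.sqrt_nonneg _
  have h2 : |s5a_kap a b|⁻¹ * ((∫ y in I.set, ‖f y‖) * ∫ y in I.set, ‖g y‖) ≤ I.len * (Ef * Eg) := by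
    calc |s5a_kap a b|⁻¹ * ((∫ y in I.set, ‖f y‖) * ∫ y in I.set, ‖g y‖)
        ≤ 1 * ((Real.sqrt I.len * Ef) * (Real.sqrt I.len * Eg)) :=
          mul_le_mul hκ (mul_le_mul hf1 hg1 hg0 (by positivity)) (by positivity) zero_le_one
      _ = (Real.sqrt I.len * Real.sqrt I.len) * (Ef * Eg) := by ring
      _ = I.len * (Ef * Eg) := by rw [Real.mul_self_sqrt hlen.le]
  unfold s5a_formG
  rw [norm_mul, Complex.norm_real, Real.norm_of_nonneg (by positivity)]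
  calc I.len * ((I.len ^ 2)⁻¹ * ‖∫ p : ℝ × ℝ, w p * G p * f (p.1 + (a : ℝ) * p.2) * g (p.1 + (b : ℝ) * p.2)‖)
      ≤ I.len * ((I.len ^ 2)⁻¹ * (s5a_Cw C0 * e * (I.len * (Ef * Eg)))) := by
        refine mul_le_mul_of_nonneg_left (mul_le_mul_of_nonneg_left (h1.trans ?_) (by positivity)) hlen.le
        exact mul_le_mul_of_nonneg_left h2 (by positivity)
    _ = _ := by field_simp

theorem s5a_f_hasSum_congr {ι : Type*} {f g : ι → ℂ} {a : ℂ} (h : HasSum f a) (e : ∀ i, g i = f i) : HasSum g a := by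
  have : g = f := funext e
  rw [this]
  exact h

/-- countable additivity in the multiplier -/
theorem s5a_formG_hasSum (hc0 : 0 < c0) (hw : Admissible c0 C0 I w) {a b : Fin 4} (hab : a ≠ b) {ι : Type} [Countable ι]
    (c : ι → ℂ) (Gs : ι → ℝ × ℝ → ℂ) (G : ℝ × ℝ → ℂ) (hc : Summable fun τ => ‖c τ‖) (hm : ∀ τ, Measurable (Gs τ))
    (hb : ∀ τ p, ‖Gs τ p‖ ≤ 1) (hsum : ∀ p, w p ≠ 0 → HasSum (fun τ => c τ * Gs τ p) (G p)) (f g : ℝ → ℂ)
    (hf : MemLp f 2 volume) (hg : MemLp g 2 volume) :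
    HasSum (fun τ => c τ * s5a_formG I w a b (Gs τ) f g) (s5a_formG I w a b G f g) := by
  obtain ⟨hD1, _⟩ := s5a_f_D_int hab I f g hf hg
  have key := hasSum_integral_of_dominated_convergence
    (F := fun τ (p : ℝ × ℝ) => c τ * (w p * Gs τ p * f (p.1 + (a : ℝ) * p.2) * g (p.1 + (b : ℝ) * p.2)))
    (f := fun p : ℝ × ℝ => w p * G p * f (p.1 + (a : ℝ) * p.2) * g (p.1 + (b : ℝ) * p.2))
    (μ := volume)
    (fun τ p => ‖c τ‖ * (s5a_Cw C0 * 1 * s5a_f_D I a b f g p))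
    (fun τ => ((s5a_f_integrable hc0 hw hab (Gs τ) (hm τ) 1 (hb τ) f g hf hg).const_mul (c τ)).aestronglyMeasurable)
    (fun τ => Filter.Eventually.of_forall fun p => by
      rw [norm_mul]
      exact mul_le_mul_of_nonneg_left (s5a_f_le hc0 hw a b (Gs τ) 1 zero_le_one (fun p _ => hb τ p) f g p) (norm_nonneg _))
    (Filter.Eventually.of_forall fun p => hc.mul_right _)
    (by
      simp_rw [tsum_mul_right]
      exact (hD1.const_mul _).const_mul _)
    (Filter.Eventually.of_forall fun p => by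
      by_cases hp : w p = 0
      · simp only [hp, zero_mul, mul_zero]
        exact hasSum_zero
      · have h1 := ((hsum p hp).mul_left (w p)).mul_right (f (p.1 + (a : ℝ) * p.2) * g (p.1 + (b : ℝ) * p.2))
        rw [← mul_assoc] at h1
        refine s5a_f_hasSum_congr h1 fun τ => ?_
        ring)
  have key2 := key.mul_left (((I.len ^ 2)⁻¹ : ℝ) : ℂ)
  refine s5a_f_hasSum_congr key2 fun τ => ?_
  rw [integral_const_mul]
  unfold s5a_formG
  ring

/-- finite additivity in the multiplier (bounded measurable multipliers) -/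
theorem s5a_formG_sum (hc0 : 0 < c0) (hw : Admissible c0 C0 I w) {a b : Fin 4} (hab : a ≠ b) {ι : Type} (s : Finset ι)
    (c : ι → ℂ) (Gs : ι → ℝ × ℝ → ℂ) (hm : ∀ τ ∈ s, Measurable (Gs τ)) (B : ℝ) (hb : ∀ τ ∈ s, ∀ p, ‖Gs τ p‖ ≤ B)
    (f g : ℝ → ℂ) (hf : MemLp f 2 volume) (hg : MemLp g 2 volume) :
    s5a_formG I w a b (fun p => ∑ τ ∈ s, c τ * Gs τ p) f g = ∑ τ ∈ s, c τ * s5a_formG I w a b (Gs τ) f g := by
  unfold s5a_formG
  have e : ∀ p : ℝ × ℝ, w p * (∑ τ ∈ s, c τ * Gs τ p) * f (p.1 + (a : ℝ) * p.2) * g (p.1 + (b : ℝ) * p.2)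
      = ∑ τ ∈ s, c τ * (w p * Gs τ p * f (p.1 + (a : ℝ) * p.2) * g (p.1 + (b : ℝ) * p.2)) := by
    intro p
    rw [Finset.mul_sum, Finset.sum_mul, Finset.sum_mul]
    refine Finset.sum_congr rfl fun τ _ => ?_
    ring
  simp_rw [e]
  rw [integral_finsetSum _ fun τ hτ => (s5a_f_integrable hc0 hw hab (Gs τ) (hm τ hτ) B (hb τ hτ) f g hf hg).const_mul (c τ),
    Finset.mul_sum]
  refine Finset.sum_congr rfl fun τ _ => ?_
  rw [integral_const_mul]
  ring

/-- triangle inequality for three multipliers -/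
theorem s5a_formG_tri (hc0 : 0 < c0) (hw : Admissible c0 C0 I w) {a b : Fin 4} (hab : a ≠ b) (G G1 G2 G3 : ℝ × ℝ → ℂ)
    (hm1 : Measurable G1) (hm2 : Measurable G2) (hm3 : Measurable G3) (B : ℝ) (hb1 : ∀ p, ‖G1 p‖ ≤ B)
    (hb2 : ∀ p, ‖G2 p‖ ≤ B) (hb3 : ∀ p, ‖G3 p‖ ≤ B) (hG : ∀ p, w p ≠ 0 → G p = G1 p + G2 p + G3 p) (f g : ℝ → ℂ)
    (hf : MemLp f 2 volume) (hg : MemLp g 2 volume) :
    ‖s5a_formG I w a b G f g‖ ≤
      ‖s5a_formG I w a b G1 f g‖ + ‖s5a_formG I w a b G2 f g‖ + ‖s5a_formG I w a b G3 f g‖ := by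
  have h1 := s5a_f_integrable hc0 hw hab G1 hm1 B hb1 f g hf hg
  have h2 := s5a_f_integrable hc0 hw hab G2 hm2 B hb2 f g hf hg
  have h3 := s5a_f_integrable hc0 hw hab G3 hm3 B hb3 f g hf hg
  have e : s5a_formG I w a b G f g
      = s5a_formG I w a b G1 f g + s5a_formG I w a b G2 f g + s5a_formG I w a b G3 f g := by
    rw [s5a_formG_congr a b hG f g]
    unfold s5a_formG
    have h12 : Integrable (fun p : ℝ × ℝ => w p * G1 p * f (p.1 + (a : ℝ) * p.2) * g (p.1 + (b : ℝ) * p.2)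
        + w p * G2 p * f (p.1 + (a : ℝ) * p.2) * g (p.1 + (b : ℝ) * p.2)) volume := h1.add h2
    rw [← mul_add, ← mul_add, ← integral_add h1 h2, ← integral_add h12 h3]
    congr 1
    refine integral_congr_ae (Filter.Eventually.of_forall fun p => ?_)
    simp only
    ring
  rw [e]
  exact norm_add₃_le

/-- the form as an iterated integral in `(u,v) = (y_a, y_b)` -/
theorem s5a_formG_cv (hc0 : 0 < c0) (hw : Admissible c0 C0 I w) {a b : Fin 4} (hab : a ≠ b) (G : ℝ × ℝ → ℂ)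
    (hm : Measurable G) (B : ℝ) (hb : ∀ p, ‖G p‖ ≤ B) (f g : ℝ → ℂ) (hf : MemLp f 2 volume) (hg : MemLp g 2 volume) :
    s5a_formG I w a b G f g = (((I.len ^ 2)⁻¹ * |s5a_kap a b|⁻¹ : ℝ) : ℂ) *
      ∫ v : ℝ, g v * ∫ u : ℝ, w (s5a_X a b u v) * G (s5a_X a b u v) * f u := by
  set F : ℝ × ℝ → ℂ := fun q => w (s5a_X a b q.1 q.2) * G (s5a_X a b q.1 q.2) * f q.1 * g q.2 with hF
  have e1 : ∀ p : ℝ × ℝ, F (s5a_f_L a b p) = w p * G p * f (p.1 + (a : ℝ) * p.2) * g (p.1 + (b : ℝ) * p.2) := by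
    intro p
    simp only [hF]
    rw [s5a_f_XL hab]
    rfl
  have hint : Integrable F volume := by
    rw [← s5a_f_cv_integrable hab F]
    simp_rw [e1]
    exact s5a_f_integrable hc0 hw hab G hm B hb f g hf hg
  have h1 := s5a_f_cv_int hab F
  simp_rw [e1] at h1
  unfold s5a_formG
  rw [h1, show (volume : Measure (ℝ × ℝ)) = volume.prod volume from rfl, integral_prod_symm F hint]
  push_cast
  rw [mul_assoc]
  congr 2
  refine integral_congr_ae (Filter.Eventually.of_forall fun v => ?_)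
  simp only [hF]
  rw [integral_mul_const, mul_comm]

end F2

end Claimed.Agent.R258
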