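/-
Row 258, block [S5a] (architect helper192).  FILE Rows = leaves P-S5a-ROW (section ROW) and P-S5a-DEPTH (section DEPTH).    No paper.  Uses the STATEMENTS of Form.lean, CellApi.
ROW: closure properties of `s5a_SRow`.
* `s5a_SRow.mul`: rows `ρ_ν ψ` : `∫ ρ_ν (ψ p) = ∫ (ρ_ν ψ) p`; they are in `L²` (bounded measurable multiplier: `MemLp.mul`/`MemLp.of_le_mul`/`memLp_top…`), vanish off `u ν`, and are Bessel with the same constant: apply the Bessel hypothesis to `ψ g` (`∫ ‖ψ g‖² ≤ ∫ ‖g‖²`).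
* `s5a_SRow.l2`: `A` an antichain of cells `≤ J` (pairwise disjoint sets: `cell_nested_or_disjoint`/`cell_disjoint_iff`).  `N_I = √(∫_I ‖p I‖²)`; rows `ι = Cell`, `u = id`, `ρ_I = N_I⁻¹ 1_I conj(p I)` (`= 0` if `N_I = 0`).   Bessel constant `1`:
  `|∫ ρ_I g|² ≤ ∫ ‖ρ_I‖² ∫_I ‖g‖² ≤ ∫_I ‖g‖²` (Cauchy-Schwarz), and `∑_I ∫_I ‖g‖² ≤ ∫ ‖g‖²` (disjoint).    `∫ ρ_I p_I = N_I`.
* cells of one depth form an antichain (`s5a_antichain_depth`).
DEPTH: sums over the cells organized by depth: `∑_{I ∈ A} = ∑_{s ∈ A.image depth} ∑_{I ∈ A, depth I = s}` (`Finset.sum_fiberwise_of_maps_to`); on each fibre Cauchy-Schwarz (`Finset.sum_mul_le_sqrt_mul_sqrt` / `Real.sum_sqrt_mul_sqrt_le`) and `s5a_SRow.l2`.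
* `s5a_sum_sup`: `s5a_formG_sup` cell by cell.     * `s5a_sum_ss`: the hypothesis `s5a_SS` cell by cell; `s4a_form2 = s5a_formG` (rfl).
* `s5a_sum_union`, `s5a_sum_tri`, `s5a_sum_tsum`: bookkeeping (`Finset.sum_union`, `s5a_formG_tri`, `s5a_formG_hasSum` + `norm_tsum_le_tsum_norm`, `Summable.tsum_finsetSum`/`tsum_finsetSum`-type interchange of a finite sum and a `tsum`).
-/
import Claimed.Agent.R258.S5a.Form
import Claimed.Agent.R258.Pack006

set_option autoImplicit false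
open MeasureTheory
open scoped ENNReal ContDiff ComplexConjugate

namespace Claimed.Agent.R258

section ROW
variable {J : Cell} {p : Cell → ℝ → ℂ} {M : ℝ}

theorem s5a_r_memLp_mul {μ : Measure ℝ} (ρ ψ : ℝ → ℂ) (hρ : MemLp ρ 2 μ) (hm : Measurable ψ) (hb : ∀ y, ‖ψ y‖ ≤ 1) :
    MemLp (fun y => ρ y * ψ y) 2 μ := by
  refine hρ.mono (hρ.1.mul hm.aestronglyMeasurable) (Filter.Eventually.of_forall fun y => ?_)
  rw [norm_mul]
  exact mul_le_of_le_one_right (norm_nonneg _) (hb y)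

theorem s5a_SRow.mul (h : s5a_SRow J p M) (ψ : ℝ → ℂ) (hm : Measurable ψ) (hb : ∀ y, ‖ψ y‖ ≤ 1) :
    s5a_SRow J (fun I y => ψ y * p I y) M := by
  refine ⟨h.nonneg, fun I => hm.mul (h.meas I), fun I => ?_, ?_⟩
  · have := s5a_r_memLp_mul (p I) ψ (h.mem I) hm hb
    refine this.congr_norm (hm.aestronglyMeasurable.mul (h.mem I).1) (Filter.Eventually.of_forall fun y => ?_)
    rw [mul_comm]
  · intro ι s u ρ 𝔅 h𝔅 hu hρ hv hB
    have key := h.rows ι s u (fun ν y => ρ ν y * ψ y) 𝔅 h𝔅 hu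
      (fun ν hν => s5a_r_memLp_mul (ρ ν) ψ (hρ ν hν) hm hb)
      (fun ν hν y hy => by rw [hv ν hν y hy, zero_mul])
      (fun g hg => by
        have hg' : MemLp (fun y => ψ y * g y) 2 volume := by
          have := s5a_r_memLp_mul g ψ hg hm hb
          refine this.congr_norm (hm.aestronglyMeasurable.mul hg.1) (Filter.Eventually.of_forall fun y => ?_)
          rw [mul_comm]
        have h1 := hB _ hg'
        have h2 : ∫ y, ‖ψ y * g y‖ ^ 2 ≤ ∫ y, ‖g y‖ ^ 2 := by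
          refine integral_mono ((memLp_two_iff_integrable_sq_norm hg'.1).mp hg')
            ((memLp_two_iff_integrable_sq_norm hg.1).mp hg) fun y => ?_
          simp only
          rw [norm_mul]
          exact pow_le_pow_left₀ (by positivity) (mul_le_of_le_one_left (norm_nonneg _) (hb y)) 2
        refine le_trans (le_of_eq ?_) (h1.trans (mul_le_mul_of_nonneg_left h2 h𝔅))
        refine Finset.sum_congr rfl fun ν _ => ?_
        congr 2
        refine integral_congr_ae (Filter.Eventually.of_forall fun y => ?_)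
        simp only
        ring)
    refine le_trans (le_of_eq ?_) key
    refine Finset.sum_congr rfl fun ν _ => ?_
    congr 2
    refine integral_congr_ae (Filter.Eventually.of_forall fun y => ?_)
    simp only
    ring

theorem s5a_SRow.mono {M' : ℝ} (h : s5a_SRow J p M) (hM : M ≤ M') : s5a_SRow J p M' := by
  refine ⟨h.nonneg.trans hM, h.meas, h.mem, ?_⟩
  intro ι s u ρ 𝔅 h𝔅 hu hρ hv hB
  refine (h.rows ι s u ρ 𝔅 h𝔅 hu hρ hv hB).trans ?_
  exact mul_le_mul_of_nonneg_left (pow_le_pow_left₀ h.nonneg hM 2) h𝔅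

theorem s5a_antichain_depth (A : Finset Cell) (s : ℤ) (h : ∀ I ∈ A, I.depth = s) : IsAntichain (· ≤ ·) (A : Set Cell) := by
  intro I hI K hK hne hle
  exact hne (cell_eq_of_le_of_depth hle (by rw [h I hI, h K hK]))

theorem s5a_r_inner_toLp {X : Type*} [MeasurableSpace X] {μ : Measure X} (f g : X → ℂ) (hf : MemLp f 2 μ) (hg : MemLp g 2 μ) :
    inner ℂ (hf.toLp f) (hg.toLp g) = ∫ z, g z * conj (f z) ∂μ := by
  rw [L2.inner_def]
  refine integral_congr_ae ?_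
  filter_upwards [hf.coeFn_toLp, hg.coeFn_toLp] with z h1 h2
  rw [h1, h2, RCLike.inner_apply]

theorem s5a_r_norm_toLp {X : Type*} [MeasurableSpace X] {μ : Measure X} (f : X → ℂ) (hf : MemLp f 2 μ) :
    ‖hf.toLp f‖ ^ 2 = ∫ z, ‖f z‖ ^ 2 ∂μ := by
  have h1 := inner_self_eq_norm_sq_to_K (𝕜 := ℂ) (hf.toLp f)
  rw [s5a_r_inner_toLp] at h1
  have h2 : ∫ z, f z * conj (f z) ∂μ = ((∫ z, ‖f z‖ ^ 2 ∂μ : ℝ) : ℂ) := by
    rw [← integral_complex_ofReal]
    refine integral_congr_ae (Filter.Eventually.of_forall fun z => ?_)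
    simp only
    rw [Complex.mul_conj', Complex.ofReal_pow]
  rw [h2] at h1
  have h3 : ((∫ z, ‖f z‖ ^ 2 ∂μ : ℝ) : ℂ) = ((‖hf.toLp f‖ ^ 2 : ℝ) : ℂ) := by
    rw [h1]
    simp
  exact (Complex.ofReal_injective h3).symm

/-- Cauchy-Schwarz -/
theorem s5a_r_cs {X : Type*} [MeasurableSpace X] {μ : Measure X} (f g : X → ℂ) (hf : MemLp f 2 μ) (hg : MemLp g 2 μ) :
    ‖∫ z, conj (f z) * g z ∂μ‖ ^ 2 ≤ (∫ z, ‖f z‖ ^ 2 ∂μ) * ∫ z, ‖g z‖ ^ 2 ∂μ := by
  have h1 := norm_inner_le_norm (𝕜 := ℂ) (hf.toLp f) (hg.toLp g)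
  rw [s5a_r_inner_toLp] at h1
  have h2 := pow_le_pow_left₀ (norm_nonneg _) h1 2
  rw [mul_pow, s5a_r_norm_toLp, s5a_r_norm_toLp] at h2
  refine le_trans (le_of_eq ?_) h2
  congr 2
  refine integral_congr_ae (Filter.Eventually.of_forall fun z => ?_)
  simp only
  ring

theorem s5a_r_sum_le (A : Finset Cell) (ha : IsAntichain (· ≤ ·) (A : Set Cell)) (F : ℝ → ℝ) (hF : Integrable F volume)
    (h0 : ∀ y, 0 ≤ F y) : ∑ I ∈ A, ∫ y in I.set, F y ≤ ∫ y, F y := by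
  rw [← integral_biUnion_finset A (fun I _ => cell_measurableSet I) (cell_pairwiseDisjoint_of_antichain ha)
    (fun I _ => hF.integrableOn)]
  exact setIntegral_le_integral hF (Filter.Eventually.of_forall h0)

theorem s5a_r_ind_mul (S : Set ℝ) (hS : MeasurableSet S) (F g : ℝ → ℂ) :
    ∫ y, S.indicator F y * g y = ∫ y in S, F y * g y := by
  rw [← integral_indicator hS]
  refine integral_congr_ae (Filter.Eventually.of_forall fun y => ?_)
  simp only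
  by_cases hy : y ∈ S
  · rw [Set.indicator_of_mem hy, Set.indicator_of_mem hy]
  · rw [Set.indicator_of_notMem hy, Set.indicator_of_notMem hy, zero_mul]

theorem s5a_SRow.l2 (h : s5a_SRow J p M) (A : Finset Cell) (hA : ∀ I ∈ A, I ≤ J) (ha : IsAntichain (· ≤ ·) (A : Set Cell)) :
    ∑ I ∈ A, ∫ y in I.set, ‖p I y‖ ^ 2 ≤ M ^ 2 := by
  set E : Cell → ℝ := fun I => ∫ y in I.set, ‖p I y‖ ^ 2 with hE
  have hE0 : ∀ I, 0 ≤ E I := fun I => integral_nonneg fun y => by positivity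
  set N : Cell → ℝ := fun I => Real.sqrt (E I) with hN
  have hN0 : ∀ I, 0 ≤ N I := fun I => Real.sqrt_nonneg _
  have hN2 : ∀ I, N I ^ 2 = E I := fun I => Real.sq_sqrt (hE0 I)
  set ρ : Cell → ℝ → ℂ := fun I => (I.set).indicator (fun y => (((N I)⁻¹ : ℝ) : ℂ) * conj (p I y)) with hρ
  have hint : ∀ (I : Cell) (g : ℝ → ℂ), ∫ y, ρ I y * g y = (((N I)⁻¹ : ℝ) : ℂ) * ∫ y in I.set, conj (p I y) * g y := by
    intro I g
    simp only [hρ]
    rw [s5a_r_ind_mul _ (cell_measurableSet I), ← integral_const_mul]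
    refine integral_congr_ae (Filter.Eventually.of_forall fun y => ?_)
    simp only
    ring
  have hmem : ∀ I, MemLp (ρ I) 2 volume := by
    intro I
    simp only [hρ]
    refine MemLp.indicator (cell_measurableSet I) ?_
    refine MemLp.const_mul ?_ _
    refine (h.mem I).congr_norm ?_ (Filter.Eventually.of_forall fun y => ?_)
    · exact (Complex.continuous_conj.measurable.comp (h.meas I)).aestronglyMeasurable
    · simp
  have key := h.rows Cell A id ρ 1 zero_le_one hA (fun I _ => hmem I)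
    (fun I _ y hy => Set.indicator_of_notMem hy _)
    (fun g hg => by
      have hg2 : Integrable (fun y => ‖g y‖ ^ 2) volume := (memLp_two_iff_integrable_sq_norm hg.1).mp hg
      rw [one_mul]
      refine le_trans (Finset.sum_le_sum fun I _ => ?_) (s5a_r_sum_le A ha _ hg2 fun y => by positivity)
      rw [hint, norm_mul, Complex.norm_real, Real.norm_of_nonneg (inv_nonneg.mpr (hN0 I)), mul_pow]
      have hcs := s5a_r_cs (μ := volume.restrict I.set) (p I) g ((h.mem I).restrict _) (hg.restrict _)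
      have hG0 : 0 ≤ ∫ y in I.set, ‖g y‖ ^ 2 := integral_nonneg fun y => by positivity
      rcases (hN0 I).eq_or_lt with h0 | hpos
      · rw [← h0]
        simpa using hG0
      · calc (N I)⁻¹ ^ 2 * ‖∫ y in I.set, conj (p I y) * g y‖ ^ 2
            ≤ (N I)⁻¹ ^ 2 * (E I * ∫ y in I.set, ‖g y‖ ^ 2) := mul_le_mul_of_nonneg_left hcs (by positivity)
          _ = ∫ y in I.set, ‖g y‖ ^ 2 := by
              rw [← hN2 I]
              field_simp)
  rw [one_mul] at key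
  refine le_trans (le_of_eq ?_) key
  refine Finset.sum_congr rfl fun I _ => ?_
  simp only [id]
  rw [hint]
  have e : ∫ y in I.set, conj (p I y) * p I y = ((E I : ℝ) : ℂ) := by
    simp only [hE]
    rw [← integral_complex_ofReal]
    refine integral_congr_ae (Filter.Eventually.of_forall fun y => ?_)
    simp only
    rw [Complex.conj_mul', Complex.ofReal_pow]
  rw [e, ← Complex.ofReal_mul, Complex.norm_real, Real.norm_of_nonneg (mul_nonneg (inv_nonneg.mpr (hN0 I)) (hE0 I))]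
  rcases (hN0 I).eq_or_lt with h0 | hpos
  · have : E I = 0 := by rw [← hN2 I, ← h0]; norm_num
    show E I = _
    rw [this]
    simp
  · show E I = _
    rw [← hN2 I]
    field_simp

end ROW

section DEPTH
variable {c0 C0 : ℝ} {J : Cell} {A : Finset Cell} {w : Cell → ℝ × ℝ → ℂ} {a b : Fin 4}

theorem s5a_sum_nonneg (A : Finset Cell) (w : Cell → ℝ × ℝ → ℂ) (a b : Fin 4) (G : Cell → ℝ × ℝ → ℂ) (f g : Cell → ℝ → ℂ) :
    0 ≤ s5a_sum A w a b G f g := by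
  unfold s5a_sum
  exact Finset.sum_nonneg fun I _ => mul_nonneg (cell_len_nonneg I) (norm_nonneg _)

theorem s5a_sum_congr (G G' : Cell → ℝ × ℝ → ℂ) (h : ∀ I ∈ A, ∀ p, w I p ≠ 0 → G I p = G' I p) (f g : Cell → ℝ → ℂ) :
    s5a_sum A w a b G f g = s5a_sum A w a b G' f g := by
  unfold s5a_sum
  refine Finset.sum_congr rfl fun I hI => ?_
  rw [s5a_formG_congr a b (h I hI)]

theorem s5a_sum_union [DecidableEq Cell] (A₁ A₂ : Finset Cell) (hd : Disjoint A₁ A₂) (G : Cell → ℝ × ℝ → ℂ)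
    (f g : Cell → ℝ → ℂ) :
    s5a_sum (A₁ ∪ A₂) w a b G f g = s5a_sum A₁ w a b G f g + s5a_sum A₂ w a b G f g := by
  unfold s5a_sum
  exact Finset.sum_union hd

/-- Cauchy-Schwarz on the cells of one depth -/
theorem s5a_r_fibre (hA : ∀ I ∈ A, I ≤ J) (f g : Cell → ℝ → ℂ) (Ma Mb : ℝ) (hf : s5a_SRow J f Ma)
    (hg : s5a_SRow J g Mb) (s : ℤ) :
    ∑ I ∈ A with I.depth = s, Real.sqrt (∫ y in I.set, ‖f I y‖ ^ 2) * Real.sqrt (∫ y in I.set, ‖g I y‖ ^ 2) ≤ Ma * Mb := by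
  have hle : ∀ I ∈ A.filter (fun I => I.depth = s), I ≤ J := fun I hI => hA I (Finset.mem_filter.mp hI).1
  have hanti := s5a_antichain_depth (A.filter (fun I => I.depth = s)) s fun I hI => (Finset.mem_filter.mp hI).2
  refine (Real.sum_sqrt_mul_sqrt_le _ (fun I => integral_nonneg fun y => by positivity)
    (fun I => integral_nonneg fun y => by positivity)).trans ?_
  have h1 := Real.sqrt_le_sqrt (hf.l2 _ hle hanti)
  have h2 := Real.sqrt_le_sqrt (hg.l2 _ hle hanti)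
  rw [Real.sqrt_sq hf.nonneg] at h1
  rw [Real.sqrt_sq hg.nonneg] at h2
  exact mul_le_mul h1 h2 (Real.sqrt_nonneg _) hf.nonneg

/-- sums organized by depth -/
theorem s5a_r_depth (hA : ∀ I ∈ A, I ≤ J) (T : Cell → ℝ) (e : ℤ → ℝ) (he : ∀ s, 0 ≤ e s) (f g : Cell → ℝ → ℂ) (Ma Mb : ℝ)
    (hf : s5a_SRow J f Ma) (hg : s5a_SRow J g Mb)
    (hT : ∀ I ∈ A, T I ≤ e I.depth * (Real.sqrt (∫ y in I.set, ‖f I y‖ ^ 2) * Real.sqrt (∫ y in I.set, ‖g I y‖ ^ 2))) :
    ∑ I ∈ A, T I ≤ (∑ s ∈ A.image Cell.depth, e s) * (Ma * Mb) := by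
  classical
  rw [← Finset.sum_fiberwise_of_maps_to (g := Cell.depth) (t := A.image Cell.depth)
    (fun I hI => Finset.mem_image_of_mem _ hI), Finset.sum_mul]
  refine Finset.sum_le_sum fun s _ => ?_
  calc ∑ I ∈ A with I.depth = s, T I
      ≤ ∑ I ∈ A with I.depth = s, e s * (Real.sqrt (∫ y in I.set, ‖f I y‖ ^ 2) * Real.sqrt (∫ y in I.set, ‖g I y‖ ^ 2)) := by
        refine Finset.sum_le_sum fun I hI => ?_
        obtain ⟨hI1, hI2⟩ := Finset.mem_filter.mp hI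
        have := hT I hI1
        rwa [hI2] at this
    _ = e s * ∑ I ∈ A with I.depth = s, Real.sqrt (∫ y in I.set, ‖f I y‖ ^ 2) * Real.sqrt (∫ y in I.set, ‖g I y‖ ^ 2) := by
        rw [Finset.mul_sum]
    _ ≤ e s * (Ma * Mb) := mul_le_mul_of_nonneg_left (s5a_r_fibre hA f g Ma Mb hf hg s) (he s)

/-- per-depth sup bounds -/
theorem s5a_sum_sup (hS : s5a_Std c0 C0 J A w a b) (G : Cell → ℝ × ℝ → ℂ) (e : ℤ → ℝ) (he : ∀ s, 0 ≤ e s)
    (hG : ∀ I ∈ A, ∀ p, w I p ≠ 0 → ‖G I p‖ ≤ e I.depth) (f g : Cell → ℝ → ℂ) (Ma Mb : ℝ) (hf : s5a_SRow J f Ma)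
    (hg : s5a_SRow J g Mb) :
    s5a_sum A w a b G f g ≤ s5a_Cw C0 * (∑ s ∈ A.image Cell.depth, e s) * Ma * Mb := by
  have hCw : 0 ≤ s5a_Cw C0 := le_trans zero_le_one (s5a_Cw_pos hS.C0_ge)
  have h := s5a_r_depth hS.le (fun I => I.len * ‖s5a_formG I (w I) a b (G I) (f I) (g I)‖) (fun s => s5a_Cw C0 * e s)
    (fun s => mul_nonneg hCw (he s)) f g Ma Mb hf hg (fun I hI => by
      have := s5a_formG_sup hS.c0_pos (hS.adm I hI) hS.ne (G I) (e I.depth) (he _) (hG I hI) (f I) (g I) (hf.mem I) (hg.mem I)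
      linarith)
  unfold s5a_sum
  refine h.trans (le_of_eq ?_)
  rw [← Finset.mul_sum]
  ring

/-- the single-scale bound `C A_r`, summed over few depths -/
theorem s5a_sum_ss (hSS : s5a_SS c0 C0) : ∃ C : ℝ, 0 ≤ C ∧ ∀ {J : Cell} {A : Finset Cell} {w : Cell → ℝ × ℝ → ℂ} {a b : Fin 4},
    s5a_Std c0 C0 J A w a b → ∀ (Q : ℝ → ℂ), Continuous Q → (∀ t, ‖Q t‖ ≤ 1) → ∀ δ : ℝ, (∀ I ∈ A, s4a_Ar Q I.len ≤ δ) →
    ∀ (f g : Cell → ℝ → ℂ) (Ma Mb : ℝ), s5a_SRow J f Ma → s5a_SRow J g Mb →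
      s5a_sum A w a b (fun _ p => Q p.2) f g ≤ C * δ * ((A.image Cell.depth).card : ℝ) * Ma * Mb := by
  obtain ⟨C, hC, hss⟩ := hSS
  refine ⟨C, hC, ?_⟩
  intro J A w a b hS Q hQc hQb δ hδ f g Ma Mb hf hg
  rcases A.eq_empty_or_nonempty with rfl | ⟨I0, hI0⟩
  · simp [s5a_sum]
  have hδ0 : 0 ≤ δ := le_trans (Real.iSup_nonneg fun ξ => norm_nonneg _) (hδ I0 hI0)
  have h := s5a_r_depth hS.le (fun I => I.len * ‖s5a_formG I (w I) a b (fun p => Q p.2) (f I) (g I)‖) (fun _ => C * δ)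
    (fun _ => mul_nonneg hC hδ0) f g Ma Mb hf hg (fun I hI => by
      have h1 := hss I (w I) a b hS.ne (hS.adm I hI) Q (f I) (g I) hQc hQb (hf.meas I) (hg.meas I) (hf.mem I) (hg.mem I)
      rw [s5a_form2_eq] at h1
      have h2 : C * s4a_Ar Q I.len ≤ C * δ := mul_le_mul_of_nonneg_left (hδ I hI) hC
      have h3 : 0 ≤ Real.sqrt (∫ y in I.set, ‖f I y‖ ^ 2) * Real.sqrt (∫ y in I.set, ‖g I y‖ ^ 2) := by positivity
      calc _ ≤ C * s4a_Ar Q I.len * Real.sqrt (∫ y in I.set, ‖f I y‖ ^ 2) * Real.sqrt (∫ y in I.set, ‖g I y‖ ^ 2) := h1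
        _ = C * s4a_Ar Q I.len * (Real.sqrt (∫ y in I.set, ‖f I y‖ ^ 2) * Real.sqrt (∫ y in I.set, ‖g I y‖ ^ 2)) := by ring
        _ ≤ _ := mul_le_mul_of_nonneg_right h2 h3)
  unfold s5a_sum
  refine h.trans (le_of_eq ?_)
  rw [Finset.sum_const, nsmul_eq_mul]
  ring

/-- triangle inequality -/
theorem s5a_sum_tri (hS : s5a_Std c0 C0 J A w a b) (G G1 G2 G3 : Cell → ℝ × ℝ → ℂ) (hm1 : ∀ I, Measurable (G1 I))
    (hm2 : ∀ I, Measurable (G2 I)) (hm3 : ∀ I, Measurable (G3 I)) (B : ℝ) (hb1 : ∀ I p, ‖G1 I p‖ ≤ B)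
    (hb2 : ∀ I p, ‖G2 I p‖ ≤ B) (hb3 : ∀ I p, ‖G3 I p‖ ≤ B)
    (hG : ∀ I ∈ A, ∀ p, w I p ≠ 0 → G I p = G1 I p + G2 I p + G3 I p) (f g : Cell → ℝ → ℂ)
    (hf : ∀ I, MemLp (f I) 2 volume) (hg : ∀ I, MemLp (g I) 2 volume) :
    s5a_sum A w a b G f g ≤ s5a_sum A w a b G1 f g + s5a_sum A w a b G2 f g + s5a_sum A w a b G3 f g := by
  unfold s5a_sum
  rw [← Finset.sum_add_distrib, ← Finset.sum_add_distrib]
  refine Finset.sum_le_sum fun I hI => ?_
  rw [← mul_add, ← mul_add]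
  exact mul_le_mul_of_nonneg_left (s5a_formG_tri hS.c0_pos (hS.adm I hI) hS.ne (G I) (G1 I) (G2 I) (G3 I) (hm1 I) (hm2 I)
    (hm3 I) B (hb1 I) (hb2 I) (hb3 I) (hG I hI) (f I) (g I) (hf I) (hg I)) (cell_len_nonneg I)

/-- countable subadditivity in the multiplier -/
theorem s5a_sum_tsum (hS : s5a_Std c0 C0 J A w a b) {ι : Type} [Countable ι] (c : ι → ℂ) (Gs : ι → ℝ × ℝ → ℂ)
    (G : ℝ × ℝ → ℂ) (hc : Summable fun τ => ‖c τ‖) (hm : ∀ τ, Measurable (Gs τ)) (hb : ∀ τ p, ‖Gs τ p‖ ≤ 1)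
    (hsum : ∀ I ∈ A, ∀ p, w I p ≠ 0 → HasSum (fun τ => c τ * Gs τ p) (G p)) (f g : Cell → ℝ → ℂ)
    (hf : ∀ I, MemLp (f I) 2 volume) (hg : ∀ I, MemLp (g I) 2 volume) (X : ι → ℝ)
    (hX : ∀ τ, s5a_sum A w a b (fun _ => Gs τ) f g ≤ X τ) (hXs : Summable fun τ => ‖c τ‖ * X τ) :
    s5a_sum A w a b (fun _ => G) f g ≤ ∑' τ, ‖c τ‖ * X τ := by
  have hHS : ∀ I ∈ A, HasSum (fun τ => c τ * s5a_formG I (w I) a b (Gs τ) (f I) (g I))
      (s5a_formG I (w I) a b G (f I) (g I)) := fun I hI =>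
    s5a_formG_hasSum hS.c0_pos (hS.adm I hI) hS.ne c Gs G hc hm hb (hsum I hI) (f I) (g I) (hf I) (hg I)
  have hsn : ∀ I ∈ A, Summable fun τ => I.len * (‖c τ‖ * ‖s5a_formG I (w I) a b (Gs τ) (f I) (g I)‖) := by
    intro I hI
    have := (hHS I hI).summable.norm
    simp_rw [norm_mul] at this
    exact this.mul_left _
  have h1 : ∀ I ∈ A, I.len * ‖s5a_formG I (w I) a b G (f I) (g I)‖
      ≤ ∑' τ, I.len * (‖c τ‖ * ‖s5a_formG I (w I) a b (Gs τ) (f I) (g I)‖) := by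
    intro I hI
    rw [tsum_mul_left]
    refine mul_le_mul_of_nonneg_left ?_ (cell_len_nonneg I)
    rw [← (hHS I hI).tsum_eq]
    have hs := (hHS I hI).summable.norm
    refine (norm_tsum_le_tsum_norm hs).trans (le_of_eq ?_)
    simp_rw [norm_mul]
  unfold s5a_sum
  refine (Finset.sum_le_sum h1).trans ?_
  rw [← Summable.tsum_finsetSum hsn]
  refine Summable.tsum_le_tsum (fun τ => ?_) (summable_sum hsn) hXs
  have e : ∑ I ∈ A, I.len * (‖c τ‖ * ‖s5a_formG I (w I) a b (Gs τ) (f I) (g I)‖)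
      = ‖c τ‖ * s5a_sum A w a b (fun _ => Gs τ) f g := by
    unfold s5a_sum
    rw [Finset.mul_sum]
    refine Finset.sum_congr rfl fun I _ => ?_
    ring
  rw [e]
  exact mul_le_mul_of_nonneg_left (hX τ) (norm_nonneg _)

end DEPTH

end Claimed.Agent.R258
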