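/-
Row 258, block [S5a] (architect helper192).  FILE Td = leaves P-S5a-TD1 (section TD1), P-S5a-TD2 (section TD2), P-S5a-TD3 (section TD3):
**tensor decomposition of an admissible kernel into mean-zero bumps** (base.tex l.180-195, done differently: no double primitive).
Uses the STATEMENTS of Shape.lean, Form.lean and `s4a_box_fourier` (S4a/LatFourier.lean).

NORMALIZED KERNEL.  For `p : Fin 2 → ℝ` put `u = mid + |I| p 0`, `v = mid + |I| p 1`, `s5a_nk I w a b p = w (s5a_X a b u v)` (`s5a_X a b u v` = the point `(x,t)` with `y_a = u`, `y_b = v`).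
TD1. (i) smooth (composition of `w` with an affine map);   (ii) `nk p ≠ 0 → |p i| ≤ 1/2 - c1` (support condition for the slots `a`, `b`; `c1 ≤ c0`);
  (iii) `‖D^8 nk‖ ≤ 7^8 (10 C0)^(10 C0)`, `‖nk‖ ≤` the same: the linear part `Λ p = |I| (p0 - a (p1-p0)/κ, (p1-p0)/κ)` has norm `≤ 7 |I|` (sup norms, `|a| ≤ 3`, `|κ| ≥ 1`), `‖D^n (w ∘ affine)‖ ≤ ‖D^n w‖ ‖Λ‖^n`
  (`ContinuousLinearMap.iteratedFDeriv_comp_right`, `ContinuousMultilinearMap.norm_compContinuousLinearMap_le`, `iteratedFDeriv_comp_add_right`-type lemma for the translation; compare `s4a_Gev.comp_affine`), and `Admissible.deriv` gives `‖D^n w‖ ≤ |I|^{-n} (C0 (n+2))^(C0 (n+2))`.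
  (iv) marginals: `∫ nk (p0, p1) dp0 = 0` for all `p1` and `∫ nk (p0,p1) dp1 = 0` for all `p0`: for fixed `v`, `u = v - κ t`, `s5a_X a b u v = (v - b t, t)`; `Admissible.marg v b`; linear substitution `p0 ↦ t`.
TD2. By `s4a_box_fourier` (`κ := Fin 2`, `R = 1`, `K = 1/2 - c1`, `m = 8`): `nk p = ∑_ℓ A_ℓ e(ℓ0 p0 + ℓ1 p1)` for `|p i| < 1/2 + c1`, `‖A_ℓ‖ (1+‖ℓ‖)^8 ≤ 16 X`.  Since `nk = χ(p0) χ(p1) nk` and `χ(p0)χ(p1) ≠ 0 → |p i| < 1/2`:
     `nk p = ∑_ℓ A_ℓ g_{ℓ0}(p0) g_{ℓ1}(p1)` for ALL `p`,   `g_k = χ e_k = sh_k + μ_k χ`, `μ_k = m_k/m_0`.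
  Put `α(p1) = ∑_ℓ A_ℓ m_{ℓ0} g_{ℓ1}(p1)`, `β(p0) = ∑_ℓ A_ℓ g_{ℓ0}(p0) m_{ℓ1}`, `c = ∑_ℓ A_ℓ m_{ℓ0} m_{ℓ1}`.  Integrating the series (dominated: `∑ ‖A_ℓ‖ < ∞` by `s4a_lat_summable`, `|g_k| ≤ χ`): `α = ∫ nk dp0 = 0`, `β = 0`, `c = ∫ α = 0`.  Expanding,
     `∑_ℓ A_ℓ sh_{ℓ0}(p0) sh_{ℓ1}(p1) = nk p - χ(p0) α(p1)/m_0 - χ(p1) β(p0)/m_0 + χ(p0) χ(p1) c/m_0² = nk p`.
TD3. Back to `(x,t)`: `p0 = (x + a t - mid)/|I|`, `p1 = (x + b t - mid)/|I|`, `s5a_X a b (x + a t) (x + b t) = (x,t)`.   Then the integrated form `s5a_td_form`: insert the series in `s5a_formG`, interchange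
  (`hasSum_integral_of_summable_integral_norm`; domination `4 ‖A_ℓ‖ 1_I(y_a)|f(y_a)| 1_I(y_b)|g(y_b)|`), `e(γ t) = e(-γ y_a/κ) e(γ y_b/κ)`, and `s5a_int_tensor` for every term;  `|I| |I|^{-2} = (√|I|)⁻¹ (√|I|)⁻¹`.
-/
import Claimed.Agent.R258.S5a.Shape
import Claimed.Agent.R258.S5a.Form
import Claimed.Agent.R258.S4a.LatFourier

set_option autoImplicit false
open MeasureTheory
open scoped ENNReal ContDiff ComplexConjugate

namespace Claimed.Agent.R258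

/-- the kernel in the normalized coordinates `p = ((y_a - mid)/|I|, (y_b - mid)/|I|)` -/
noncomputable def s5a_nk (I : Cell) (w : ℝ × ℝ → ℂ) (a b : Fin 4) (p : Fin 2 → ℝ) : ℂ :=
  w (s5a_X a b (s5a_mid I + I.len * p 0) (s5a_mid I + I.len * p 1))

/-- the bound for the derivatives of order `0` and `8` of the normalized kernel -/
noncomputable def s5a_X8 (C0 : ℝ) : ℝ := 7 ^ 8 * (C0 * 10) ^ (C0 * 10)

section TD1
variable {c0 C0 : ℝ} {I : Cell} {w : ℝ × ℝ → ℂ} {a b : Fin 4}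

theorem s5a_X_inv (hab : a ≠ b) (x t : ℝ) : s5a_X a b (x + (a : ℝ) * t) (x + (b : ℝ) * t) = (x, t) := by
  have hκ := s5a_kap_ne hab
  have e : (x + (b : ℝ) * t - (x + (a : ℝ) * t)) / s5a_kap a b = t := by
    rw [div_eq_iff hκ]
    unfold s5a_kap
    ring
  unfold s5a_X
  rw [e]
  ext
  · simp
  · simp

theorem s5a_X_slot (hab : a ≠ b) (u v : ℝ) :
    (s5a_X a b u v).1 + (a : ℝ) * (s5a_X a b u v).2 = u ∧ (s5a_X a b u v).1 + (b : ℝ) * (s5a_X a b u v).2 = v := by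
  have hκ := s5a_kap_ne hab
  unfold s5a_X
  constructor
  · simp
  · simp only
    have : u - (a : ℝ) * ((v - u) / s5a_kap a b) + (b : ℝ) * ((v - u) / s5a_kap a b)
        = u + s5a_kap a b * ((v - u) / s5a_kap a b) := by
      unfold s5a_kap
      ring
    rw [this, mul_div_cancel₀ _ hκ]
    ring

theorem s5a_nk_smooth (hw : Admissible c0 C0 I w) : ContDiff ℝ ∞ (s5a_nk I w a b) := by
  unfold s5a_nk
  refine hw.smooth.comp ?_
  unfold s5a_X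
  fun_prop

theorem s5a_td_len_pos (I : Cell) : 0 < I.len := by
  unfold Cell.len
  positivity

theorem s5a_nk_supp (hw : Admissible c0 C0 I w) (hab : a ≠ b) (p : Fin 2 → ℝ) (hp : s5a_nk I w a b p ≠ 0) (i : Fin 2) :
    |p i| ≤ 1 / 2 - s5a_c1 c0 := by
  have hlen := s5a_td_len_pos I
  have hs := s5a_X_slot hab (s5a_mid I + I.len * p 0) (s5a_mid I + I.len * p 1)
  have ha := hw.supp _ hp a
  have hb := hw.supp _ hp b
  rw [hs.1] at ha
  rw [hs.2] at hb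
  have hc := s5a_c1_le' c0
  have key : ∀ q : ℝ, I.left + c0 * I.len ≤ s5a_mid I + I.len * q → s5a_mid I + I.len * q ≤ I.right - c0 * I.len →
      |q| ≤ 1 / 2 - s5a_c1 c0 := by
    intro q h1 h2
    have hr : I.right = I.left + I.len := by
      unfold Cell.right Cell.left
      ring
    unfold s5a_mid at h1 h2
    rw [hr] at h2
    have h1' : I.len * (c0 - 1 / 2) ≤ I.len * q := by linarith
    have h2' : I.len * q ≤ I.len * (1 / 2 - c0) := by linarith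
    have h1'' := le_of_mul_le_mul_left h1' hlen
    have h2'' := le_of_mul_le_mul_left h2' hlen
    rw [abs_le]
    constructor <;> linarith
  fin_cases i
  · exact key _ ha.1 ha.2
  · exact key _ hb.1 hb.2

theorem s5a_td_rpow_le (hC0 : 1 ≤ C0) (m n : ℝ) (hm : 1 ≤ m) (hmn : m ≤ n) : (C0 * m) ^ (C0 * m) ≤ (C0 * n) ^ (C0 * n) := by
  have h1 : 1 ≤ C0 * m := by nlinarith
  have h2 : C0 * m ≤ C0 * n := by nlinarith
  calc (C0 * m) ^ (C0 * m) ≤ (C0 * n) ^ (C0 * m) := Real.rpow_le_rpow (by linarith) h2 (by linarith)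
    _ ≤ (C0 * n) ^ (C0 * n) := Real.rpow_le_rpow_of_exponent_le (by linarith) h2

theorem s5a_nk_bd (hw : Admissible c0 C0 I w) (hC0 : 1 ≤ C0) (p : Fin 2 → ℝ) : ‖s5a_nk I w a b p‖ ≤ s5a_X8 C0 := by
  unfold s5a_nk s5a_X8
  refine (s5a_w_bound hw _).trans ?_
  unfold s5a_Cw
  have h1 := s5a_td_rpow_le hC0 2 10 (by norm_num) (by norm_num)
  have h2 : 0 ≤ (C0 * 10) ^ (C0 * 10) := Real.rpow_nonneg (by linarith) _
  nlinarith

/-- the linear part of the normalization -/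
noncomputable def s5a_td_lin (I : Cell) (a b : Fin 4) : (Fin 2 → ℝ) →L[ℝ] ℝ × ℝ :=
  (I.len • ContinuousLinearMap.proj (R := ℝ) (φ := fun _ : Fin 2 => ℝ) 0
      - ((a : ℝ) * (I.len / s5a_kap a b)) • (ContinuousLinearMap.proj (R := ℝ) (φ := fun _ : Fin 2 => ℝ) 1
        - ContinuousLinearMap.proj (R := ℝ) (φ := fun _ : Fin 2 => ℝ) 0)).prod
    ((I.len / s5a_kap a b) • (ContinuousLinearMap.proj (R := ℝ) (φ := fun _ : Fin 2 => ℝ) 1
        - ContinuousLinearMap.proj (R := ℝ) (φ := fun _ : Fin 2 => ℝ) 0))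

theorem s5a_td_lin_apply (I : Cell) (a b : Fin 4) (p : Fin 2 → ℝ) :
    s5a_td_lin I a b p = (I.len * p 0 - (a : ℝ) * (I.len / s5a_kap a b) * (p 1 - p 0), I.len / s5a_kap a b * (p 1 - p 0)) := by
  simp [s5a_td_lin]

theorem s5a_td_lin_norm (I : Cell) (hab : a ≠ b) : ‖s5a_td_lin I a b‖ ≤ 7 * I.len := by
  have hlen := s5a_td_len_pos I
  refine ContinuousLinearMap.opNorm_le_bound _ (by positivity) fun p => ?_
  rw [s5a_td_lin_apply]
  have h0 : |p 0| ≤ ‖p‖ := norm_le_pi_norm p 0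
  have h1 : |p 1| ≤ ‖p‖ := norm_le_pi_norm p 1
  have hκ := s5a_one_le_abs_kap hab
  have hd : |p 1 - p 0| ≤ 2 * ‖p‖ := by
    refine (abs_sub _ _).trans ?_
    linarith
  have hq : |I.len / s5a_kap a b| ≤ I.len := by
    rw [abs_div, abs_of_pos hlen]
    exact div_le_self hlen.le hκ
  have hq2 : |I.len / s5a_kap a b * (p 1 - p 0)| ≤ I.len * (2 * ‖p‖) := by
    rw [abs_mul]
    exact mul_le_mul hq hd (abs_nonneg _) hlen.le
  have ha : |((a : ℕ) : ℝ)| ≤ 3 := by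
    rw [abs_of_nonneg (by positivity)]
    have : (a : ℕ) ≤ 3 := by omega
    exact_mod_cast this
  have hp : 0 ≤ ‖p‖ := norm_nonneg p
  rw [Prod.norm_def, Real.norm_eq_abs, Real.norm_eq_abs]
  refine max_le ?_ ?_
  · have e : I.len * p 0 - (a : ℝ) * (I.len / s5a_kap a b) * (p 1 - p 0)
        = I.len * p 0 - (a : ℝ) * (I.len / s5a_kap a b * (p 1 - p 0)) := by ring
    rw [e]
    refine (abs_sub _ _).trans ?_
    rw [abs_mul, abs_mul, abs_of_pos hlen]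
    have h3 : |((a : ℕ) : ℝ)| * |I.len / s5a_kap a b * (p 1 - p 0)| ≤ 3 * (I.len * (2 * ‖p‖)) :=
      mul_le_mul ha hq2 (abs_nonneg _) (by norm_num)
    have h4 : I.len * |p 0| ≤ I.len * ‖p‖ := mul_le_mul_of_nonneg_left h0 hlen.le
    linarith
  · refine hq2.trans ?_
    nlinarith

theorem s5a_td_nk_eq (I : Cell) (w : ℝ × ℝ → ℂ) (a b : Fin 4) :
    s5a_nk I w a b = (fun q => w ((s5a_mid I, 0) + q)) ∘ (s5a_td_lin I a b) := by
  funext p
  simp only [Function.comp_apply]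
  rw [s5a_td_lin_apply]
  unfold s5a_nk s5a_X
  congr 1
  ext
  · simp only [Prod.fst_add]
    ring
  · simp only [Prod.snd_add]
    ring

theorem s5a_nk_der (hw : Admissible c0 C0 I w) (hC0 : 1 ≤ C0) (hab : a ≠ b) (p : Fin 2 → ℝ) :
    ‖iteratedFDeriv ℝ 8 (s5a_nk I w a b) p‖ ≤ s5a_X8 C0 := by
  have hlen := s5a_td_len_pos I
  have hsm : ContDiff ℝ ∞ (fun q => w ((s5a_mid I, 0) + q)) := hw.smooth.comp (by fun_prop)
  rw [s5a_td_nk_eq, (s5a_td_lin I a b).iteratedFDeriv_comp_right hsm p (i := 8) (WithTop.coe_le_coe.mpr le_top)]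
  refine (ContinuousMultilinearMap.norm_compContinuousLinearMap_le _ _).trans ?_
  rw [Finset.prod_const, Finset.card_univ, Fintype.card_fin, iteratedFDeriv_comp_add_left]
  have h1 := hw.deriv 8 ((s5a_mid I, 0) + s5a_td_lin I a b p)
  have h2 : ‖s5a_td_lin I a b‖ ^ 8 ≤ (7 * I.len) ^ 8 := pow_le_pow_left₀ (norm_nonneg _) (s5a_td_lin_norm I hab) 8
  have h3 : (0 : ℝ) ≤ (C0 * (((8 : ℕ) : ℝ) + 2)) ^ (C0 * (((8 : ℕ) : ℝ) + 2)) := Real.rpow_nonneg (by positivity) _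
  refine (mul_le_mul h1 h2 (by positivity) (by positivity)).trans ?_
  unfold s5a_X8
  have e : (((8 : ℕ) : ℝ) + 2) = 10 := by norm_num
  rw [e]
  apply le_of_eq
  field_simp

theorem s5a_td_int_affine (G : ℝ → ℂ) (α β : ℝ) (h : ∫ t, G t = 0) : ∫ x, G (α * x + β) = 0 := by
  have h1 := Measure.integral_comp_mul_left (fun y => G (y + β)) α
  rw [h1, integral_add_right_eq_self G β, h, smul_zero]

theorem s5a_nk_marg0 (hw : Admissible c0 C0 I w) (hab : a ≠ b) (p1 : ℝ) : ∫ p0 : ℝ, s5a_nk I w a b ![p0, p1] = 0 := by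
  have hκ := s5a_kap_ne hab
  have h := hw.marg (s5a_mid I + I.len * p1) b
  have h2 := s5a_td_int_affine (fun t => w (s5a_mid I + I.len * p1 - (b : ℝ) * t, t)) (-(I.len / s5a_kap a b))
    (I.len * p1 / s5a_kap a b) h
  rw [← h2]
  refine integral_congr_ae (Filter.Eventually.of_forall fun p0 => ?_)
  simp only
  unfold s5a_nk s5a_X
  simp only [Matrix.cons_val_zero, Matrix.cons_val_one]
  have e : (s5a_mid I + I.len * p1 - (s5a_mid I + I.len * p0)) / s5a_kap a b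
      = -(I.len / s5a_kap a b) * p0 + I.len * p1 / s5a_kap a b := by
    field_simp
    ring
  rw [e]
  congr 1
  ext
  · simp only
    have hb : ((b : ℕ) : ℝ) = s5a_kap a b + ((a : ℕ) : ℝ) := by
      unfold s5a_kap
      ring
    rw [hb]
    field_simp
    ring
  · rfl

theorem s5a_nk_marg1 (hw : Admissible c0 C0 I w) (hab : a ≠ b) (p0 : ℝ) : ∫ p1 : ℝ, s5a_nk I w a b ![p0, p1] = 0 := by
  have hκ := s5a_kap_ne hab
  have h := hw.marg (s5a_mid I + I.len * p0) a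
  have h2 := s5a_td_int_affine (fun t => w (s5a_mid I + I.len * p0 - (a : ℝ) * t, t)) (I.len / s5a_kap a b)
    (-(I.len * p0 / s5a_kap a b)) h
  rw [← h2]
  refine integral_congr_ae (Filter.Eventually.of_forall fun p1 => ?_)
  simp only
  unfold s5a_nk s5a_X
  simp only [Matrix.cons_val_zero, Matrix.cons_val_one]
  have e : (s5a_mid I + I.len * p1 - (s5a_mid I + I.len * p0)) / s5a_kap a b
      = I.len / s5a_kap a b * p1 + -(I.len * p0 / s5a_kap a b) := by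
    field_simp
    ring
  rw [e]

end TD1

section TD2

theorem s5a_td_hasSum_congr {ι : Type*} {f g : ι → ℂ} {a : ℂ} (h : HasSum f a) (e : ∀ i, g i = f i) : HasSum g a := by
  have : g = f := funext e
  rw [this]
  exact h

theorem s5a_td_sumA (A : (Fin 2 → ℤ) → ℂ) (Y : ℝ) (hA : ∀ ℓ, ‖A ℓ‖ * (1 + ‖ℓ‖) ^ 8 ≤ Y) :
    Summable fun ℓ => ‖A ℓ‖ := by
  have hY : 0 ≤ Y := le_trans (by positivity) (hA 0)
  have h := (s4a_lat_weighted A 4 Y hY (by simpa using hA)).1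
  refine Summable.of_nonneg_of_le (fun ℓ => norm_nonneg _) (fun ℓ => ?_) h
  exact le_mul_of_one_le_right (norm_nonneg _) (one_le_pow₀ (by linarith [norm_nonneg ℓ]))

theorem s5a_td_g_norm (c0 : ℝ) (k : ℤ) (x : ℝ) : ‖(s5a_chi c0 x : ℂ) * ee ((k : ℝ) * x)‖ = s5a_chi c0 x := by
  rw [norm_mul, s4a_fou_ee_norm, mul_one, Complex.norm_real, Real.norm_of_nonneg (s5a_chi_nonneg c0 x)]

theorem s5a_td_g_le (c0 : ℝ) (k : ℤ) (x : ℝ) : ‖(s5a_chi c0 x : ℂ) * ee ((k : ℝ) * x)‖ ≤ 1 := by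
  rw [s5a_td_g_norm]
  exact s5a_chi_le_one c0 x

theorem s5a_td_mom_le {c0 : ℝ} (hc0 : 0 < c0) (k : ℤ) : ‖s5a_mom c0 k‖ ≤ 1 := by
  obtain ⟨m0, h1, h2, h3, _⟩ := s5a_mom_zero hc0
  refine (s5a_mom_le hc0 k).trans ?_
  rw [h3, Complex.norm_real, Real.norm_of_nonneg (by linarith)]
  exact h2

/-- termwise integration of an absolutely convergent series in `χ e_k` -/
theorem s5a_td_termint {c0 : ℝ} (hc0 : 0 < c0) (B : (Fin 2 → ℤ) → ℂ) (hB : Summable fun ℓ => ‖B ℓ‖) (κ : (Fin 2 → ℤ) → ℤ)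
    (Φ : ℝ → ℂ) (hsum : ∀ x, HasSum (fun ℓ => B ℓ * ((s5a_chi c0 x : ℂ) * ee ((κ ℓ : ℝ) * x))) (Φ x)) :
    HasSum (fun ℓ => B ℓ * s5a_mom c0 (κ ℓ)) (∫ x, Φ x) := by
  obtain ⟨m0, h1, h2, h3, h4⟩ := s5a_mom_zero hc0
  have hint : ∀ ℓ, Integrable (fun x : ℝ => B ℓ * ((s5a_chi c0 x : ℂ) * ee ((κ ℓ : ℝ) * x))) volume :=
    fun ℓ => (s5a_chi_integrable hc0 (κ ℓ)).const_mul _
  have hn : ∀ ℓ, ∫ x : ℝ, ‖B ℓ * ((s5a_chi c0 x : ℂ) * ee ((κ ℓ : ℝ) * x))‖ = ‖B ℓ‖ * m0 := by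
    intro ℓ
    simp_rw [norm_mul (B ℓ), s5a_td_g_norm]
    rw [integral_const_mul, h4]
  have h := hasSum_integral_of_summable_integral_norm hint (by simp_rw [hn]; exact hB.mul_right m0)
  have e1 : ∀ ℓ, ∫ x : ℝ, B ℓ * ((s5a_chi c0 x : ℂ) * ee ((κ ℓ : ℝ) * x)) = B ℓ * s5a_mom c0 (κ ℓ) := by
    intro ℓ
    rw [integral_const_mul]
    rfl
  have e2 : ∀ x : ℝ, ∑' ℓ, B ℓ * ((s5a_chi c0 x : ℂ) * ee ((κ ℓ : ℝ) * x)) = Φ x := fun x => (hsum x).tsum_eq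
  simp_rw [e1, e2] at h
  exact h

/-- abstract form of the mean-zero correction -/
theorem s5a_td_norm {c0 : ℝ} (hc0 : 0 < c0) (X : ℝ) (hX : 0 ≤ X) (ψ : (Fin 2 → ℝ) → ℂ) (hsm : ContDiff ℝ ∞ ψ)
    (hsupp : ∀ p, ψ p ≠ 0 → ∀ i, |p i| ≤ 1 / 2 - s5a_c1 c0) (h0 : ∀ p, ‖ψ p‖ ≤ X)
    (h8 : ∀ p, ‖iteratedFDeriv ℝ 8 ψ p‖ ≤ X) (hm0 : ∀ p1 : ℝ, ∫ p0 : ℝ, ψ ![p0, p1] = 0)
    (hm1 : ∀ p0 : ℝ, ∫ p1 : ℝ, ψ ![p0, p1] = 0) :
    ∃ A : (Fin 2 → ℤ) → ℂ, (∀ ℓ, ‖A ℓ‖ * (1 + ‖ℓ‖) ^ 8 ≤ 16 * X) ∧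
      ∀ p : Fin 2 → ℝ, HasSum (fun ℓ => A ℓ * s5a_sh c0 (ℓ 0) (p 0) * s5a_sh c0 (ℓ 1) (p 1)) (ψ p) := by
  have hc1 := s5a_c1_pos hc0
  have hc1' := s5a_c1_le c0
  obtain ⟨A, hA, hsum⟩ := s4a_box_fourier (κ := Fin 2) 1 le_rfl (1 / 2 - s5a_c1 c0) (by linarith)
    (by push_cast; linarith) ψ hsm hsupp 8 (by simp) X h0 h8
  have hA' : ∀ ℓ, ‖A ℓ‖ * (1 + ‖ℓ‖) ^ 8 ≤ 16 * X := by
    intro ℓ
    refine (hA ℓ).trans ?_
    simp only [Fintype.card_fin, Nat.cast_one, one_pow, mul_one]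
    refine mul_le_mul_of_nonneg_right ?_ hX
    nlinarith
  refine ⟨A, hA', ?_⟩
  have hAs := s5a_td_sumA A _ hA'
  -- the series with the cutoffs, for all `p`
  have main : ∀ p : Fin 2 → ℝ, HasSum (fun ℓ => A ℓ * ((s5a_chi c0 (p 0) : ℂ) * ee ((ℓ 0 : ℝ) * p 0)) *
      ((s5a_chi c0 (p 1) : ℂ) * ee ((ℓ 1 : ℝ) * p 1))) (ψ p) := by
    intro p
    by_cases hp : ∀ i, |p i| < ((1 : ℕ) : ℝ) - (1 / 2 - s5a_c1 c0)
    · have h1 := (hsum p hp).mul_left ((s5a_chi c0 (p 0) : ℂ) * (s5a_chi c0 (p 1) : ℂ))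
      have e : (s5a_chi c0 (p 0) : ℂ) * (s5a_chi c0 (p 1) : ℂ) * ψ p = ψ p := by
        by_cases hψ : ψ p = 0
        · rw [hψ, mul_zero]
        · rw [s5a_chi_eq_one hc0 (hsupp p hψ 0), s5a_chi_eq_one hc0 (hsupp p hψ 1)]
          simp
      rw [e] at h1
      refine s5a_td_hasSum_congr h1 fun ℓ => ?_
      rw [Fin.sum_univ_two, Nat.cast_one, div_one, div_one, s4a_fou_ee_add]
      ring
    · push Not at hp
      obtain ⟨i, hi⟩ := hp
      have hχ : s5a_chi c0 (p i) = 0 := s5a_chi_eq_zero hc0 (by push_cast at hi; linarith)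
      have hψ : ψ p = 0 := by
        by_contra h
        have := hsupp p h i
        push_cast at hi
        linarith
      rw [hψ]
      have : (fun ℓ : Fin 2 → ℤ => A ℓ * ((s5a_chi c0 (p 0) : ℂ) * ee ((ℓ 0 : ℝ) * p 0)) *
          ((s5a_chi c0 (p 1) : ℂ) * ee ((ℓ 1 : ℝ) * p 1))) = fun _ => 0 := by
        funext ℓ
        fin_cases i
        · simp only [Fin.zero_eta] at hχ
          rw [hχ]
          simp
        · simp only [Fin.mk_one] at hχ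
          rw [hχ]
          simp
      rw [this]
      exact hasSum_zero
  -- the three corrections vanish
  have hα : ∀ p1 : ℝ, HasSum (fun ℓ => A ℓ * ((s5a_chi c0 p1 : ℂ) * ee ((ℓ 1 : ℝ) * p1)) * s5a_mom c0 (ℓ 0)) 0 := by
    intro p1
    have hB : Summable fun ℓ => ‖A ℓ * ((s5a_chi c0 p1 : ℂ) * ee ((ℓ 1 : ℝ) * p1))‖ := by
      refine Summable.of_nonneg_of_le (fun ℓ => norm_nonneg _) (fun ℓ => ?_) hAs
      rw [norm_mul]
      exact mul_le_of_le_one_right (norm_nonneg _) (s5a_td_g_le c0 _ _)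
    have h := s5a_td_termint hc0 (fun ℓ => A ℓ * ((s5a_chi c0 p1 : ℂ) * ee ((ℓ 1 : ℝ) * p1))) hB (fun ℓ => ℓ 0)
      (fun p0 => ψ ![p0, p1]) (fun p0 => by
        have := main ![p0, p1]
        simp only [Matrix.cons_val_zero, Matrix.cons_val_one] at this
        refine s5a_td_hasSum_congr this fun ℓ => ?_
        ring)
    rw [hm0 p1] at h
    exact h
  have hβ : ∀ p0 : ℝ, HasSum (fun ℓ => A ℓ * ((s5a_chi c0 p0 : ℂ) * ee ((ℓ 0 : ℝ) * p0)) * s5a_mom c0 (ℓ 1)) 0 := by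
    intro p0
    have hB : Summable fun ℓ => ‖A ℓ * ((s5a_chi c0 p0 : ℂ) * ee ((ℓ 0 : ℝ) * p0))‖ := by
      refine Summable.of_nonneg_of_le (fun ℓ => norm_nonneg _) (fun ℓ => ?_) hAs
      rw [norm_mul]
      exact mul_le_of_le_one_right (norm_nonneg _) (s5a_td_g_le c0 _ _)
    have h := s5a_td_termint hc0 (fun ℓ => A ℓ * ((s5a_chi c0 p0 : ℂ) * ee ((ℓ 0 : ℝ) * p0))) hB (fun ℓ => ℓ 1)
      (fun p1 => ψ ![p0, p1]) (fun p1 => by
        have := main ![p0, p1]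
        simp only [Matrix.cons_val_zero, Matrix.cons_val_one] at this
        exact this)
    rw [hm1 p0] at h
    exact h
  have hc : HasSum (fun ℓ => A ℓ * s5a_mom c0 (ℓ 0) * s5a_mom c0 (ℓ 1)) 0 := by
    have hB : Summable fun ℓ => ‖A ℓ * s5a_mom c0 (ℓ 0)‖ := by
      refine Summable.of_nonneg_of_le (fun ℓ => norm_nonneg _) (fun ℓ => ?_) hAs
      rw [norm_mul]
      exact mul_le_of_le_one_right (norm_nonneg _) (s5a_td_mom_le hc0 _)
    have h := s5a_td_termint hc0 (fun ℓ => A ℓ * s5a_mom c0 (ℓ 0)) hB (fun ℓ => ℓ 1)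
      (fun _ => 0) (fun p1 => by
        refine s5a_td_hasSum_congr (hα p1) fun ℓ => ?_
        ring)
    simpa using h
  intro p
  have h1 := ((main p).sub ((hα (p 1)).mul_left ((s5a_chi c0 (p 0) : ℂ) / s5a_mom c0 0))).sub
    ((hβ (p 0)).mul_left ((s5a_chi c0 (p 1) : ℂ) / s5a_mom c0 0))
  have h2 := h1.add (hc.mul_left ((s5a_chi c0 (p 0) : ℂ) * (s5a_chi c0 (p 1) : ℂ) / s5a_mom c0 0 ^ 2))
  simp only [mul_zero, sub_zero, add_zero] at h2
  refine s5a_td_hasSum_congr h2 fun ℓ => ?_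
  unfold s5a_sh
  ring

end TD2

section TD3
variable {c0 C0 : ℝ} {I : Cell} {w : ℝ × ℝ → ℂ} {a b : Fin 4}

/-- **tensor decomposition, pointwise** -/
theorem s5a_td (hc0 : 0 < c0) (hC0 : 1 ≤ C0) (hw : Admissible c0 C0 I w) (hab : a ≠ b) :
    ∃ A : (Fin 2 → ℤ) → ℂ, (∀ ℓ, ‖A ℓ‖ * (1 + ‖ℓ‖) ^ 8 ≤ 16 * s5a_X8 C0) ∧
      ∀ x t : ℝ, HasSum (fun ℓ => A ℓ * s5a_bump c0 I (ℓ 0) (x + (a : ℝ) * t) * s5a_bump c0 I (ℓ 1) (x + (b : ℝ) * t))
        (w (x, t)) := by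
  have hlen := s5a_td_len_pos I
  have hX : 0 ≤ s5a_X8 C0 := (norm_nonneg _).trans (s5a_nk_bd (a := a) (b := b) hw hC0 0)
  obtain ⟨A, hA, hs⟩ := s5a_td_norm hc0 (s5a_X8 C0) hX (s5a_nk I w a b) (s5a_nk_smooth hw) (s5a_nk_supp hw hab)
    (s5a_nk_bd hw hC0) (s5a_nk_der hw hC0 hab) (s5a_nk_marg0 hw hab) (s5a_nk_marg1 hw hab)
  refine ⟨A, hA, fun x t => ?_⟩
  have h := hs ![(x + (a : ℝ) * t - s5a_mid I) / I.len, (x + (b : ℝ) * t - s5a_mid I) / I.len]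
  simp only [Matrix.cons_val_zero, Matrix.cons_val_one] at h
  have e : s5a_nk I w a b ![(x + (a : ℝ) * t - s5a_mid I) / I.len, (x + (b : ℝ) * t - s5a_mid I) / I.len] = w (x, t) := by
    unfold s5a_nk
    simp only [Matrix.cons_val_zero, Matrix.cons_val_one]
    rw [mul_div_cancel₀ _ hlen.ne', mul_div_cancel₀ _ hlen.ne', add_sub_cancel, add_sub_cancel, s5a_X_inv hab]
  rw [e] at h
  exact h

theorem s5a_td_dom (f : ℝ → ℂ) (hf : MemLp f 2 volume) (I : Cell) :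
    Integrable (fun u => ((2 * ‖(I.set).indicator f u‖ : ℝ) : ℂ)) volume := by
  have hm : MeasurableSet I.set := measurableSet_Ico
  have h1 : Integrable ((I.set).indicator f) volume := (integrable_indicator_iff hm).mpr (s5a_l1_le f hf).1
  exact (h1.norm.const_mul 2).ofReal

theorem s5a_td_F_le (hc0 : 0 < c0) (I : Cell) (k : ℤ) (ν : ℝ) (f : ℝ → ℂ) (u : ℝ) :
    ‖s5a_bump c0 I k u * ee (ν * u) * f u‖ ≤ 2 * ‖(I.set).indicator f u‖ := by
  obtain ⟨Cχ, _, hb⟩ := s5a_bump_bump hc0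
  rw [norm_mul, norm_mul, s4a_fou_ee_norm, mul_one]
  by_cases hu : u ∈ I.set
  · rw [Set.indicator_of_mem hu]
    exact mul_le_mul_of_nonneg_right (s5a_bump_bd hc0 I k u) (norm_nonneg _)
  · rw [(hb I k).eq_zero hu, norm_zero, zero_mul]
    positivity

theorem s5a_td_F_int (hc0 : 0 < c0) (I : Cell) (k : ℤ) (ν : ℝ) (f : ℝ → ℂ) (hf : MemLp f 2 volume) :
    Integrable (fun u => s5a_bump c0 I k u * ee (ν * u) * f u) volume := by
  obtain ⟨Cχ, _, hb⟩ := s5a_bump_bump hc0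
  have hm : MeasurableSet I.set := measurableSet_Ico
  have h1 : Integrable ((I.set).indicator f) volume := (integrable_indicator_iff hm).mpr (s5a_l1_le f hf).1
  refine Integrable.mono' (h1.norm.const_mul 2) ?_ (Filter.Eventually.of_forall fun u => s5a_td_F_le hc0 I k ν f u)
  have hc : Continuous fun u : ℝ => s5a_bump c0 I k u * ee (ν * u) :=
    (hb I k).continuous.mul (s4a_fou_ee_cont.comp (by fun_prop))
  exact hc.aestronglyMeasurable.mul hf.1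

/-- **tensor decomposition of the form with a linear phase** -/
theorem s5a_td_form (hc0 : 0 < c0) (hC0 : 1 ≤ C0) (hw : Admissible c0 C0 I w) (hab : a ≠ b) :
    ∃ A : (Fin 2 → ℤ) → ℂ, (∀ ℓ, ‖A ℓ‖ * (1 + ‖ℓ‖) ^ 8 ≤ 16 * s5a_X8 C0) ∧
      ∀ (γ : ℝ) (f g : ℝ → ℂ), MemLp f 2 volume → MemLp g 2 volume →
        HasSum (fun ℓ => A ℓ * ((|s5a_kap a b|⁻¹ : ℝ) : ℂ) * s5a_rw c0 I (ℓ 0) (-(γ / s5a_kap a b)) f *
            s5a_rw c0 I (ℓ 1) (γ / s5a_kap a b) g)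
          ((I.len : ℂ) * s5a_formG I w a b (fun p => ee (γ * p.2)) f g) := by
  have hlen := s5a_td_len_pos I
  have hκ := s5a_kap_ne hab
  obtain ⟨A, hA, hs⟩ := s5a_td hc0 hC0 hw hab
  refine ⟨A, hA, fun γ f g hf hg => ?_⟩
  have hAs := s5a_td_sumA A _ hA
  set ν : ℝ := γ / s5a_kap a b with hν
  set F1 : (Fin 2 → ℤ) → ℝ → ℂ := fun ℓ u => s5a_bump c0 I (ℓ 0) u * ee (-ν * u) * f u with hF1
  set F2 : (Fin 2 → ℤ) → ℝ → ℂ := fun ℓ v => s5a_bump c0 I (ℓ 1) v * ee (ν * v) * g v with hF2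
  have hF1i : ∀ ℓ, Integrable (F1 ℓ) volume := fun ℓ => s5a_td_F_int hc0 I (ℓ 0) (-ν) f hf
  have hF2i : ∀ ℓ, Integrable (F2 ℓ) volume := fun ℓ => s5a_td_F_int hc0 I (ℓ 1) ν g hg
  have hT := fun ℓ => s5a_int_tensor hab (F1 ℓ) (F2 ℓ) (hF1i ℓ) (hF2i ℓ)
  set D : ℝ × ℝ → ℝ := fun p => (2 * ‖(I.set).indicator f (p.1 + (a : ℝ) * p.2)‖) *
    (2 * ‖(I.set).indicator g (p.1 + (b : ℝ) * p.2)‖) with hD
  have hDi : Integrable D volume := by
    have h := (s5a_int_tensor hab _ _ (s5a_td_dom f hf I) (s5a_td_dom g hg I)).1.norm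
    refine h.congr (Filter.Eventually.of_forall fun p => ?_)
    simp only [hD]
    rw [norm_mul, Complex.norm_real, Complex.norm_real, Real.norm_of_nonneg (by positivity),
      Real.norm_of_nonneg (by positivity)]
  have key := hasSum_integral_of_dominated_convergence
    (F := fun ℓ (p : ℝ × ℝ) => A ℓ * (F1 ℓ (p.1 + (a : ℝ) * p.2) * F2 ℓ (p.1 + (b : ℝ) * p.2)))
    (f := fun p : ℝ × ℝ => w p * ee (γ * p.2) * f (p.1 + (a : ℝ) * p.2) * g (p.1 + (b : ℝ) * p.2))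
    (μ := volume)
    (fun ℓ p => ‖A ℓ‖ * D p)
    (fun ℓ => ((hT ℓ).1.const_mul (A ℓ)).aestronglyMeasurable)
    (fun ℓ => Filter.Eventually.of_forall fun p => by
      rw [norm_mul, norm_mul]
      refine mul_le_mul_of_nonneg_left ?_ (norm_nonneg _)
      exact mul_le_mul (s5a_td_F_le hc0 I _ _ f _) (s5a_td_F_le hc0 I _ _ g _) (norm_nonneg _) (by positivity))
    (Filter.Eventually.of_forall fun p => hAs.mul_right (D p))
    (by
      simp_rw [tsum_mul_right]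
      exact hDi.const_mul _)
    (Filter.Eventually.of_forall fun p => by
      have h1 := (hs p.1 p.2).mul_right (ee (-ν * (p.1 + (a : ℝ) * p.2)) * f (p.1 + (a : ℝ) * p.2) *
        (ee (ν * (p.1 + (b : ℝ) * p.2)) * g (p.1 + (b : ℝ) * p.2)))
      have e : w (p.1, p.2) * (ee (-ν * (p.1 + (a : ℝ) * p.2)) * f (p.1 + (a : ℝ) * p.2) *
          (ee (ν * (p.1 + (b : ℝ) * p.2)) * g (p.1 + (b : ℝ) * p.2)))
          = w p * ee (γ * p.2) * f (p.1 + (a : ℝ) * p.2) * g (p.1 + (b : ℝ) * p.2) := by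
        have e1 : ee (γ * p.2) = ee (-ν * (p.1 + (a : ℝ) * p.2)) * ee (ν * (p.1 + (b : ℝ) * p.2)) := by
          rw [← s4a_fou_ee_add]
          congr 1
          have : γ = ν * s5a_kap a b := by
            rw [hν, div_mul_cancel₀ _ hκ]
          rw [this]
          unfold s5a_kap
          ring
        rw [e1]
        ring
      rw [e] at h1
      refine s5a_td_hasSum_congr h1 fun ℓ => ?_
      simp only [hF1, hF2]
      ring)
  have key2 := key.mul_left ((I.len : ℂ) * (((I.len ^ 2)⁻¹ : ℝ) : ℂ))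
  have e0 : (I.len : ℂ) * (((I.len ^ 2)⁻¹ : ℝ) : ℂ) *
      ∫ p : ℝ × ℝ, w p * ee (γ * p.2) * f (p.1 + (a : ℝ) * p.2) * g (p.1 + (b : ℝ) * p.2)
      = (I.len : ℂ) * s5a_formG I w a b (fun p => ee (γ * p.2)) f g := by
    unfold s5a_formG
    rw [mul_assoc]
  rw [e0] at key2
  refine s5a_td_hasSum_congr key2 fun ℓ => ?_
  rw [integral_const_mul, (hT ℓ).2]
  unfold s5a_rw
  have hsq : ((Real.sqrt I.len : ℝ) : ℂ) * ((Real.sqrt I.len : ℝ) : ℂ) = (I.len : ℂ) := by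
    rw [← Complex.ofReal_mul, Real.mul_self_sqrt hlen.le]
  have hsq0 : ((Real.sqrt I.len : ℝ) : ℂ) ≠ 0 := by
    rw [Complex.ofReal_ne_zero]
    exact (Real.sqrt_pos.mpr hlen).ne'
  have hl0 : (I.len : ℂ) ≠ 0 := by
    rw [Complex.ofReal_ne_zero]
    exact hlen.ne'
  have i1 : ∫ u, F1 ℓ u = ∫ u : ℝ, s5a_bump c0 I (ℓ 0) u * ee (-ν * u) * f u := rfl
  have i2 : ∫ v, F2 ℓ v = ∫ u : ℝ, s5a_bump c0 I (ℓ 1) u * ee (ν * u) * g u := rfl
  rw [i1, i2]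
  push_cast
  rw [← hsq]
  field_simp

end TD3

end Claimed.Agent.R258
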