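/-
Row 258, block [S5a] (architect helper192).  FILE Je = leaves P-S5a-JE (`s5a_je`) and P-S5a-QE (`s5a_je1`, `s5a_qe`).    No paper (base.tex l.174-232 for orientation).
Uses the STATEMENTS of Td.lean (`s5a_td_form`), Cnt.lean (`s5a_mb`, `s5a_cnt1`, `s5a_geo`), Shape.lean (`s5a_bump_bump`, `s5a_bump_int`), Rows.lean, Form.lean, S4a/Lat.lean (`s4a_lat_summable`, `s4a_lat_tsum_le`).

`s5a_je` (joint estimate over scales, cells and separated centres).  For `I ∈ A`, `s = depth I`, `G_I(t) = ∑_{γ ∈ Γ s} c I γ e(γ t)`.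
 1. `s5a_formG_sum` + `s5a_td_form` (coefficients `A^I_ℓ`, `‖A^I_ℓ‖ ≤ 16 X8 (1+‖ℓ‖)^{-8}`):
      `|I| |formG I … G_I f_I g_I| ≤ η ∑'_ℓ 16 X8 (1+‖ℓ‖)^{-8} ∑_{γ ∈ Γ s} |rw I ℓ0 (-γ/κ) f_I| |rw I ℓ1 (γ/κ) g_I|`      (`|κ|⁻¹ ≤ 1`).
 2. sum over `I ∈ A`, interchange with `∑'_ℓ`, Cauchy-Schwarz over the pairs `(I,γ)`:  `≤ η ∑'_ℓ 16 X8 (1+‖ℓ‖)^{-8} √(Ra ℓ0) √(Rb ℓ1)`,  `Ra k = ∑_{I,γ} |rw I k (-γ/κ) f_I|²`, `Rb k = ∑_{I,γ} |rw I k (γ/κ) g_I|²`.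
 3. `Rb k ≤ 2 S_k² 𝔥 Mb²`, `S_k = Cχ (1+|k|)`: `s5a_SRow.rows` with `ι = Cell × ℝ`, `s = A.sigma/biUnion {(I,γ)}`, `u = Prod.fst`, `ρ_(I,γ)(y) = (√|I|)⁻¹ bump_{I,k}(y) e(γ/κ y)`, `𝔅 = 2 S_k² 𝔥`; the Bessel hypothesis is `s5a_mb` with `N s = (Γ s).image (· / κ)`
    (the map `γ ↦ γ/κ` is injective, `Finset.sum_image`).    For `Ra`: `N s = (Γ s).image (fun γ => -(γ/κ))`; the multiplicity hypothesis at `ζ` follows from `hmult (-ζ)` and `s5a_k0_neg`.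
 4. `∑'_ℓ (1+‖ℓ‖)^{-8} (1+|ℓ0|)(1+|ℓ1|) ≤ ∑'_ℓ (1+‖ℓ‖)^{-4} ≤ 16` (`|ℓ i| ≤ ‖ℓ‖`, `s4a_lat_tsum_le` with `ι = Fin 2`).      `C = 16 X8 · 2 Cχ² · 16`.
`s5a_je1`: `Γ s = {γ}`, `c = 1`, `𝔥 = 4` (`s5a_cnt1` with `x = 2π(ζ + γ/κ)`).
`s5a_qe`: `e(lam t² + γ t) = e(γ t) + (e(lam t²) - 1) e(γ t)`; first term `s5a_je1`; second term: `|e(lam t²) - 1| ≤ 2π |lam| t² ≤ 2π |lam| |I|²` on the support (`s5a_supp_t`, `s4a_ee_sub_le`), `s5a_sum_sup` with `e s = 2π |lam| (2^{-s})²`, `s5a_geo` (`n = 2`, `X = 2π D`): `∑_s e s ≤ 4π D`.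
   (`I.len = 2^(-I.depth)` by definition.)     `C = C_je1 + 13 Cw`.
-/
import Claimed.Agent.R258.S5a.Td
import Claimed.Agent.R258.S5a.Cnt
import Claimed.Agent.R258.S5a.Rows
import Claimed.Agent.R258.S4a.Br

set_option autoImplicit false
open MeasureTheory
open scoped ENNReal ContDiff ComplexConjugate

namespace Claimed.Agent.R258

/-- the rows `rw I k ν`, `ν ∈ N (depth I)`, applied to a sequence with the row bound `M` -/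
theorem s5a_je_rows {c0 : ℝ} (hc0 : 0 < c0) {Cχ : ℝ}
    (hχ : ∀ (I : Cell) (k : ℤ), s5a_Bump I (Cχ * (1 + |(k : ℝ)|)) (s5a_bump c0 I k))
    {J : Cell} {A : Finset Cell} (hA : ∀ I ∈ A, I ≤ J) (N : ℤ → Finset ℝ) (𝔥 : ℝ)
    (hmult : ∀ ζ : ℝ, ∑ s ∈ A.image Cell.depth, ∑ ν ∈ N s, s5a_k0 (2 * Real.pi * (2 : ℝ) ^ (-s) * (ζ + ν)) ≤ 𝔥)
    (f : Cell → ℝ → ℂ) (M : ℝ) (hf : s5a_SRow J f M) (k : ℤ) :
    ∑ I ∈ A, ∑ ν ∈ N I.depth, ‖s5a_rw c0 I k ν (f I)‖ ^ 2 ≤ 2 * (Cχ * (1 + |(k : ℝ)|)) ^ 2 * 𝔥 * M ^ 2 := by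
  classical
  have h𝔥 : 0 ≤ 𝔥 := le_trans (Finset.sum_nonneg fun s _ => Finset.sum_nonneg fun ν _ => s5a_k0_nonneg _) (hmult 0)
  set ρ : (Σ _ : Cell, ℝ) → ℝ → ℂ :=
    fun x y => (((Real.sqrt x.1.len)⁻¹ : ℝ) : ℂ) * (s5a_bump c0 x.1 k y * ee (x.2 * y)) with hρ
  have hint : ∀ (x : Σ _ : Cell, ℝ) (g : ℝ → ℂ), ∫ y, ρ x y * g y
      = (((Real.sqrt x.1.len)⁻¹ : ℝ) : ℂ) * ∫ u, s5a_bump c0 x.1 k u * ee (x.2 * u) * g u := by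
    intro x g
    rw [← integral_const_mul]
    congr 1; funext y
    simp only [hρ]; ring
  have key := hf.rows (Σ _ : Cell, ℝ) (A.sigma fun I => N I.depth) (fun x => x.1) ρ
    (2 * (Cχ * (1 + |(k : ℝ)|)) ^ 2 * 𝔥) (by positivity) (fun x hx => hA _ (Finset.mem_sigma.1 hx).1) ?_ ?_ ?_
  · rw [Finset.sum_sigma] at key
    refine le_trans (le_of_eq ?_) key
    refine Finset.sum_congr rfl fun I _ => Finset.sum_congr rfl fun ν _ => ?_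
    rw [hint]
    rfl
  · intro x _
    have hb := hχ x.1 k
    have hc : Continuous (ρ x) :=
      continuous_const.mul (hb.continuous.mul (wy_ee_continuous.comp (continuous_const.mul continuous_id)))
    exact hc.memLp_of_hasCompactSupport (hb.hasCompactSupport.mul_right.mul_left)
  · intro x _ y hy
    simp only [hρ]
    rw [(hχ x.1 k).eq_zero hy]
    simp
  · intro g hg
    rw [Finset.sum_sigma]
    have := s5a_mb A N 𝔥 hmult (fun I => s5a_bump c0 I k) (Cχ * (1 + |(k : ℝ)|)) (fun I _ => hχ I k)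
      (fun I _ => s5a_bump_int hc0 I k) g hg
    refine le_trans (le_of_eq ?_) this
    refine Finset.sum_congr rfl fun I _ => Finset.sum_congr rfl fun ν _ => ?_
    rw [hint]

theorem s5a_je_abs_le (ℓ : Fin 2 → ℤ) (i : Fin 2) : |((ℓ i : ℤ) : ℝ)| ≤ ‖ℓ‖ := by
  have := norm_le_pi_norm ℓ i
  rwa [Int.norm_eq_abs] at this

/-- **joint estimate**: scale dependent finite sets of centres with bounded frequency multiplicity `𝔥`, coefficients `≤ η` -/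
theorem s5a_je (c0 C0 : ℝ) : ∃ C : ℝ, 0 ≤ C ∧ ∀ {J : Cell} {A : Finset Cell} {w : Cell → ℝ × ℝ → ℂ} {a b : Fin 4},
    s5a_Std c0 C0 J A w a b → ∀ (Γ : ℤ → Finset ℝ) (c : Cell → ℝ → ℂ) (η 𝔥 : ℝ), 0 ≤ η →
    (∀ I ∈ A, ∀ γ ∈ Γ I.depth, ‖c I γ‖ ≤ η) →
    (∀ ζ : ℝ, ∑ s ∈ A.image Cell.depth, ∑ γ ∈ Γ s, s5a_k0 (2 * Real.pi * (2 : ℝ) ^ (-s) * (ζ + γ / s5a_kap a b)) ≤ 𝔥) →
    ∀ (f g : Cell → ℝ → ℂ) (Ma Mb : ℝ), s5a_SRow J f Ma → s5a_SRow J g Mb →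
      s5a_sum A w a b (fun I p => ∑ γ ∈ Γ I.depth, c I γ * ee (γ * p.2)) f g ≤ C * η * 𝔥 * Ma * Mb := by
  classical
  by_cases hc0 : 0 < c0
  swap
  · exact ⟨0, le_rfl, fun hS => absurd hS.c0_pos hc0⟩
  obtain ⟨Cχ, hCχ, hχ⟩ := s5a_bump_bump hc0
  refine ⟨512 * |s5a_X8 C0| * Cχ ^ 2, by positivity, ?_⟩
  intro J A w a b hS Γ c η 𝔥 hη hc hmult f g Ma Mb hf hg
  have hC0 := hS.C0_ge
  have hab := hS.ne
  set κ : ℝ := s5a_kap a b with hκ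
  have hκ0 : κ ≠ 0 := s5a_kap_ne hab
  have hκ1 : 1 ≤ |κ| := s5a_one_le_abs_kap hab
  set X8 : ℝ := |s5a_X8 C0| with hX8
  have hX80 : 0 ≤ X8 := abs_nonneg _
  have h𝔥 : 0 ≤ 𝔥 := le_trans (Finset.sum_nonneg fun s _ => Finset.sum_nonneg fun ν _ => s5a_k0_nonneg _) (hmult 0)
  have hMa := hf.nonneg
  have hMb := hg.nonneg
  -- tensor decompositions
  have hex : ∀ I, ∃ AI : (Fin 2 → ℤ) → ℂ, I ∈ A → ((∀ ℓ, ‖AI ℓ‖ * (1 + ‖ℓ‖) ^ 8 ≤ 16 * s5a_X8 C0) ∧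
      ∀ (γ : ℝ) (f g : ℝ → ℂ), MemLp f 2 volume → MemLp g 2 volume →
        HasSum (fun ℓ => AI ℓ * ((|s5a_kap a b|⁻¹ : ℝ) : ℂ) * s5a_rw c0 I (ℓ 0) (-(γ / s5a_kap a b)) f *
            s5a_rw c0 I (ℓ 1) (γ / s5a_kap a b) g)
          ((I.len : ℂ) * s5a_formG I (w I) a b (fun p => ee (γ * p.2)) f g)) := by
    intro I
    by_cases hI : I ∈ A
    · obtain ⟨AI, h1, h2⟩ := s5a_td_form hc0 hC0 (hS.adm I hI) hab
      exact ⟨AI, fun _ => ⟨h1, h2⟩⟩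
    · exact ⟨0, fun h => absurd h hI⟩
  choose AI hAI using hex
  set ra : Cell → ℝ → ℤ → ℝ := fun I γ k => ‖s5a_rw c0 I k (-(γ / κ)) (f I)‖ with hra
  set rb : Cell → ℝ → ℤ → ℝ := fun I γ k => ‖s5a_rw c0 I k (γ / κ) (g I)‖ with hrb
  set T : Cell → ℝ → (Fin 2 → ℤ) → ℂ := fun I γ ℓ => AI I ℓ * ((|κ|⁻¹ : ℝ) : ℂ) *
    s5a_rw c0 I (ℓ 0) (-(γ / κ)) (f I) * s5a_rw c0 I (ℓ 1) (γ / κ) (g I) with hT
  have hTsum : ∀ I ∈ A, ∀ γ, HasSum (T I γ)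
      ((I.len : ℂ) * s5a_formG I (w I) a b (fun p => ee (γ * p.2)) (f I) (g I)) :=
    fun I hI γ => (hAI I hI).2 γ (f I) (g I) (hf.mem I) (hg.mem I)
  have hTn : ∀ I ∈ A, ∀ γ, Summable fun ℓ => ‖T I γ ℓ‖ := fun I hI γ => (hTsum I hI γ).summable.norm
  -- step 1: one cell
  have h1 : ∀ I ∈ A, I.len * ‖s5a_formG I (w I) a b (fun p => ∑ γ ∈ Γ I.depth, c I γ * ee (γ * p.2)) (f I) (g I)‖
      ≤ ∑ γ ∈ Γ I.depth, η * ∑' ℓ, ‖T I γ ℓ‖ := by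
    intro I hI
    rw [s5a_formG_sum hc0 (hS.adm I hI) hab (Γ I.depth) (c I) (fun γ p => ee (γ * p.2))
      (fun γ _ => (wy_ee_continuous.comp (continuous_const.mul continuous_snd)).measurable) 1
      (fun γ _ p => (wy_ee_norm _).le) (f I) (g I) (hf.mem I) (hg.mem I)]
    calc I.len * ‖∑ γ ∈ Γ I.depth, c I γ * s5a_formG I (w I) a b (fun p => ee (γ * p.2)) (f I) (g I)‖
        ≤ I.len * ∑ γ ∈ Γ I.depth, ‖c I γ * s5a_formG I (w I) a b (fun p => ee (γ * p.2)) (f I) (g I)‖ :=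
          mul_le_mul_of_nonneg_left (norm_sum_le _ _) (cell_len_nonneg I)
      _ = ∑ γ ∈ Γ I.depth, ‖c I γ‖ * ‖(I.len : ℂ) * s5a_formG I (w I) a b (fun p => ee (γ * p.2)) (f I) (g I)‖ := by
          rw [Finset.mul_sum]
          refine Finset.sum_congr rfl fun γ _ => ?_
          rw [norm_mul, norm_mul, Complex.norm_real, Real.norm_of_nonneg (cell_len_nonneg I)]
          ring
      _ ≤ ∑ γ ∈ Γ I.depth, η * ∑' ℓ, ‖T I γ ℓ‖ := by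
          refine Finset.sum_le_sum fun γ hγ => ?_
          rw [← (hTsum I hI γ).tsum_eq]
          exact mul_le_mul (hc I hI γ hγ) (norm_tsum_le_tsum_norm (hTn I hI γ)) (norm_nonneg _) hη
  -- the rows
  have hRa : ∀ k : ℤ, ∑ I ∈ A, ∑ γ ∈ Γ I.depth, ra I γ k ^ 2 ≤ 2 * (Cχ * (1 + |(k : ℝ)|)) ^ 2 * 𝔥 * Ma ^ 2 := by
    intro k
    have hinj : ∀ s : ℤ, Set.InjOn (fun γ : ℝ => -(γ / κ)) (Γ s : Set ℝ) := by
      intro s x _ y _ hxy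
      have : x / κ = y / κ := neg_injective hxy
      exact (div_left_inj' hκ0).1 this
    have := s5a_je_rows hc0 hχ hS.le (fun s => (Γ s).image fun γ => -(γ / κ)) 𝔥 (fun ζ => by
      refine le_trans (le_of_eq ?_) (hmult (-ζ))
      refine Finset.sum_congr rfl fun s _ => ?_
      rw [Finset.sum_image (hinj s)]
      refine Finset.sum_congr rfl fun γ _ => ?_
      rw [← s5a_k0_neg]
      congr 1; ring) f Ma hf k
    refine le_trans (le_of_eq ?_) this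
    refine Finset.sum_congr rfl fun I _ => ?_
    rw [Finset.sum_image (hinj _)]
  have hRb : ∀ k : ℤ, ∑ I ∈ A, ∑ γ ∈ Γ I.depth, rb I γ k ^ 2 ≤ 2 * (Cχ * (1 + |(k : ℝ)|)) ^ 2 * 𝔥 * Mb ^ 2 := by
    intro k
    have hinj : ∀ s : ℤ, Set.InjOn (fun γ : ℝ => γ / κ) (Γ s : Set ℝ) := by
      intro s x _ y _ hxy
      exact (div_left_inj' hκ0).1 hxy
    have := s5a_je_rows hc0 hχ hS.le (fun s => (Γ s).image fun γ => γ / κ) 𝔥 (fun ζ => by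
      refine le_trans (le_of_eq ?_) (hmult ζ)
      refine Finset.sum_congr rfl fun s _ => ?_
      rw [Finset.sum_image (hinj s)]) g Mb hg k
    refine le_trans (le_of_eq ?_) this
    refine Finset.sum_congr rfl fun I _ => ?_
    rw [Finset.sum_image (hinj _)]
  -- step 2: one `ℓ`
  set K : ℝ := 32 * X8 * Cχ ^ 2 * 𝔥 * Ma * Mb with hK
  have hK0 : 0 ≤ K := by positivity
  have h2 : ∀ ℓ : Fin 2 → ℤ, ∑ I ∈ A, ∑ γ ∈ Γ I.depth, ‖T I γ ℓ‖ ≤ K * ((1 + ‖ℓ‖) ^ (2 * Fintype.card (Fin 2)))⁻¹ := by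
    intro ℓ
    set x : ℝ := 1 + ‖ℓ‖ with hx
    have hx1 : 1 ≤ x := by rw [hx]; linarith [norm_nonneg ℓ]
    have hx0 : 0 < x := by linarith
    have hterm : ∀ I ∈ A, ∀ γ ∈ Γ I.depth, ‖T I γ ℓ‖ ≤ 16 * X8 * (x ^ 8)⁻¹ * (ra I γ (ℓ 0) * rb I γ (ℓ 1)) := by
      intro I hI γ _
      have hA1 : ‖AI I ℓ‖ ≤ 16 * X8 * (x ^ 8)⁻¹ := by
        rw [← div_eq_mul_inv, le_div_iff₀ (by positivity)]
        exact ((hAI I hI).1 ℓ).trans (mul_le_mul_of_nonneg_left (le_abs_self _) (by norm_num))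
      have hk : ‖((|κ|⁻¹ : ℝ) : ℂ)‖ ≤ 1 := by
        rw [Complex.norm_real, Real.norm_of_nonneg (by positivity)]
        exact inv_le_one_of_one_le₀ hκ1
      simp only [hT, norm_mul]
      calc ‖AI I ℓ‖ * ‖((|κ|⁻¹ : ℝ) : ℂ)‖ * ra I γ (ℓ 0) * rb I γ (ℓ 1)
          ≤ (16 * X8 * (x ^ 8)⁻¹) * 1 * ra I γ (ℓ 0) * rb I γ (ℓ 1) := by
            apply mul_le_mul_of_nonneg_right _ (norm_nonneg _)
            apply mul_le_mul_of_nonneg_right _ (norm_nonneg _)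
            exact mul_le_mul hA1 hk (norm_nonneg _) (by positivity)
        _ = 16 * X8 * (x ^ 8)⁻¹ * (ra I γ (ℓ 0) * rb I γ (ℓ 1)) := by ring
    have hCS : ∑ I ∈ A, ∑ γ ∈ Γ I.depth, ra I γ (ℓ 0) * rb I γ (ℓ 1)
        ≤ 2 * Cχ ^ 2 * x ^ 2 * 𝔥 * Ma * Mb := by
      rw [← Finset.sum_sigma A (fun I => Γ I.depth) (fun y => ra y.1 y.2 (ℓ 0) * rb y.1 y.2 (ℓ 1))]
      refine (Real.sum_mul_le_sqrt_mul_sqrt _ _ _).trans ?_
      rw [Finset.sum_sigma, Finset.sum_sigma]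
      have a0 : 0 ≤ ∑ I ∈ A, ∑ γ ∈ Γ I.depth, ra I γ (ℓ 0) ^ 2 :=
        Finset.sum_nonneg fun _ _ => Finset.sum_nonneg fun _ _ => sq_nonneg _
      have b0 : 0 ≤ ∑ I ∈ A, ∑ γ ∈ Γ I.depth, rb I γ (ℓ 1) ^ 2 :=
        Finset.sum_nonneg fun _ _ => Finset.sum_nonneg fun _ _ => sq_nonneg _
      have l0 : 1 + |((ℓ 0 : ℤ) : ℝ)| ≤ x := by rw [hx]; linarith [s5a_je_abs_le ℓ 0]
      have l1 : 1 + |((ℓ 1 : ℤ) : ℝ)| ≤ x := by rw [hx]; linarith [s5a_je_abs_le ℓ 1]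
      have hCχ0 : 0 ≤ Cχ := by linarith
      have a1 : ∑ I ∈ A, ∑ γ ∈ Γ I.depth, ra I γ (ℓ 0) ^ 2 ≤ 2 * (Cχ * x) ^ 2 * 𝔥 * Ma ^ 2 := by
        refine (hRa (ℓ 0)).trans ?_
        have : (Cχ * (1 + |((ℓ 0 : ℤ) : ℝ)|)) ^ 2 ≤ (Cχ * x) ^ 2 :=
          pow_le_pow_left₀ (by positivity) (mul_le_mul_of_nonneg_left l0 hCχ0) 2
        have h3 : 0 ≤ 𝔥 * Ma ^ 2 := by positivity
        nlinarith
      have b1 : ∑ I ∈ A, ∑ γ ∈ Γ I.depth, rb I γ (ℓ 1) ^ 2 ≤ 2 * (Cχ * x) ^ 2 * 𝔥 * Mb ^ 2 := by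
        refine (hRb (ℓ 1)).trans ?_
        have : (Cχ * (1 + |((ℓ 1 : ℤ) : ℝ)|)) ^ 2 ≤ (Cχ * x) ^ 2 :=
          pow_le_pow_left₀ (by positivity) (mul_le_mul_of_nonneg_left l1 hCχ0) 2
        have h3 : 0 ≤ 𝔥 * Mb ^ 2 := by positivity
        nlinarith
      rw [← Real.sqrt_mul a0, Real.sqrt_le_iff]
      refine ⟨by positivity, ?_⟩
      calc (∑ I ∈ A, ∑ γ ∈ Γ I.depth, ra I γ (ℓ 0) ^ 2) * ∑ I ∈ A, ∑ γ ∈ Γ I.depth, rb I γ (ℓ 1) ^ 2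
          ≤ (2 * (Cχ * x) ^ 2 * 𝔥 * Ma ^ 2) * (2 * (Cχ * x) ^ 2 * 𝔥 * Mb ^ 2) :=
            mul_le_mul a1 b1 b0 (by positivity)
        _ = (2 * Cχ ^ 2 * x ^ 2 * 𝔥 * Ma * Mb) ^ 2 := by ring
    calc ∑ I ∈ A, ∑ γ ∈ Γ I.depth, ‖T I γ ℓ‖
        ≤ ∑ I ∈ A, ∑ γ ∈ Γ I.depth, 16 * X8 * (x ^ 8)⁻¹ * (ra I γ (ℓ 0) * rb I γ (ℓ 1)) :=
          Finset.sum_le_sum fun I hI => Finset.sum_le_sum fun γ hγ => hterm I hI γ hγ
      _ = 16 * X8 * (x ^ 8)⁻¹ * ∑ I ∈ A, ∑ γ ∈ Γ I.depth, ra I γ (ℓ 0) * rb I γ (ℓ 1) := by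
          simp only [Finset.mul_sum]
      _ ≤ 16 * X8 * (x ^ 8)⁻¹ * (2 * Cχ ^ 2 * x ^ 2 * 𝔥 * Ma * Mb) :=
          mul_le_mul_of_nonneg_left hCS (by positivity)
      _ = K * ((x ^ 8)⁻¹ * x ^ 2) := by rw [hK]; ring
      _ ≤ K * (x ^ (2 * Fintype.card (Fin 2)))⁻¹ := by
          refine mul_le_mul_of_nonneg_left ?_ hK0
          have e : (x ^ 8)⁻¹ * x ^ 2 = (x ^ 6)⁻¹ := by field_simp
          rw [e, Fintype.card_fin]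
          exact inv_anti₀ (by positivity) (pow_le_pow_right₀ hx1 (by norm_num))
  -- step 3: sum over `ℓ`
  have hBs : Summable fun ℓ : Fin 2 → ℤ => ∑ I ∈ A, ∑ γ ∈ Γ I.depth, ‖T I γ ℓ‖ :=
    summable_sum fun I hI => summable_sum fun γ _ => hTn I hI γ
  have hLs : Summable fun ℓ : Fin 2 → ℤ => K * ((1 + ‖ℓ‖) ^ (2 * Fintype.card (Fin 2)))⁻¹ :=
    s4a_lat_summable.mul_left K
  have h3 : ∑' ℓ : Fin 2 → ℤ, ∑ I ∈ A, ∑ γ ∈ Γ I.depth, ‖T I γ ℓ‖ ≤ K * 16 := by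
    refine (hBs.tsum_le_tsum h2 hLs).trans ?_
    rw [tsum_mul_left]
    refine mul_le_mul_of_nonneg_left ?_ hK0
    have := s4a_lat_tsum_le (ι := Fin 2)
    rw [Fintype.card_fin] at this ⊢
    norm_num at this ⊢
    exact this
  have h4 : ∑ I ∈ A, ∑ γ ∈ Γ I.depth, ∑' ℓ, ‖T I γ ℓ‖ = ∑' ℓ : Fin 2 → ℤ, ∑ I ∈ A, ∑ γ ∈ Γ I.depth, ‖T I γ ℓ‖ := by
    rw [Summable.tsum_finsetSum fun I hI => summable_sum fun γ _ => hTn I hI γ]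
    exact Finset.sum_congr rfl fun I hI => (Summable.tsum_finsetSum fun γ _ => hTn I hI γ).symm
  unfold s5a_sum
  calc ∑ I ∈ A, I.len * ‖s5a_formG I (w I) a b (fun p => ∑ γ ∈ Γ I.depth, c I γ * ee (γ * p.2)) (f I) (g I)‖
      ≤ ∑ I ∈ A, ∑ γ ∈ Γ I.depth, η * ∑' ℓ, ‖T I γ ℓ‖ := Finset.sum_le_sum h1
    _ = η * ∑ I ∈ A, ∑ γ ∈ Γ I.depth, ∑' ℓ, ‖T I γ ℓ‖ := by simp only [Finset.mul_sum]
    _ ≤ η * (K * 16) := by rw [h4]; exact mul_le_mul_of_nonneg_left h3 hη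
    _ = 512 * X8 * Cχ ^ 2 * η * 𝔥 * Ma * Mb := by rw [hK]; ring

/-- one fixed linear phase -/
theorem s5a_je1 (c0 C0 : ℝ) : ∃ C : ℝ, 0 ≤ C ∧ ∀ {J : Cell} {A : Finset Cell} {w : Cell → ℝ × ℝ → ℂ} {a b : Fin 4},
    s5a_Std c0 C0 J A w a b → ∀ (γ : ℝ) (f g : Cell → ℝ → ℂ) (Ma Mb : ℝ), s5a_SRow J f Ma → s5a_SRow J g Mb →
      s5a_sum A w a b (fun _ p => ee (γ * p.2)) f g ≤ C * Ma * Mb := by
  obtain ⟨C, hC, H⟩ := s5a_je c0 C0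
  refine ⟨C * 1 * 4, by positivity, ?_⟩
  intro J A w a b hS γ f g Ma Mb hf hg
  have h := H hS (fun _ => {γ}) (fun _ _ => 1) 1 4 zero_le_one (fun _ _ _ _ => by simp) (fun ζ => by
    simp only [Finset.sum_singleton]
    have := s5a_cnt1 (A.image Cell.depth) (2 * Real.pi * (ζ + γ / s5a_kap a b))
    refine le_trans (le_of_eq ?_) this
    refine Finset.sum_congr rfl fun s _ => ?_
    congr 1; ring) f g Ma Mb hf hg
  simpa only [Finset.sum_singleton, one_mul] using h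

/-- one fixed quadratic phase on the scales with `|lam| |I|² ≤ D` -/
theorem s5a_qe (c0 C0 : ℝ) : ∃ C : ℝ, 0 ≤ C ∧ ∀ {J : Cell} {A : Finset Cell} {w : Cell → ℝ × ℝ → ℂ} {a b : Fin 4},
    s5a_Std c0 C0 J A w a b → ∀ (lam γ D : ℝ), 0 ≤ D → (∀ I ∈ A, |lam| * I.len ^ 2 ≤ D) →
    ∀ (f g : Cell → ℝ → ℂ) (Ma Mb : ℝ), s5a_SRow J f Ma → s5a_SRow J g Mb →
      s5a_sum A w a b (fun _ p => ee (lam * p.2 ^ 2 + γ * p.2)) f g ≤ C * (1 + D) * Ma * Mb := by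
  classical
  obtain ⟨C1, hC1, H1⟩ := s5a_je1 c0 C0
  refine ⟨C1 + 13 * |s5a_Cw C0|, by positivity, ?_⟩
  intro J A w a b hS lam γ D hD hlam f g Ma Mb hf hg
  have hMa := hf.nonneg
  have hMb := hg.nonneg
  have hpi := Real.pi_pos
  have hCw : s5a_Cw C0 ≤ |s5a_Cw C0| := le_abs_self _
  have hcont1 : Continuous fun p : ℝ × ℝ => ee (γ * p.2) := wy_ee_continuous.comp (continuous_const.mul continuous_snd)
  have hcont2 : Continuous fun p : ℝ × ℝ => ee (lam * p.2 ^ 2) :=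
    wy_ee_continuous.comp (continuous_const.mul (continuous_snd.pow 2))
  have htri := s5a_sum_tri hS (fun _ p => ee (lam * p.2 ^ 2 + γ * p.2)) (fun _ p => ee (γ * p.2))
    (fun _ p => (ee (lam * p.2 ^ 2) - 1) * ee (γ * p.2)) (fun _ _ => 0) (fun _ => hcont1.measurable)
    (fun _ => ((hcont2.sub continuous_const).mul hcont1).measurable) (fun _ => measurable_const) 2
    (fun _ p => by rw [wy_ee_norm]; norm_num)
    (fun _ p => by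
      rw [norm_mul, wy_ee_norm, mul_one]
      refine (norm_sub_le _ _).trans ?_
      rw [wy_ee_norm, norm_one]; norm_num)
    (fun _ _ => by simp)
    (fun I _ p _ => by rw [wy_ee_add]; ring) f g hf.mem hg.mem
  have h1 := H1 hS γ f g Ma Mb hf hg
  have h2 := s5a_sum_sup hS (fun _ p => (ee (lam * p.2 ^ 2) - 1) * ee (γ * p.2))
    (fun s => 2 * Real.pi * |lam| * ((2 : ℝ) ^ (-s)) ^ 2) (fun s => by positivity) (fun I hI p hp => by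
      rw [norm_mul, wy_ee_norm, mul_one]
      refine (wy_ee_sub_one _).trans ?_
      have ht := s5a_supp_t (hS.adm I hI) hS.c0_pos hp
      have hlen := cell_len_pos I
      have ht2 : p.2 ^ 2 ≤ I.len ^ 2 := by
        rw [← sq_abs]
        exact pow_le_pow_left₀ (abs_nonneg _) (by linarith) 2
      have e : (2 : ℝ) ^ (-I.depth) = I.len := rfl
      rw [e, abs_mul, abs_of_nonneg (sq_nonneg p.2), mul_assoc (2 * Real.pi)]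
      exact mul_le_mul_of_nonneg_left (mul_le_mul_of_nonneg_left ht2 (abs_nonneg _)) (by positivity)) f g Ma Mb hf hg
  have h3 := s5a_sum_sup hS (fun _ _ => (0 : ℂ)) (fun _ => 0) (fun _ => le_rfl) (fun _ _ _ _ => by simp) f g Ma Mb hf hg
  have hgeo := s5a_geo (A.image Cell.depth) (2 * Real.pi * |lam|) (2 * Real.pi * D) 2 (by norm_num) (by positivity)
    (by positivity) (fun s hs => by
      obtain ⟨I, hI, rfl⟩ := Finset.mem_image.1 hs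
      have e : (2 : ℝ) ^ (-I.depth) = I.len := rfl
      rw [e, mul_assoc]
      exact mul_le_mul_of_nonneg_left (hlam I hI) (by positivity))
  simp only [Finset.sum_const_zero, mul_zero, zero_mul] at h3
  have hMM : 0 ≤ Ma * Mb := mul_nonneg hMa hMb
  have hsum0 : 0 ≤ ∑ s ∈ A.image Cell.depth, 2 * Real.pi * |lam| * ((2 : ℝ) ^ (-s)) ^ 2 :=
    Finset.sum_nonneg fun s _ => by positivity
  have h2' : s5a_sum A w a b (fun _ p => (ee (lam * p.2 ^ 2) - 1) * ee (γ * p.2)) f g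
      ≤ |s5a_Cw C0| * (13 * D) * (Ma * Mb) := by
    refine h2.trans ?_
    rw [mul_assoc (s5a_Cw C0 * _)]
    refine mul_le_mul_of_nonneg_right ?_ hMM
    have hpi4 := Real.pi_lt_d2
    have : ∑ s ∈ A.image Cell.depth, 2 * Real.pi * |lam| * ((2 : ℝ) ^ (-s)) ^ 2 ≤ 13 * D := by nlinarith
    exact mul_le_mul hCw this hsum0 (abs_nonneg _)
  have hfin : C1 * Ma * Mb + |s5a_Cw C0| * (13 * D) * (Ma * Mb) ≤ (C1 + 13 * |s5a_Cw C0|) * (1 + D) * Ma * Mb := by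
    have e : (C1 + 13 * |s5a_Cw C0|) * (1 + D) * Ma * Mb - (C1 * Ma * Mb + |s5a_Cw C0| * (13 * D) * (Ma * Mb))
        = (C1 * D + 13 * |s5a_Cw C0|) * (Ma * Mb) := by ring
    have : 0 ≤ (C1 * D + 13 * |s5a_Cw C0|) * (Ma * Mb) := by positivity
    linarith
  linarith

end Claimed.Agent.R258
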