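/-
Row 258, block [S5a] (architect helper192).  FILE Band: **one band of scales with one structure** (base.tex l.100-232, reorganized).
Leaves: P-S5a-BL0 (section BL0), P-S5a-BL1 (`s5a_tail`), P-S5a-BL2 (`s5a_repl_err`), P-S5a-BL3 (`s5a_repl_main`), P-S5a-BL4 (`s5a_clump_coef`).      No paper.
Uses the STATEMENTS of Str.lean, Je.lean, Rows.lean, Cnt.lean, Hb.lean, Clump.lean, Form.lean.

SETTING.  `hStr : s5a_Str Q D r₁ lam R al`:  `Q(t) = ∑_l al_l e(lam t² + (β + σ_l) t)` for `|t| ≤ 2 r₁`;  all cells have `|I| ≤ r₁`;  `r = |I| = 2^{-s}`, `s = depth I`.  A box size `T ≥ 1`, a small `ε`.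
At a GOOD depth `s` (`s5a_Good`): `|lam| r² < ε` and the centres `σ_l`, `l ∈ box T`, fall into clumps of `r`-diameter `< ε` which are `1/ε`-separated: `s5a_Rep Q R T ε s rep` (`rep l` = representative of the clump of `l`).
      `Q(t) = G1 + G2 + G3`,    `G1 = ∑_{l ∈ box} al_l e((β + σ_{rep l}) t)`  (main part),   `G2 = ∑_{l ∈ box} al_l (e(lam t² + (β+σ_l)t) - e((β+σ_{rep l})t))`  (replacement error),   `G3 = e(lam t² + β t) ∑_{l ∉ box} al_l e(σ_l t)` (tail).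
PLANS.
BL0. `s5a_rep_exists`: `s5a_clump` with `L = box T`, `σ = s5a_sig Q R`, `r = 2^{-s}`; the dichotomy is `s5a_Good.2` for `k = l - l'` (`s5a_box_sub`, `s5a_sig_sub`).
   `s5a_tl_*`: the series is dominated by `‖c_l‖`, `c_l = if l ∈ box then 0 else al_l` (`s5a_Str.tail_summ`, `tail_le`): `norm_tsum_le_tsum_norm`; continuity: `continuous_tsum` (each term continuous: `xv_ee_continuous`).
   `s5a_split`: `s5a_Str.hasSum`; `HasSum.tsum_eq`; split `al_l = (if l ∈ box then al_l else 0) + c_l`; the first series is the finite sum (`hasSum_sum_of_ne_finset_zero`/`tsum_eq_sum`); `ee (x + y) = ee x * ee y`.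
   Bounds: `‖G1‖ ≤ D`, `‖G2‖ ≤ 2D`, `‖G3‖ ≤ D` (`s5a_Str.box_le`, `sum0_le`, `‖ee _‖ = 1`); measurability: continuity in `p.2`.
   `s5a_G2_le`: `|e(x) - e(y)| ≤ 2π|x - y|` (`s4a_ee_sub_le`), `x - y = lam t² + (σ_l - σ_{rep l}) t`.
BL1. `s5a_sum_tsum` with `ι = Fin Q.d → ℤ`, `c = c_l`, `Gs l p = e(lam t² + (β+σ_l) t)`, `X l = C_qe (1 + D) Ma Mb` (`s5a_qe`, `|lam| |I|² ≤ D` by `s5a_Str.lam_len`); `HasSum` of `c_l Gs_l` to `G3` (summable norms; `tsum_mul_left`); `∑' ‖c_l‖ ≤ D/T`.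
BL2. `s5a_sum_sup` with `e s = 2π D (|lam| (2^{-s})² + ∑_{k ∈ box 2T, 2^{-s}|σ_k| < ε} 2^{-s} |σ_k|)`.  On the support `|t| ≤ |I|/3 ≤ r` (`s5a_supp_t`): by `s5a_G2_le`, `‖G2‖ ≤ ∑_l ‖al_l‖ 2π (|lam| r² + r|σ_l - σ_{rep l}|)`, and `r|σ_l - σ_{rep l}| = r|σ_k|`, `k = l - rep l ∈ box 2T`,
   is one of the terms of the sum over `k` (`Finset.single_le_sum`).   Sum over the depths `S = A.image depth`: `∑_s |lam| (2^{-s})² ≤ 2ε` (`s5a_geo`, `n = 2`, `X = ε`); for each `k`: `∑_{s ∈ S, 2^{-s}|σ_k| < ε} 2^{-s}|σ_k| ≤ 2ε` (`s5a_geo`, `n = 1`, on the filtered set; `Finset.sum_comm`, `Finset.sum_filter`).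
BL3. `G1 = ∑_{γ ∈ Γ s} c_s(γ) e(γ t)`, `Γ s = (box T).image (fun l => β + σ_{rep s l})`, `c_s(γ) = ∑_{l ∈ box, β + σ_{rep s l} = γ} al_l` (`Finset.sum_fiberwise_of_maps_to`/`Finset.sum_image'`).   Apply `s5a_je` with `η = δ`, `𝔥 = 200 NH`:
   multiplicity by `s5a_cnt` with `N s = (Γ s).image (· / κ)` (`Finset.sum_image`, injective): separation: `γ ≠ γ'` in `Γ s` come from `rep l ≠ rep l'`, so `2^{-s}|γ - γ'| > 1/ε ≥ 3 ≥ |κ|`; shell count: the set of depths is contained in the set of `s5a_shell_count` (`rep s l ∈ box T`), `Set.ncard_le_ncard`, `Set.ncard_coe_finset`.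
   (For depths `s ∉ A.image depth` nothing is needed: all hypotheses of `s5a_cnt` are restricted to `S`.)
BL4. `s5a_coef_bound` with `r = 2^{-s}`, `Γ = Γ s`, `c = c_s`, `η = D/T + 12π D ε`: for `|t| ≤ 2r ≤ 2r₁`: `Q(t) - G1 = G2 + G3`, `‖G3‖ ≤ D/T`, `‖G2‖ ≤ D 2π (|lam| 4r² + 2r|σ_l - σ_rep|) ≤ 12π D ε`.   `∑_γ ‖c_s γ‖ ≤ ∑_l ‖al_l‖ ≤ D`.
   `2‖c γ₀‖ ≤ δ + 4 D/T + 48π D ε + Cζ ε D ≤ δ + δ/4 + δ/2 ≤ 2δ`.     For `γ ∉ Γ s` the filter is empty.
-/
import Claimed.Agent.R258.S5a.Str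
import Claimed.Agent.R258.S5a.Je

set_option autoImplicit false
open MeasureTheory
open scoped ENNReal ContDiff ComplexConjugate

namespace Claimed.Agent.R258

/-- representatives of the clumps of the centres `σ_l`, `l ∈ box T`, at the depth `s` -/
structure s5a_Rep (Q : Chart) (R T : ℕ) (ε : ℝ) (s : ℤ) (rep : (Fin Q.d → ℤ) → (Fin Q.d → ℤ)) : Prop where
  mem : ∀ l ∈ s5a_box Q.d T, rep l ∈ s5a_box Q.d T
  near : ∀ l ∈ s5a_box Q.d T, (2 : ℝ) ^ (-s) * |s5a_sig Q R l - s5a_sig Q R (rep l)| < ε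
  far : ∀ l ∈ s5a_box Q.d T, ∀ l' ∈ s5a_box Q.d T, rep l ≠ rep l' →
    1 / ε < (2 : ℝ) ^ (-s) * |s5a_sig Q R (rep l) - s5a_sig Q R (rep l')|

/-- the tail series `∑_{l ∉ box T} al_l e(σ_l t)` -/
noncomputable def s5a_tl (Q : Chart) (R : ℕ) (al : (Fin Q.d → ℤ) → ℂ) (T : ℕ) (t : ℝ) : ℂ :=
  ∑' l, (if l ∈ s5a_box Q.d T then 0 else al l) * ee (s5a_sig Q R l * t)

/-- main part -/
noncomputable def s5a_G1 (Q : Chart) (R : ℕ) (al : (Fin Q.d → ℤ) → ℂ) (T : ℕ) (rep : (Fin Q.d → ℤ) → (Fin Q.d → ℤ))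
    (p : ℝ × ℝ) : ℂ :=
  ∑ l ∈ s5a_box Q.d T, al l * ee ((Q.bet + s5a_sig Q R (rep l)) * p.2)

/-- replacement error -/
noncomputable def s5a_G2 (Q : Chart) (lam : ℝ) (R : ℕ) (al : (Fin Q.d → ℤ) → ℂ) (T : ℕ)
    (rep : (Fin Q.d → ℤ) → (Fin Q.d → ℤ)) (p : ℝ × ℝ) : ℂ :=
  ∑ l ∈ s5a_box Q.d T, al l * (ee (lam * p.2 ^ 2 + (Q.bet + s5a_sig Q R l) * p.2) - ee ((Q.bet + s5a_sig Q R (rep l)) * p.2))

/-- tail -/
noncomputable def s5a_G3 (Q : Chart) (lam : ℝ) (R : ℕ) (al : (Fin Q.d → ℤ) → ℂ) (T : ℕ) (p : ℝ × ℝ) : ℂ :=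
  ee (lam * p.2 ^ 2 + Q.bet * p.2) * s5a_tl Q R al T p.2

/-- the clump coefficient of the centre `γ` -/
noncomputable def s5a_cc (Q : Chart) (R : ℕ) (al : (Fin Q.d → ℤ) → ℂ) (T : ℕ) (rep : (Fin Q.d → ℤ) → (Fin Q.d → ℤ))
    (γ : ℝ) : ℂ :=
  ∑ l ∈ (s5a_box Q.d T).filter (fun l => Q.bet + s5a_sig Q R (rep l) = γ), al l

section BL0
variable {Q : Chart} {D r₁ lam : ℝ} {R : ℕ} {al : (Fin Q.d → ℤ) → ℂ}

theorem s5a_rep_exists (Q : Chart) (R T : ℕ) (lam ε : ℝ) (s : ℤ) (hε : 0 < ε) (hε1 : ε ≤ 1 / 2)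
    (h : s5a_Good Q R lam T ε s) : ∃ rep, s5a_Rep Q R T ε s rep := by
  obtain ⟨rep, h1, h2⟩ := s5a_clump (s5a_box Q.d T) (s5a_sig Q R) ((2 : ℝ) ^ (-s)) ε hε hε1 (by
    intro l hl l' hl'
    have := h.2 (l - l') (s5a_box_sub hl hl')
    rwa [s5a_sig_sub] at this)
  exact ⟨rep, fun l hl => (h1 l hl).1, fun l hl => (h1 l hl).2, h2⟩

theorem s5a_tl_term_norm (Q : Chart) (R : ℕ) (al : (Fin Q.d → ℤ) → ℂ) (T : ℕ) (t : ℝ) (l : Fin Q.d → ℤ) :
    ‖(if l ∈ s5a_box Q.d T then 0 else al l) * ee (s5a_sig Q R l * t)‖ =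
      ‖(if l ∈ s5a_box Q.d T then 0 else al l : ℂ)‖ := by
  rw [norm_mul, s4a_ee_norm, mul_one]

theorem s5a_tl_summable (h : s5a_Str Q D r₁ lam R al) (T : ℕ) (t : ℝ) :
    Summable fun l => (if l ∈ s5a_box Q.d T then 0 else al l) * ee (s5a_sig Q R l * t) := by
  refine Summable.of_norm ?_
  simp only [s5a_tl_term_norm]
  exact h.tail_summ T

theorem s5a_tl_le (h : s5a_Str Q D r₁ lam R al) (T : ℕ) (hT : 1 ≤ T) (t : ℝ) : ‖s5a_tl Q R al T t‖ ≤ D / T := by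
  unfold s5a_tl
  have hs : Summable fun l => ‖(if l ∈ s5a_box Q.d T then 0 else al l) * ee (s5a_sig Q R l * t)‖ := by
    simp only [s5a_tl_term_norm]
    exact h.tail_summ T
  refine (norm_tsum_le_tsum_norm hs).trans ?_
  simp only [s5a_tl_term_norm]
  exact h.tail_le T hT

theorem s5a_tl_continuous (h : s5a_Str Q D r₁ lam R al) (T : ℕ) : Continuous (s5a_tl Q R al T) := by
  unfold s5a_tl
  refine continuous_tsum (u := fun l => ‖(if l ∈ s5a_box Q.d T then 0 else al l : ℂ)‖) ?_ (h.tail_summ T) ?_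
  · intro l
    exact continuous_const.mul (s4a_ee_continuous.comp (continuous_const.mul continuous_id))
  · intro l t
    exact le_of_eq (s5a_tl_term_norm Q R al T t l)

theorem s5a_split (h : s5a_Str Q D r₁ lam R al) (T : ℕ) (rep : (Fin Q.d → ℤ) → (Fin Q.d → ℤ)) (p : ℝ × ℝ)
    (hp : |p.2| ≤ 2 * r₁) :
    Q.eval p.2 = s5a_G1 Q R al T rep p + s5a_G2 Q lam R al T rep p + s5a_G3 Q lam R al T p := by
  have h1 := h.hasSum hp
  have e12 : s5a_G1 Q R al T rep p + s5a_G2 Q lam R al T rep p =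
      ∑ l ∈ s5a_box Q.d T, al l * ee (lam * p.2 ^ 2 + (Q.bet + s5a_sig Q R l) * p.2) := by
    unfold s5a_G1 s5a_G2
    rw [← Finset.sum_add_distrib]
    refine Finset.sum_congr rfl fun l _ => ?_
    ring
  have h3 : HasSum (fun l => (if l ∈ s5a_box Q.d T then 0 else al l) *
      ee (lam * p.2 ^ 2 + (Q.bet + s5a_sig Q R l) * p.2)) (s5a_G3 Q lam R al T p) := by
    unfold s5a_G3 s5a_tl
    have := ((s5a_tl_summable h T p.2).hasSum).mul_left (ee (lam * p.2 ^ 2 + Q.bet * p.2))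
    refine s5a_f_hasSum_congr this fun l => ?_
    have : lam * p.2 ^ 2 + (Q.bet + s5a_sig Q R l) * p.2 = (lam * p.2 ^ 2 + Q.bet * p.2) + s5a_sig Q R l * p.2 := by
      ring
    rw [this, s4a_ee_add]
    ring
  have h2 : HasSum (fun l => (if l ∈ s5a_box Q.d T then al l else 0) *
      ee (lam * p.2 ^ 2 + (Q.bet + s5a_sig Q R l) * p.2))
      (∑ l ∈ s5a_box Q.d T, al l * ee (lam * p.2 ^ 2 + (Q.bet + s5a_sig Q R l) * p.2)) := by
    have e : ∑ l ∈ s5a_box Q.d T, al l * ee (lam * p.2 ^ 2 + (Q.bet + s5a_sig Q R l) * p.2) =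
        ∑ l ∈ s5a_box Q.d T, (if l ∈ s5a_box Q.d T then al l else 0) *
          ee (lam * p.2 ^ 2 + (Q.bet + s5a_sig Q R l) * p.2) :=
      Finset.sum_congr rfl fun l hl => by rw [if_pos hl]
    rw [e]
    refine hasSum_sum_of_ne_finset_zero ?_
    intro l hl
    rw [if_neg hl, zero_mul]
  rw [e12]
  refine h1.unique ?_
  refine s5a_f_hasSum_congr (h2.add h3) fun l => ?_
  by_cases hl : l ∈ s5a_box Q.d T <;> simp [hl]

theorem s5a_G1_meas (Q : Chart) (R : ℕ) (al : (Fin Q.d → ℤ) → ℂ) (T : ℕ) (rep : (Fin Q.d → ℤ) → (Fin Q.d → ℤ)) :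
    Measurable (s5a_G1 Q R al T rep) := by
  refine Continuous.measurable ?_
  unfold s5a_G1
  exact continuous_finsetSum _ fun l _ =>
    continuous_const.mul (s4a_ee_continuous.comp (continuous_const.mul continuous_snd))

theorem s5a_G2_meas (Q : Chart) (lam : ℝ) (R : ℕ) (al : (Fin Q.d → ℤ) → ℂ) (T : ℕ) (rep : (Fin Q.d → ℤ) → (Fin Q.d → ℤ)) :
    Measurable (s5a_G2 Q lam R al T rep) := by
  refine Continuous.measurable ?_
  unfold s5a_G2
  exact continuous_finsetSum _ fun l _ =>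
    continuous_const.mul ((s4a_ee_continuous.comp ((continuous_const.mul (continuous_snd.pow 2)).add
      (continuous_const.mul continuous_snd))).sub (s4a_ee_continuous.comp (continuous_const.mul continuous_snd)))

theorem s5a_G3_meas (h : s5a_Str Q D r₁ lam R al) (T : ℕ) : Measurable (s5a_G3 Q lam R al T) := by
  refine Continuous.measurable ?_
  unfold s5a_G3
  exact (s4a_ee_continuous.comp ((continuous_const.mul (continuous_snd.pow 2)).add
      (continuous_const.mul continuous_snd))).mul ((s5a_tl_continuous h T).comp continuous_snd)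

theorem s5a_G1_bd (h : s5a_Str Q D r₁ lam R al) (T : ℕ) (rep : (Fin Q.d → ℤ) → (Fin Q.d → ℤ)) (p : ℝ × ℝ) :
    ‖s5a_G1 Q R al T rep p‖ ≤ 2 * D := by
  have hD := h.one_le
  unfold s5a_G1
  calc ‖∑ l ∈ s5a_box Q.d T, al l * ee ((Q.bet + s5a_sig Q R (rep l)) * p.2)‖
      ≤ ∑ l ∈ s5a_box Q.d T, ‖al l‖ := by
        refine (norm_sum_le _ _).trans (Finset.sum_le_sum fun l _ => ?_)
        rw [norm_mul, s4a_ee_norm, mul_one]
    _ ≤ D := h.box_le _
    _ ≤ 2 * D := by linarith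

theorem s5a_G2_bd (h : s5a_Str Q D r₁ lam R al) (T : ℕ) (rep : (Fin Q.d → ℤ) → (Fin Q.d → ℤ)) (p : ℝ × ℝ) :
    ‖s5a_G2 Q lam R al T rep p‖ ≤ 2 * D := by
  unfold s5a_G2
  calc ‖∑ l ∈ s5a_box Q.d T, al l * (ee (lam * p.2 ^ 2 + (Q.bet + s5a_sig Q R l) * p.2) -
        ee ((Q.bet + s5a_sig Q R (rep l)) * p.2))‖
      ≤ ∑ l ∈ s5a_box Q.d T, ‖al l‖ * 2 := by
        refine (norm_sum_le _ _).trans (Finset.sum_le_sum fun l _ => ?_)
        rw [norm_mul]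
        refine mul_le_mul_of_nonneg_left ?_ (norm_nonneg _)
        refine (norm_sub_le _ _).trans ?_
        rw [s4a_ee_norm, s4a_ee_norm]
        norm_num
    _ = 2 * ∑ l ∈ s5a_box Q.d T, ‖al l‖ := by rw [← Finset.sum_mul, mul_comm]
    _ ≤ 2 * D := by
        have := h.box_le (s5a_box Q.d T)
        linarith

theorem s5a_G3_bd (h : s5a_Str Q D r₁ lam R al) (T : ℕ) (p : ℝ × ℝ) : ‖s5a_G3 Q lam R al T p‖ ≤ 2 * D := by
  have hD := h.one_le
  unfold s5a_G3 s5a_tl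
  rw [norm_mul, s4a_ee_norm, one_mul]
  have e : ∀ l, ‖(if l ∈ s5a_box Q.d T then 0 else al l) * ee (s5a_sig Q R l * p.2)‖ =
      ‖(if l ∈ s5a_box Q.d T then 0 else al l : ℂ)‖ := fun l => by rw [norm_mul, s4a_ee_norm, mul_one]
  have hs : Summable fun l => ‖(if l ∈ s5a_box Q.d T then 0 else al l) * ee (s5a_sig Q R l * p.2)‖ := by
    simp only [e]
    exact h.tail_summ T
  refine (norm_tsum_le_tsum_norm hs).trans ?_
  simp only [e]
  have : ∑' l, ‖(if l ∈ s5a_box Q.d T then 0 else al l : ℂ)‖ ≤ ∑' l, ‖al l‖ := by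
    refine (h.tail_summ T).tsum_le_tsum (fun l => ?_) h.summ0
    split_ifs
    · rw [norm_zero]; exact norm_nonneg _
    · exact le_rfl
  linarith [h.sum0_le]

/-- pointwise bound of the replacement error -/
theorem s5a_G2_le (Q : Chart) (lam : ℝ) (R : ℕ) (al : (Fin Q.d → ℤ) → ℂ) (T : ℕ) (rep : (Fin Q.d → ℤ) → (Fin Q.d → ℤ))
    (p : ℝ × ℝ) : ‖s5a_G2 Q lam R al T rep p‖ ≤ ∑ l ∈ s5a_box Q.d T, ‖al l‖ *
      (2 * Real.pi * (|lam| * p.2 ^ 2 + |s5a_sig Q R l - s5a_sig Q R (rep l)| * |p.2|)) := by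
  unfold s5a_G2
  refine (norm_sum_le _ _).trans (Finset.sum_le_sum fun l _ => ?_)
  rw [norm_mul]
  refine mul_le_mul_of_nonneg_left ?_ (norm_nonneg _)
  refine (s4a_ee_sub_le _ _).trans ?_
  refine mul_le_mul_of_nonneg_left ?_ (by positivity)
  have e : lam * p.2 ^ 2 + (Q.bet + s5a_sig Q R l) * p.2 - (Q.bet + s5a_sig Q R (rep l)) * p.2 =
      lam * p.2 ^ 2 + (s5a_sig Q R l - s5a_sig Q R (rep l)) * p.2 := by ring
  rw [e]
  refine (abs_add_le _ _).trans ?_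
  rw [abs_mul, abs_mul, abs_of_nonneg (sq_nonneg p.2)]

/-- the main part as a sum over the distinct centres -/
theorem s5a_G1_eq (Q : Chart) (R : ℕ) (al : (Fin Q.d → ℤ) → ℂ) (T : ℕ) (rep : (Fin Q.d → ℤ) → (Fin Q.d → ℤ)) (p : ℝ × ℝ) :
    s5a_G1 Q R al T rep p =
      ∑ γ ∈ (s5a_box Q.d T).image (fun l => Q.bet + s5a_sig Q R (rep l)), s5a_cc Q R al T rep γ * ee (γ * p.2) := by
  classical
  unfold s5a_G1 s5a_cc
  rw [← Finset.sum_fiberwise_of_maps_to (s := s5a_box Q.d T)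
    (t := (s5a_box Q.d T).image (fun l => Q.bet + s5a_sig Q R (rep l)))
    (g := fun l => Q.bet + s5a_sig Q R (rep l)) (fun l hl => Finset.mem_image_of_mem _ hl)]
  refine Finset.sum_congr rfl fun γ _ => ?_
  rw [Finset.sum_mul]
  refine Finset.sum_congr rfl fun l hl => ?_
  rw [(Finset.mem_filter.1 hl).2]

theorem s5a_cc_sum_le (h : s5a_Str Q D r₁ lam R al) (T : ℕ) (rep : (Fin Q.d → ℤ) → (Fin Q.d → ℤ)) :
    ∑ γ ∈ (s5a_box Q.d T).image (fun l => Q.bet + s5a_sig Q R (rep l)), ‖s5a_cc Q R al T rep γ‖ ≤ D := by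
  classical
  refine le_trans ?_ (h.box_le (s5a_box Q.d T))
  rw [← Finset.sum_fiberwise_of_maps_to (s := s5a_box Q.d T)
    (t := (s5a_box Q.d T).image (fun l => Q.bet + s5a_sig Q R (rep l)))
    (g := fun l => Q.bet + s5a_sig Q R (rep l)) (fun l hl => Finset.mem_image_of_mem _ hl)]
  exact Finset.sum_le_sum fun γ _ => norm_sum_le _ _

end BL0

theorem s5a_G3_hasSum {Q : Chart} {D r₁ lam : ℝ} {R : ℕ} {al : (Fin Q.d → ℤ) → ℂ} (h : s5a_Str Q D r₁ lam R al)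
    (T : ℕ) (p : ℝ × ℝ) :
    HasSum (fun l => (if l ∈ s5a_box Q.d T then 0 else al l) *
      ee (lam * p.2 ^ 2 + (Q.bet + s5a_sig Q R l) * p.2)) (s5a_G3 Q lam R al T p) := by
  have hs : Summable fun l => (if l ∈ s5a_box Q.d T then 0 else al l) * ee (s5a_sig Q R l * p.2) := by
    refine Summable.of_norm ?_
    have e : ∀ l, ‖(if l ∈ s5a_box Q.d T then 0 else al l) * ee (s5a_sig Q R l * p.2)‖ =
      ‖(if l ∈ s5a_box Q.d T then 0 else al l : ℂ)‖ := fun l => by rw [norm_mul, s4a_ee_norm, mul_one]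
    simp only [e]
    exact h.tail_summ T
  unfold s5a_G3 s5a_tl
  have := hs.hasSum.mul_left (ee (lam * p.2 ^ 2 + Q.bet * p.2))
  refine s5a_f_hasSum_congr this fun l => ?_
  have : lam * p.2 ^ 2 + (Q.bet + s5a_sig Q R l) * p.2 = (lam * p.2 ^ 2 + Q.bet * p.2) + s5a_sig Q R l * p.2 := by
    ring
  rw [this, s4a_ee_add]
  ring

/-- BL1: **the tail** -/
theorem s5a_tail (c0 C0 : ℝ) : ∃ C : ℝ, 0 ≤ C ∧ ∀ {J : Cell} {A : Finset Cell} {w : Cell → ℝ × ℝ → ℂ} {a b : Fin 4},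
    s5a_Std c0 C0 J A w a b → ∀ (Q : Chart) (D r₁ lam : ℝ) (R : ℕ) (al : (Fin Q.d → ℤ) → ℂ), s5a_Str Q D r₁ lam R al →
    (∀ I ∈ A, I.len ≤ r₁) → ∀ T : ℕ, 1 ≤ T → ∀ (f g : Cell → ℝ → ℂ) (Ma Mb : ℝ), s5a_SRow J f Ma → s5a_SRow J g Mb →
      s5a_sum A w a b (fun _ => s5a_G3 Q lam R al T) f g ≤ C * (D / T) * (1 + D) * Ma * Mb := by
  obtain ⟨C, hC0, hqe⟩ := s5a_qe c0 C0
  refine ⟨C, hC0, ?_⟩
  intro J A w a b hS Q D r₁ lam R al h hlen T hT f g Ma Mb hf hg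
  have hD : 0 ≤ D := zero_le_one.trans h.one_le
  have hMa := hf.nonneg
  have hMb := hg.nonneg
  have hX0 : 0 ≤ C * (1 + D) * Ma * Mb := by positivity
  set c : (Fin Q.d → ℤ) → ℂ := fun l => (if l ∈ s5a_box Q.d T then 0 else al l : ℂ) with hc
  set Gs : (Fin Q.d → ℤ) → ℝ × ℝ → ℂ := fun l p => ee (lam * p.2 ^ 2 + (Q.bet + s5a_sig Q R l) * p.2) with hGs
  have hcs : Summable fun l => ‖c l‖ := h.tail_summ T
  have hm : ∀ l, Measurable (Gs l) := fun l =>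
    (s4a_ee_continuous.comp ((continuous_const.mul (continuous_snd.pow 2)).add
      (continuous_const.mul continuous_snd))).measurable
  have hb : ∀ l p, ‖Gs l p‖ ≤ 1 := fun l p => le_of_eq (s4a_ee_norm _)
  have hsum : ∀ I ∈ A, ∀ p, w I p ≠ 0 → HasSum (fun l => c l * Gs l p) (s5a_G3 Q lam R al T p) :=
    fun I _ p _ => s5a_G3_hasSum h T p
  have hX : ∀ l, s5a_sum A w a b (fun _ => Gs l) f g ≤ C * (1 + D) * Ma * Mb := fun l =>
    hqe hS lam (Q.bet + s5a_sig Q R l) D hD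
      (fun I hI => h.lam_len (cell_len_nonneg I) (hlen I hI)) f g Ma Mb hf hg
  have key := s5a_sum_tsum hS c Gs (s5a_G3 Q lam R al T) hcs hm hb hsum f g hf.mem hg.mem
    (fun _ => C * (1 + D) * Ma * Mb) hX (hcs.mul_right _)
  refine key.trans ?_
  rw [tsum_mul_right]
  calc (∑' l, ‖c l‖) * (C * (1 + D) * Ma * Mb)
      ≤ (D / T) * (C * (1 + D) * Ma * Mb) := mul_le_mul_of_nonneg_right (h.tail_le T hT) hX0
    _ = C * (D / T) * (1 + D) * Ma * Mb := by ring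

/-- BL2: **the replacement error** -/
theorem s5a_repl_err {c0 C0 : ℝ} {J : Cell} {A : Finset Cell} {w : Cell → ℝ × ℝ → ℂ} {a b : Fin 4}
    (hS : s5a_Std c0 C0 J A w a b) (Q : Chart) (D r₁ lam : ℝ) (R : ℕ) (al : (Fin Q.d → ℤ) → ℂ)
    (hStr : s5a_Str Q D r₁ lam R al) (T : ℕ) (ε : ℝ) (hε : 0 < ε) (rep : ℤ → (Fin Q.d → ℤ) → (Fin Q.d → ℤ))
    (hlam : ∀ I ∈ A, |lam| * I.len ^ 2 < ε) (hrep : ∀ I ∈ A, s5a_Rep Q R T ε I.depth (rep I.depth))
    (f g : Cell → ℝ → ℂ) (Ma Mb : ℝ) (hf : s5a_SRow J f Ma) (hg : s5a_SRow J g Mb) :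
    s5a_sum A w a b (fun I => s5a_G2 Q lam R al T (rep I.depth)) f g ≤
      s5a_Cw C0 * (2 * Real.pi * D * (2 * ε + 2 * ε * ((s5a_box Q.d (2 * T)).card : ℝ))) * Ma * Mb := by
  classical
  have hD : 0 ≤ D := zero_le_one.trans hStr.one_le
  have hMa := hf.nonneg
  have hMb := hg.nonneg
  have hCw : 0 ≤ s5a_Cw C0 := zero_le_one.trans (s5a_Cw_pos hS.C0_ge)
  set B2 := s5a_box Q.d (2 * T) with hB2
  set σ : (Fin Q.d → ℤ) → ℝ := s5a_sig Q R with hσ
  -- the bracket at the depth `s`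
  set E : ℤ → ℝ := fun s => |lam| * ((2 : ℝ) ^ (-s)) ^ 2 +
    ∑ k ∈ B2.filter (fun k => (2 : ℝ) ^ (-s) * |σ k| < ε), |σ k| * ((2 : ℝ) ^ (-s)) ^ 1 with hE
  have hE0 : ∀ s, 0 ≤ E s := fun s => by
    simp only [hE]
    have : 0 ≤ ∑ k ∈ B2.filter (fun k => (2 : ℝ) ^ (-s) * |σ k| < ε), |σ k| * ((2 : ℝ) ^ (-s)) ^ 1 :=
      Finset.sum_nonneg fun k _ => by positivity
    positivity
  have hsup := s5a_sum_sup hS (fun I => s5a_G2 Q lam R al T (rep I.depth)) (fun s => 2 * Real.pi * D * E s)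
    (fun s => by have := hE0 s; positivity) (by
      intro I hI p hp
      have ht : |p.2| ≤ I.len := by
        have := s5a_supp_t (hS.adm I hI) hS.c0_pos hp
        have := cell_len_pos I
        linarith
      have hr : I.len = (2 : ℝ) ^ (-I.depth) := rfl
      have hr0 : 0 < I.len := cell_len_pos I
      refine (s5a_G2_le Q lam R al T (rep I.depth) p).trans ?_
      calc ∑ l ∈ s5a_box Q.d T, ‖al l‖ *
            (2 * Real.pi * (|lam| * p.2 ^ 2 + |s5a_sig Q R l - s5a_sig Q R (rep I.depth l)| * |p.2|))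
          ≤ ∑ l ∈ s5a_box Q.d T, ‖al l‖ * (2 * Real.pi * E I.depth) := by
            refine Finset.sum_le_sum fun l hl => ?_
            refine mul_le_mul_of_nonneg_left ?_ (norm_nonneg _)
            refine mul_le_mul_of_nonneg_left ?_ (by positivity)
            simp only [hE]
            refine add_le_add ?_ ?_
            · refine mul_le_mul_of_nonneg_left ?_ (abs_nonneg _)
              rw [← hr, ← sq_abs p.2]
              exact pow_le_pow_left₀ (abs_nonneg _) ht 2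
            · have hk : l - rep I.depth l ∈ B2.filter (fun k => (2 : ℝ) ^ (-I.depth) * |σ k| < ε) := by
                rw [Finset.mem_filter]
                refine ⟨s5a_box_sub hl ((hrep I hI).mem l hl), ?_⟩
                rw [hσ, s5a_sig_sub]
                exact (hrep I hI).near l hl
              have h1 := Finset.single_le_sum (f := fun k => |σ k| * ((2 : ℝ) ^ (-I.depth)) ^ 1)
                (fun k _ => by positivity) hk
              refine le_trans ?_ h1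
              simp only [hσ, s5a_sig_sub, pow_one]
              exact mul_le_mul_of_nonneg_left (hr ▸ ht) (abs_nonneg _)
        _ = (∑ l ∈ s5a_box Q.d T, ‖al l‖) * (2 * Real.pi * E I.depth) := by rw [Finset.sum_mul]
        _ ≤ D * (2 * Real.pi * E I.depth) :=
            mul_le_mul_of_nonneg_right (hStr.box_le _) (by have := hE0 I.depth; positivity)
        _ = 2 * Real.pi * D * E I.depth := by ring) f g Ma Mb hf hg
  refine hsup.trans ?_
  set S := A.image Cell.depth with hSdef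
  have hS1 : ∑ s ∈ S, |lam| * ((2 : ℝ) ^ (-s)) ^ 2 ≤ 2 * ε := by
    refine s5a_geo S |lam| ε 2 (by norm_num) (abs_nonneg _) hε.le ?_
    intro s hs
    obtain ⟨I, hI, rfl⟩ := Finset.mem_image.1 hs
    exact (hlam I hI).le
  have hS2 : ∑ s ∈ S, ∑ k ∈ B2.filter (fun k => (2 : ℝ) ^ (-s) * |σ k| < ε), |σ k| * ((2 : ℝ) ^ (-s)) ^ 1 ≤
      2 * ε * (B2.card : ℝ) := by
    simp only [Finset.sum_filter]
    rw [Finset.sum_comm]
    calc ∑ k ∈ B2, ∑ s ∈ S, (if (2 : ℝ) ^ (-s) * |σ k| < ε then |σ k| * ((2 : ℝ) ^ (-s)) ^ 1 else 0)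
        ≤ ∑ _k ∈ B2, 2 * ε := by
          refine Finset.sum_le_sum fun k _ => ?_
          rw [← Finset.sum_filter]
          refine s5a_geo _ |σ k| ε 1 le_rfl (abs_nonneg _) hε.le ?_
          intro s hs
          have := (Finset.mem_filter.1 hs).2
          rw [pow_one, mul_comm]
          exact this.le
      _ = 2 * ε * (B2.card : ℝ) := by rw [Finset.sum_const, nsmul_eq_mul]; ring
  have hsumE : ∑ s ∈ S, 2 * Real.pi * D * E s ≤ 2 * Real.pi * D * (2 * ε + 2 * ε * (B2.card : ℝ)) := by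
    rw [← Finset.mul_sum]
    refine mul_le_mul_of_nonneg_left ?_ (by positivity)
    simp only [hE]
    rw [Finset.sum_add_distrib]
    exact add_le_add hS1 hS2
  gcongr

/-- BL3: **the main part** -/
theorem s5a_repl_main (c0 C0 : ℝ) : ∃ C : ℝ, 0 ≤ C ∧ ∀ {J : Cell} {A : Finset Cell} {w : Cell → ℝ × ℝ → ℂ} {a b : Fin 4},
    s5a_Std c0 C0 J A w a b → ∀ (Q : Chart) (R : ℕ) (al : (Fin Q.d → ℤ) → ℂ) (T : ℕ), 1 ≤ T → ∀ ε : ℝ, 0 < ε → ε ≤ 1 / 3 →
    ∀ rep : ℤ → (Fin Q.d → ℤ) → (Fin Q.d → ℤ), (∀ I ∈ A, s5a_Rep Q R T ε I.depth (rep I.depth)) →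
    ∀ δ : ℝ, 0 ≤ δ → (∀ I ∈ A, ∀ γ : ℝ, ‖s5a_cc Q R al T (rep I.depth) γ‖ ≤ δ) →
    ∀ (f g : Cell → ℝ → ℂ) (Ma Mb : ℝ), s5a_SRow J f Ma → s5a_SRow J g Mb →
      s5a_sum A w a b (fun I => s5a_G1 Q R al T (rep I.depth)) f g ≤ C * δ * s5a_NH Q.d T * Ma * Mb := by
  classical
  obtain ⟨C, hC0, hje⟩ := s5a_je c0 C0
  refine ⟨C * 200, by positivity, ?_⟩
  intro J A w a b hS Q R al T hT ε hε hε3 rep hrep δ hδ hcc f g Ma Mb hf hg
  set κ := s5a_kap a b with hκ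
  have hκ0 : κ ≠ 0 := s5a_kap_ne hS.ne
  have hκ3 : |κ| ≤ 3 := s5a_abs_kap_le a b
  have hκpos : 0 < |κ| := abs_pos.2 hκ0
  set Γ : ℤ → Finset ℝ := fun s => (s5a_box Q.d T).image (fun l => Q.bet + s5a_sig Q R (rep s l)) with hΓ
  set S := A.image Cell.depth with hSdef
  have hmult : ∀ ζ : ℝ, ∑ s ∈ S, ∑ γ ∈ Γ s, s5a_k0 (2 * Real.pi * (2 : ℝ) ^ (-s) * (ζ + γ / κ)) ≤
      200 * s5a_NH Q.d T := by
    intro ζ
    have hinj : Function.Injective fun γ : ℝ => γ / κ := fun x y hxy => by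
      have : x / κ = y / κ := hxy
      field_simp at this
      exact this
    have hcnt := s5a_cnt S (fun s => (Γ s).image fun γ => γ / κ) (s5a_NH Q.d T) (s5a_NH_nonneg _ _) (by
      intro s hs ν hν ν' hν' hne
      obtain ⟨I, hI, rfl⟩ := Finset.mem_image.1 hs
      obtain ⟨γ, hγ, rfl⟩ := Finset.mem_image.1 hν
      obtain ⟨γ', hγ', rfl⟩ := Finset.mem_image.1 hν'
      obtain ⟨l, hl, rfl⟩ := Finset.mem_image.1 hγ
      obtain ⟨l', hl', rfl⟩ := Finset.mem_image.1 hγ'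
      have hrr : rep I.depth l ≠ rep I.depth l' := by
        intro h
        apply hne
        simp only [h]
      have hfar := (hrep I hI).far l hl l' hl' hrr
      have h3 : 3 ≤ 1 / ε := by
        rw [le_div_iff₀ hε]
        linarith
      have e : (Q.bet + s5a_sig Q R (rep I.depth l)) / κ - (Q.bet + s5a_sig Q R (rep I.depth l')) / κ =
          (s5a_sig Q R (rep I.depth l) - s5a_sig Q R (rep I.depth l')) / κ := by ring
      rw [e, abs_div, ← mul_div_assoc, le_div_iff₀ hκpos]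
      linarith) ζ (by
      intro ℓ
      obtain ⟨hfin, hcard⟩ := s5a_shell_count Q R T hT κ ζ ℓ
      refine le_trans ?_ hcard
      rw [← Set.ncard_coe_finset]
      refine Nat.cast_le.2 (Set.ncard_le_ncard ?_ hfin)
      intro s hs
      rw [Finset.mem_coe, Finset.mem_filter] at hs
      obtain ⟨hsS, ν, hν, h1, h2⟩ := hs
      obtain ⟨I, hI, rfl⟩ := Finset.mem_image.1 hsS
      obtain ⟨γ, hγ, rfl⟩ := Finset.mem_image.1 hν
      obtain ⟨l, hl, rfl⟩ := Finset.mem_image.1 hγ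
      exact ⟨rep I.depth l, (hrep I hI).mem l hl, h1, h2⟩)
    refine le_trans (le_of_eq ?_) hcnt
    refine Finset.sum_congr rfl fun s _ => ?_
    rw [Finset.sum_image fun x _ y _ h => hinj h]
  have key := hje hS Γ (fun I γ => s5a_cc Q R al T (rep I.depth) γ) δ (200 * s5a_NH Q.d T) hδ
    (fun I hI γ _ => hcc I hI γ) hmult f g Ma Mb hf hg
  have e : (fun I => s5a_G1 Q R al T (rep I.depth)) =
      fun (I : Cell) (p : ℝ × ℝ) => ∑ γ ∈ Γ I.depth, s5a_cc Q R al T (rep I.depth) γ * ee (γ * p.2) := by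
    funext I p
    exact s5a_G1_eq Q R al T (rep I.depth) p
  rw [e]
  refine key.trans (le_of_eq ?_)
  ring

/-- BL4: **the clump coefficients are `≤ δ`** -/
theorem s5a_clump_coef : ∃ Cζ : ℝ, 0 ≤ Cζ ∧ ∀ (Q : Chart), Continuous Q.eval → Q.Bdd → ∀ (D r₁ lam : ℝ) (R : ℕ)
    (al : (Fin Q.d → ℤ) → ℂ), s5a_Str Q D r₁ lam R al → ∀ T : ℕ, 1 ≤ T → ∀ ε : ℝ, 0 < ε → ∀ s : ℤ, (2 : ℝ) ^ (-s) ≤ r₁ →
    |lam| * ((2 : ℝ) ^ (-s)) ^ 2 < ε → ∀ rep : (Fin Q.d → ℤ) → (Fin Q.d → ℤ), s5a_Rep Q R T ε s rep →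
    ∀ δ : ℝ, s4a_Ar Q.eval ((2 : ℝ) ^ (-s)) ≤ δ → D / T ≤ δ / 16 → (48 * Real.pi + Cζ) * D * ε ≤ δ / 2 →
    ∀ γ : ℝ, ‖s5a_cc Q R al T rep γ‖ ≤ δ := by
  classical
  obtain ⟨Cζ, hCζ, hcb⟩ := s5a_coef_bound
  refine ⟨Cζ, hCζ, ?_⟩
  intro Q hQc hQb D r₁ lam R al h T hT ε hε s hs hlam rep hrep δ hAr hDT hsmall γ
  have hD : 0 ≤ D := zero_le_one.trans h.one_le
  have hδ : 0 ≤ δ := (s5a_Ar_nonneg _ _).trans hAr
  set r : ℝ := (2 : ℝ) ^ (-s) with hr
  have hr0 : 0 < r := by positivity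
  set Γ : Finset ℝ := (s5a_box Q.d T).image (fun l => Q.bet + s5a_sig Q R (rep l)) with hΓ
  by_cases hγ : γ ∈ Γ
  swap
  · have : s5a_cc Q R al T rep γ = 0 := by
      unfold s5a_cc
      refine Finset.sum_eq_zero fun l hl => ?_
      exfalso
      rw [Finset.mem_filter] at hl
      exact hγ (Finset.mem_image.2 ⟨l, hl.1, hl.2⟩)
    rw [this, norm_zero]
    exact hδ
  have key := hcb Q.eval hQc hQb r ε (D / T + 12 * Real.pi * D * ε) hr0 hε Γ (s5a_cc Q R al T rep) (by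
    intro γ₁ h1 γ₂ h2 hne
    obtain ⟨l, hl, rfl⟩ := Finset.mem_image.1 h1
    obtain ⟨l', hl', rfl⟩ := Finset.mem_image.1 h2
    have hrr : rep l ≠ rep l' := by
      intro h
      apply hne
      rw [h]
    have := hrep.far l hl l' hl' hrr
    have e : Q.bet + s5a_sig Q R (rep l) - (Q.bet + s5a_sig Q R (rep l')) =
      s5a_sig Q R (rep l) - s5a_sig Q R (rep l') := by ring
    rw [e]
    exact this.le) (by
    intro t ht
    have hsplit := s5a_split h T rep ((0 : ℝ), t) (by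
      show |t| ≤ 2 * r₁
      linarith)
    have hG1 := s5a_G1_eq Q R al T rep ((0 : ℝ), t)
    simp only at hsplit hG1
    rw [hsplit, ← hG1]
    have e : s5a_G1 Q R al T rep (0, t) + s5a_G2 Q lam R al T rep (0, t) + s5a_G3 Q lam R al T (0, t) -
        s5a_G1 Q R al T rep (0, t) = s5a_G3 Q lam R al T (0, t) + s5a_G2 Q lam R al T rep (0, t) := by ring
    rw [e]
    refine (norm_add_le _ _).trans (add_le_add ?_ ?_)
    · unfold s5a_G3
      rw [norm_mul, s4a_ee_norm, one_mul]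
      exact s5a_tl_le h T hT t
    · refine (s5a_G2_le Q lam R al T rep (0, t)).trans ?_
      simp only
      calc ∑ l ∈ s5a_box Q.d T, ‖al l‖ *
            (2 * Real.pi * (|lam| * t ^ 2 + |s5a_sig Q R l - s5a_sig Q R (rep l)| * |t|))
          ≤ ∑ l ∈ s5a_box Q.d T, ‖al l‖ * (2 * Real.pi * (4 * ε + 2 * ε)) := by
            refine Finset.sum_le_sum fun l hl => ?_
            refine mul_le_mul_of_nonneg_left ?_ (norm_nonneg _)
            refine mul_le_mul_of_nonneg_left ?_ (by positivity)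
            refine add_le_add ?_ ?_
            · have h1 : t ^ 2 ≤ (2 * r) ^ 2 := by
                rw [← sq_abs t]
                exact pow_le_pow_left₀ (abs_nonneg _) ht 2
              calc |lam| * t ^ 2 ≤ |lam| * (2 * r) ^ 2 := mul_le_mul_of_nonneg_left h1 (abs_nonneg _)
                _ = 4 * (|lam| * r ^ 2) := by ring
                _ ≤ 4 * ε := by linarith
            · have h2 := hrep.near l hl
              calc |s5a_sig Q R l - s5a_sig Q R (rep l)| * |t|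
                  ≤ |s5a_sig Q R l - s5a_sig Q R (rep l)| * (2 * r) :=
                    mul_le_mul_of_nonneg_left ht (abs_nonneg _)
                _ = 2 * (r * |s5a_sig Q R l - s5a_sig Q R (rep l)|) := by ring
                _ ≤ 2 * ε := by linarith
        _ = (∑ l ∈ s5a_box Q.d T, ‖al l‖) * (12 * Real.pi * ε) := by
            rw [Finset.sum_mul]
            refine Finset.sum_congr rfl fun l _ => ?_
            ring
        _ ≤ D * (12 * Real.pi * ε) := mul_le_mul_of_nonneg_right (h.box_le _) (by positivity)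
        _ = 12 * Real.pi * D * ε := by ring) γ hγ
  have hsum := s5a_cc_sum_le h T rep
  have h3 : Cζ * ε * ∑ γ ∈ Γ, ‖s5a_cc Q R al T rep γ‖ ≤ Cζ * ε * D :=
    mul_le_mul_of_nonneg_left hsum (by positivity)
  nlinarith

end Claimed.Agent.R258
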