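/-
Row 258, block [S5a] (architect helper192).  FILE BandAsm: the band estimate `s5a_band` (ASSEMBLY, helper192) and its numerics = leaf P-S5a-NUM1 (`s5a_band_par`, `s5a_band_num`).    No paper.

PARAMETERS.  `x = log H + log (1/δ')`, `D = s4b_qp C₁ x` (`C₁` from `s5a_str`), `T = s5a_Tc D δ' = ⌈16 D (1+D)/δ'⌉₊`, `ε = s5a_ec K D δ' d T = δ' / (K D (1 + #box(2T)))`, `#box(2T) = (2(2T)+1)^d` (`s5a_box_card`), `K ≥ 400`.
`s5a_band_par` (elementary): `1 ≤ T`;  `D/T (1+D) ≤ δ'/16` (`Nat.le_ceil`, `div_le_iff₀`);  `D/T ≤ δ'/16`;  `0 < ε ≤ 1/3` (`ε ≤ δ'/K`);  `K D ε (1 + #box) = δ'`.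
`s5a_band_num`: with the calculus `s4a_IsPL`/`s4a_IsQP` of S4a/QpAuto.lean (model: `s4a_sep_num` in S4a/Sep.lean), parameters `p = (d,H,δ')`, size `x ≥ 2`:
  `D`, `(T : ℝ) ≤ 16 D (1+D)/δ' + 1`, `1/δ' = exp (log (1/δ'))`, `(4T+1)^d` (`IsQP.pow` with `d ≤ log H ≤ x`), `1/ε`, `D/ε`, `s8cCr d (2T) = (10 d 2T)^(100 d^4)`, `s8cCr (d+1) T` are `IsQP`; their logarithms are `IsPL` (`IsQP.log`, all are `≥ 1`);
  `Real.logb 2 y = log y / log 2 ≤ 2 log y` for `y ≥ 1` (`log 2 ≥ 1/2`);  then `IsPL.add/mul/const`.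
ASSEMBLY `s5a_band`: see the proof.
-/
import Claimed.Agent.R258.S5a.Band
import Claimed.Agent.R258.S4a.QpAuto
import Claimed.Agent.R258.S4b.Atomize

set_option autoImplicit false
open MeasureTheory
open scoped ENNReal ContDiff ComplexConjugate

namespace Claimed.Agent.R258

/-- the box size -/
noncomputable def s5a_Tc (D δ : ℝ) : ℕ := ⌈16 * D * (1 + D) / δ⌉₊

/-- the clump parameter -/
noncomputable def s5a_ec (K D δ : ℝ) (d T : ℕ) : ℝ := δ / (K * D * (1 + ((s5a_box d (2 * T)).card : ℝ)))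

theorem s5a_band_par (K D δ : ℝ) (d : ℕ) (hK : 400 ≤ K) (hD : 1 ≤ D) (hδ : 0 < δ) (hδ1 : δ < 1 / 2) :
    1 ≤ s5a_Tc D δ ∧ D / (s5a_Tc D δ : ℝ) * (1 + D) ≤ δ / 16 ∧ D / (s5a_Tc D δ : ℝ) ≤ δ / 16 ∧
      0 < s5a_ec K D δ d (s5a_Tc D δ) ∧ s5a_ec K D δ d (s5a_Tc D δ) ≤ 1 / 3 ∧
      K * D * s5a_ec K D δ d (s5a_Tc D δ) * (1 + ((s5a_box d (2 * s5a_Tc D δ)).card : ℝ)) = δ := by
  set T := s5a_Tc D δ with hT
  have ha : 16 * D * (1 + D) / δ ≤ (T : ℝ) := Nat.le_ceil _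
  have ha0 : 0 < 16 * D * (1 + D) / δ := by positivity
  have hT0 : (0 : ℝ) < (T : ℝ) := lt_of_lt_of_le ha0 ha
  have hT1 : 1 ≤ T := by
    have : 0 < T := by exact_mod_cast hT0
    exact this
  have h2 : D / (T : ℝ) * (1 + D) ≤ δ / 16 := by
    rw [div_le_iff₀ hδ] at ha
    rw [div_mul_eq_mul_div, div_le_iff₀ hT0]
    linarith
  have h3 : D / (T : ℝ) ≤ δ / 16 := by
    refine le_trans ?_ h2
    have : 0 ≤ D / (T : ℝ) := by positivity
    nlinarith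
  set c : ℝ := ((s5a_box d (2 * T)).card : ℝ) with hc
  have hc0 : 0 ≤ c := Nat.cast_nonneg _
  have hden : 400 ≤ K * D * (1 + c) := by
    have h1 : 400 ≤ K * D := by nlinarith
    nlinarith
  have hden0 : 0 < K * D * (1 + c) := by linarith
  refine ⟨hT1, h2, h3, ?_, ?_, ?_⟩
  · unfold s5a_ec
    exact div_pos hδ hden0
  · unfold s5a_ec
    rw [div_le_iff₀ hden0]
    linarith
  · unfold s5a_ec
    rw [← hc]
    field_simp

theorem s5a_isPL_logb {P : Type*} {V : P → Prop} {x : P → ℝ} (hx : ∀ p, V p → 0 ≤ x p) {f : P → ℝ}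
    (hf : s4a_IsQP V x f) (h1 : ∀ p, V p → 1 ≤ f p) : s4a_IsPL V x (fun p => Real.logb 2 (f p)) := by
  refine ((s4a_IsPL.const hx 2 (by norm_num)).mul hx (hf.log h1)).mono
    (fun p hp => Real.logb_nonneg (by norm_num) (h1 p hp)) (fun p hp => ?_)
  have hl : 0 ≤ Real.log (f p) := Real.log_nonneg (h1 p hp)
  have h2 : 1 / 2 ≤ Real.log 2 := by
    have := Real.log_two_gt_d9
    linarith
  unfold Real.logb
  rw [div_le_iff₀ (by linarith)]
  nlinarith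

theorem s5a_band_num (C₁ : ℕ) (K c₁ c₂ c₃ : ℝ) (hK : 400 ≤ K) (h1 : 0 ≤ c₁) (h2 : 0 ≤ c₂) (h3 : 0 ≤ c₃) :
    ∃ C : ℕ, ∀ (d : ℕ) (H δ : ℝ), Real.exp 2 ≤ H → (d : ℝ) ≤ Real.log H → 0 < δ → δ < 1 / 2 →
      c₁ * s5a_NE d (s4b_qp C₁ (Real.log H + Real.log (1 / δ))) (s5a_Tc (s4b_qp C₁ (Real.log H + Real.log (1 / δ))) δ)
          (s5a_ec K (s4b_qp C₁ (Real.log H + Real.log (1 / δ))) δ d (s5a_Tc (s4b_qp C₁ (Real.log H + Real.log (1 / δ))) δ))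
        + c₂ + c₃ * s5a_NH d (s5a_Tc (s4b_qp C₁ (Real.log H + Real.log (1 / δ))) δ)
        ≤ s4a_pl C (Real.log H + Real.log (1 / δ)) := by
  set V : ℕ × ℝ × ℝ → Prop := fun p => Real.exp 2 ≤ p.2.1 ∧ (p.1 : ℝ) ≤ Real.log p.2.1 ∧ 0 < p.2.2 ∧ p.2.2 < 1 / 2
    with hV
  set x : ℕ × ℝ × ℝ → ℝ := fun p => Real.log p.2.1 + Real.log (1 / p.2.2) with hxdef
  have hH1 : ∀ p, V p → 1 ≤ p.2.1 := fun p hp =>
    le_trans (Real.one_le_exp (by norm_num : (0 : ℝ) ≤ 2)) hp.1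
  have hlH : ∀ p, V p → 0 ≤ Real.log p.2.1 := fun p hp => Real.log_nonneg (hH1 p hp)
  have hinv1 : ∀ p, V p → 1 ≤ 1 / p.2.2 := fun p hp => by
    rw [le_div_iff₀ hp.2.2.1]
    linarith [hp.2.2.2]
  have hlδ : ∀ p, V p → 0 ≤ Real.log (1 / p.2.2) := fun p hp => Real.log_nonneg (hinv1 p hp)
  have hx : ∀ p, V p → 0 ≤ x p := fun p hp => add_nonneg (hlH p hp) (hlδ p hp)
  have pc : ∀ c : ℝ, 0 ≤ c → s4a_IsPL V x (fun _ => c) := fun c hc => s4a_IsPL.const hx c hc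
  have qc : ∀ c : ℝ, 0 ≤ c → s4a_IsQP V x (fun _ => c) := fun c hc => s4a_IsQP.const hx c hc
  have pd : s4a_IsPL V x (fun p => (p.1 : ℝ)) :=
    (s4a_IsPL.size hx).mono (fun p _ => Nat.cast_nonneg _) (fun p hp => by
      simp only [hxdef]; linarith [hp.2.1, hlδ p hp])
  have qd : s4a_IsQP V x (fun p => (p.1 : ℝ)) := s4a_IsQP.of_pl hx pd
  have qinv : s4a_IsQP V x (fun p => 1 / p.2.2) :=
    s4a_IsQP.of_log (s4a_IsPL.size hx) (fun p hp => by linarith [hinv1 p hp]) (fun p hp => by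
      simp only [hxdef]; linarith [hlH p hp])
  set D : ℕ × ℝ × ℝ → ℝ := fun p => s4b_qp C₁ (x p) with hD
  have qD : s4a_IsQP V x D := s4a_IsQP.comp hx C₁ (s4a_IsPL.size hx)
  have hD1 : ∀ p, V p → 1 ≤ D p := fun p hp => s4a_qp_one_le C₁ (hx p hp)
  set T : ℕ × ℝ × ℝ → ℕ := fun p => s5a_Tc (D p) p.2.2 with hT
  have qT : s4a_IsQP V x (fun p => (T p : ℝ)) := by
    refine (((((qc 16 (by norm_num)).mul hx qD).mul hx ((qc 1 zero_le_one).add hx qD)).mul hx qinv).add hx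
      (qc 1 zero_le_one)).mono (fun p _ => Nat.cast_nonneg _) (fun p hp => ?_)
    have h0 : 0 ≤ 16 * D p * (1 + D p) / p.2.2 := by
      have := hD1 p hp
      have := hp.2.2.1
      positivity
    have := (Nat.ceil_lt_add_one h0).le
    simp only [hT, s5a_Tc]
    rw [← div_eq_mul_one_div]
    exact this
  have hT1 : ∀ p, V p → 1 ≤ T p := fun p hp =>
    (s5a_band_par K (D p) p.2.2 p.1 hK (hD1 p hp) hp.2.2.1 hp.2.2.2).1
  set cd : ℕ × ℝ × ℝ → ℝ := fun p => ((s5a_box p.1 (2 * T p)).card : ℝ) with hcd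
  have qcd : s4a_IsQP V x cd := by
    have : cd = fun p => (2 * (2 * (T p : ℝ)) + 1) ^ p.1 := by
      funext p
      simp only [hcd, s5a_box_card]
      push_cast
      ring
    rw [this]
    exact (((qc 2 (by norm_num)).mul hx ((qc 2 (by norm_num)).mul hx qT)).add hx (qc 1 zero_le_one)).pow hx pd
  set ε : ℕ × ℝ × ℝ → ℝ := fun p => s5a_ec K (D p) p.2.2 p.1 (T p) with hε
  have hcd0 : ∀ p, 0 ≤ cd p := fun p => Nat.cast_nonneg _
  have hεinv : ∀ p, V p → 1 / ε p = K * D p * (1 + cd p) * (1 / p.2.2) := fun p hp => by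
    have := hp.2.2.1
    have := hD1 p hp
    have := hcd0 p
    have e : ε p = p.2.2 / (K * D p * (1 + cd p)) := rfl
    rw [e]
    field_simp
  have qKD : s4a_IsQP V x (fun p => K * D p * (1 + cd p) * (1 / p.2.2)) :=
    ((((qc K (by linarith)).mul hx qD).mul hx ((qc 1 zero_le_one).add hx qcd))).mul hx qinv
  have hKD1 : ∀ p, V p → 1 ≤ K * D p * (1 + cd p) * (1 / p.2.2) := fun p hp => by
    have a1 := hD1 p hp
    have a2 := hcd0 p
    have a3 := hinv1 p hp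
    have b1 : 1 ≤ K * D p := by nlinarith
    have b2 : 1 ≤ K * D p * (1 + cd p) := by nlinarith
    nlinarith
  have qεinv : s4a_IsQP V x (fun p => 1 / ε p) :=
    qKD.mono (fun p hp => by rw [hεinv p hp]; linarith [hKD1 p hp]) (fun p hp => (hεinv p hp).le)
  have hεinv1 : ∀ p, V p → 1 ≤ 1 / ε p := fun p hp => by rw [hεinv p hp]; exact hKD1 p hp
  have qDε : s4a_IsQP V x (fun p => D p / ε p) :=
    (qD.mul hx qεinv).mono (fun p hp => by
      rw [div_eq_mul_one_div]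
      have := hD1 p hp
      have := hεinv1 p hp
      positivity) (fun p _ => (div_eq_mul_one_div _ _).le)
  have hDε1 : ∀ p, V p → 1 ≤ D p / ε p := fun p hp => by
    rw [div_eq_mul_one_div]
    have := hD1 p hp
    have := hεinv1 p hp
    nlinarith
  -- the constants `s8cCr`
  have pd4 : s4a_IsPL V x (fun p => ((100 * p.1 ^ 4 : ℕ) : ℝ)) := by
    have := (pc 100 (by norm_num)).mul hx (pd.pow hx 4)
    simpa using this
  have pd4' : s4a_IsPL V x (fun p => ((100 * (p.1 + 1) ^ 4 : ℕ) : ℝ)) := by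
    have := (pc 100 (by norm_num)).mul hx ((pd.add hx (pc 1 zero_le_one)).pow hx 4)
    simpa using this
  have qCr : s4a_IsQP V x (fun p => (s8cCr p.1 (2 * T p) : ℝ)) := by
    have : (fun p : ℕ × ℝ × ℝ => (s8cCr p.1 (2 * T p) : ℝ)) =
        fun p => (10 * (p.1 : ℝ) * (2 * (T p : ℝ))) ^ (100 * p.1 ^ 4) := by
      funext p
      simp only [s8cCr]
      push_cast
      ring
    rw [this]
    exact (((qc 10 (by norm_num)).mul hx qd).mul hx ((qc 2 (by norm_num)).mul hx qT)).pow hx pd4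
  have qCr' : s4a_IsQP V x (fun p => (s8cCr (p.1 + 1) (T p) : ℝ)) := by
    have : (fun p : ℕ × ℝ × ℝ => (s8cCr (p.1 + 1) (T p) : ℝ)) =
        fun p => (10 * ((p.1 : ℝ) + 1) * (T p : ℝ)) ^ (100 * (p.1 + 1) ^ 4) := by
      funext p
      simp only [s8cCr]
      push_cast
      ring
    rw [this]
    exact (((qc 10 (by norm_num)).mul hx (qd.add hx (qc 1 zero_le_one))).mul hx qT).pow hx pd4'
  have l1 := s5a_isPL_logb hx qDε hDε1
  have l2 := s5a_isPL_logb hx ((qd.mul hx qCr).add hx (qc 1 zero_le_one)) (fun p _ => by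
    have : 0 ≤ (p.1 : ℝ) * (s8cCr p.1 (2 * T p) : ℝ) := by positivity
    linarith)
  have l3 := s5a_isPL_logb hx qεinv hεinv1
  have l4 := s5a_isPL_logb hx (((qd.add hx (qc 1 zero_le_one)).mul hx qCr').add hx (qc 1 zero_le_one)) (fun p _ => by
    have : 0 ≤ ((p.1 : ℝ) + 1) * (s8cCr (p.1 + 1) (T p) : ℝ) := by positivity
    linarith)
  have pNE : s4a_IsPL V x (fun p => s5a_NE p.1 (D p) (T p) (ε p)) := by
    unfold s5a_NE
    exact (l1.add hx (pc 2 (by norm_num))).add hx (pd.mul hx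
      ((l2.add hx ((pc 2 (by norm_num)).mul hx l3)).add hx (pc 1 zero_le_one)))
  have pNH : s4a_IsPL V x (fun p => s5a_NH p.1 (T p)) := by
    unfold s5a_NH
    exact (pd.add hx (pc 1 zero_le_one)).mul hx (l4.add hx (pc 2 (by norm_num)))
  obtain ⟨C, hC⟩ := (((pc c₁ h1).mul hx pNE).add hx (pc c₂ h2)).add hx ((pc c₃ h3).mul hx pNH)
  exact ⟨C, fun d H δ a1 a2 a3 a4 => (hC (d, H, δ) ⟨a1, a2, a3, a4⟩).2⟩

/-- the band estimate for arbitrary parameters `T`, `ε` -/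
theorem s5a_band_core (c0 C0 : ℝ) (hSS : s5a_SS c0 C0) : ∃ Css Ctl Cm Cζ : ℝ, 0 ≤ Css ∧ 0 ≤ Ctl ∧ 0 ≤ Cm ∧ 0 ≤ Cζ ∧
    ∀ {J : Cell} {A : Finset Cell} {w : Cell → ℝ × ℝ → ℂ} {a b : Fin 4}, s5a_Std c0 C0 J A w a b →
    ∀ (Q : Chart) (H : ℝ), Q.Cplx H → Q.Bdd → ∀ (D r₁ lam : ℝ) (R : ℕ) (al : (Fin Q.d → ℤ) → ℂ), s5a_Str Q D r₁ lam R al →
    0 < r₁ → ∀ (T : ℕ) (ε δ : ℝ), 1 ≤ T → 0 < ε → ε ≤ 1 / 3 → D / T ≤ δ / 16 → (48 * Real.pi + Cζ) * D * ε ≤ δ / 2 →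
    (∀ I ∈ A, I.len ≤ r₁) → (∀ I ∈ A, s4a_Ar Q.eval I.len ≤ δ) →
    ∀ (f g : Cell → ℝ → ℂ) (Ma Mb : ℝ), s5a_SRow J f Ma → s5a_SRow J g Mb →
      s5a_sum A w a b (fun _ p => Q.eval p.2) f g ≤
        Css * δ * s5a_NE Q.d D T ε * Ma * Mb + Cm * δ * s5a_NH Q.d T * Ma * Mb +
        s5a_Cw C0 * (2 * Real.pi * D * (2 * ε + 2 * ε * ((s5a_box Q.d (2 * T)).card : ℝ))) * Ma * Mb +
        Ctl * (D / T) * (1 + D) * Ma * Mb := by
  classical
  obtain ⟨Css, hCss0, hss⟩ := s5a_sum_ss hSS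
  obtain ⟨Ctl, hCtl0, htail⟩ := s5a_tail c0 C0
  obtain ⟨Cm, hCm0, hmain⟩ := s5a_repl_main c0 C0
  obtain ⟨Cζ, hCζ0, hcoef⟩ := s5a_clump_coef
  refine ⟨Css, Ctl, Cm, Cζ, hCss0, hCtl0, hCm0, hCζ0, ?_⟩
  intro J A w a b hS Q H hQ hQb D r₁ lam R al hStr hr₁ T ε δ hT hε0 hε1 hDT hDε hlen hAr f g Ma Mb hf hg
  have hMa := hf.nonneg
  have hMb := hg.nonneg
  have hD1 := hStr.one_le
  have hcont : Continuous Q.eval := s4b_eval_continuous hQ
  have hδ0 : 0 ≤ δ := by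
    have hT0 : (0 : ℝ) < T := by exact_mod_cast hT
    have : 0 ≤ D / T := by positivity
    linarith
  have hrepex : ∀ s : ℤ, ∃ rep : (Fin Q.d → ℤ) → (Fin Q.d → ℤ), s5a_Good Q R lam T ε s → s5a_Rep Q R T ε s rep := by
    intro s
    by_cases h : s5a_Good Q R lam T ε s
    · obtain ⟨rep, hrep⟩ := s5a_rep_exists Q R T lam ε s hε0 (by linarith) h
      exact ⟨rep, fun _ => hrep⟩
    · exact ⟨id, fun h' => absurd h' h⟩
  choose rep hrep using hrepex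
  have hsplit : s5a_sum A w a b (fun _ p => Q.eval p.2) f g =
      s5a_sum (A.filter fun I => s5a_Good Q R lam T ε I.depth) w a b (fun _ p => Q.eval p.2) f g +
      s5a_sum (A.filter fun I => ¬ s5a_Good Q R lam T ε I.depth) w a b (fun _ p => Q.eval p.2) f g := by
    rw [← s5a_sum_union _ _ (Finset.disjoint_filter_filter_not _ _ _), Finset.filter_union_filter_not_eq]
  -- exceptional depths
  have hexc : s5a_sum (A.filter fun I => ¬ s5a_Good Q R lam T ε I.depth) w a b (fun _ p => Q.eval p.2) f g ≤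
      Css * δ * s5a_NE Q.d D T ε * Ma * Mb := by
    have h1 := hss (hS.mono (Finset.filter_subset (fun I => ¬ s5a_Good Q R lam T ε I.depth) A)) Q.eval hcont hQb δ
      (fun I hI => hAr I (Finset.mem_filter.1 hI).1) f g Ma Mb hf hg
    obtain ⟨hfin, hcnt⟩ := s5a_exc_count Q R hStr.R_pos lam D r₁ ε T hT hε0 (by linarith) hr₁ hStr.lam_le hD1
    have h2 : ((((A.filter fun I => ¬ s5a_Good Q R lam T ε I.depth).image Cell.depth).card : ℕ) : ℝ) ≤ s5a_NE Q.d D T ε := by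
      refine le_trans ?_ hcnt
      rw [← Set.ncard_coe_finset]
      have : (((A.filter fun I => ¬ s5a_Good Q R lam T ε I.depth).image Cell.depth : Finset ℤ) : Set ℤ) ⊆
          {s : ℤ | (2 : ℝ) ^ (-s) ≤ r₁ ∧ ¬ s5a_Good Q R lam T ε s} := by
        intro s hs
        obtain ⟨I, hI, rfl⟩ := Finset.mem_image.1 (Finset.mem_coe.1 hs)
        exact ⟨hlen I (Finset.mem_filter.1 hI).1, (Finset.mem_filter.1 hI).2⟩
      exact_mod_cast Set.ncard_le_ncard this hfin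
    refine le_trans h1 ?_
    gcongr
  -- good depths
  have hSg := hS.mono (Finset.filter_subset (fun I => s5a_Good Q R lam T ε I.depth) A)
  have hrepA : ∀ I ∈ A.filter (fun I => s5a_Good Q R lam T ε I.depth), s5a_Rep Q R T ε I.depth (rep I.depth) :=
    fun I hI => hrep _ (Finset.mem_filter.1 hI).2
  have htri := s5a_sum_tri hSg (fun _ p => Q.eval p.2) (fun I => s5a_G1 Q R al T (rep I.depth))
    (fun I => s5a_G2 Q lam R al T (rep I.depth)) (fun _ => s5a_G3 Q lam R al T)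
    (fun I => s5a_G1_meas Q R al T _) (fun I => s5a_G2_meas Q lam R al T _) (fun _ => s5a_G3_meas hStr T) (2 * D)
    (fun I p => s5a_G1_bd hStr T _ p) (fun I p => s5a_G2_bd hStr T _ p) (fun _ p => s5a_G3_bd hStr T p)
    (fun I hI p hp => by
      apply s5a_split hStr T (rep I.depth) p
      have h1 := s5a_supp_t (hSg.adm I hI) hS.c0_pos hp
      have h2 := hlen I (Finset.mem_filter.1 hI).1
      have h3 := cell_len_pos I
      linarith) f g hf.mem hg.mem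
  have hG1 := hmain hSg Q R al T hT ε hε0 hε1 rep hrepA δ hδ0
    (fun I hI γ => hcoef Q hcont hQb D r₁ lam R al hStr T hT ε hε0 I.depth (hlen I (Finset.mem_filter.1 hI).1)
      (Finset.mem_filter.1 hI).2.1 (rep I.depth) (hrepA I hI) δ (hAr I (Finset.mem_filter.1 hI).1) hDT hDε γ)
    f g Ma Mb hf hg
  have hG2 := s5a_repl_err hSg Q D r₁ lam R al hStr T ε hε0 rep (fun I hI => (Finset.mem_filter.1 hI).2.1) hrepA
    f g Ma Mb hf hg
  have hG3 := htail hSg Q D r₁ lam R al hStr (fun I hI => hlen I (Finset.mem_filter.1 hI).1) T hT f g Ma Mb hf hg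
  rw [hsplit]
  linarith

/-- **one band of scales**: a scale `r₁` with `δ' < A_{r₁}`, all cells of length `≤ r₁` with `A_{|I|} ≤ δ` -/
theorem s5a_band (hW : s4a_Weyl1) (c0 C0 : ℝ) (hSS : s5a_SS c0 C0) :
    ∃ C : ℕ, ∀ {J : Cell} {A : Finset Cell} {w : Cell → ℝ × ℝ → ℂ} {a b : Fin 4}, s5a_Std c0 C0 J A w a b →
    ∀ (Q : Chart) (H : ℝ), Q.Cplx H → Q.Bdd → ∀ δ' δ r₁ : ℝ, 0 < δ' → δ' < 1 / 2 → δ' ≤ δ → 0 < r₁ →
    δ' < s4a_Ar Q.eval r₁ → (∀ I ∈ A, I.len ≤ r₁) → (∀ I ∈ A, s4a_Ar Q.eval I.len ≤ δ) →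
    ∀ (f g : Cell → ℝ → ℂ) (Ma Mb : ℝ), s5a_SRow J f Ma → s5a_SRow J g Mb →
      s5a_sum A w a b (fun _ p => Q.eval p.2) f g ≤ δ * s4a_pl C (Real.log H + Real.log (1 / δ')) * Ma * Mb := by
  obtain ⟨C₁, hstr⟩ := s5a_str hW
  obtain ⟨Css, Ctl, Cm, Cζ, hCss0, hCtl0, hCm0, hCζ0, hcore⟩ := s5a_band_core c0 C0 hSS
  have hpi := Real.pi_pos
  have hpi4 := Real.pi_le_four
  have hK : 400 ≤ 400 + 2 * (48 * Real.pi + Cζ) := by
    have : 0 ≤ 2 * (48 * Real.pi + Cζ) := by positivity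
    linarith
  by_cases hC0 : 1 ≤ C0
  swap
  · exact ⟨0, fun hS => absurd hS.C0_ge hC0⟩
  have hCw : 0 ≤ s5a_Cw C0 := le_trans zero_le_one (s5a_Cw_pos hC0)
  obtain ⟨C, hnum⟩ := s5a_band_num C₁ (400 + 2 * (48 * Real.pi + Cζ)) Css (Ctl + s5a_Cw C0) Cm hK hCss0
    (add_nonneg hCtl0 hCw) hCm0
  refine ⟨C, ?_⟩
  intro J A w a b hS Q H hQ hQb δ' δ r₁ hδ'0 hδ'1 hδδ hr₁ hAr1 hlen hAr f g Ma Mb hf hg
  have hMa := hf.nonneg
  have hMb := hg.nonneg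
  obtain ⟨lam, R, al, hStr⟩ := hstr Q H δ' r₁ hQ hδ'0 hδ'1 hr₁ hAr1
  have hD1 := hStr.one_le
  obtain ⟨hT1, hT2, hT3, hε0, hε1, hε2⟩ := s5a_band_par (400 + 2 * (48 * Real.pi + Cζ)) _ δ' Q.d hK hD1 hδ'0 hδ'1
  have hn := hnum Q.d H δ' hQ.H_ge hQ.dim hδ'0 hδ'1
  revert hn hT1 hT2 hT3 hε0 hε1 hε2 hStr hD1
  generalize s4b_qp C₁ (Real.log H + Real.log (1 / δ')) = D
  generalize s5a_Tc D δ' = T
  generalize s5a_ec (400 + 2 * (48 * Real.pi + Cζ)) D δ' Q.d T = ε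
  intro hStr hD1 hT1 hT2 hT3 hε0 hε1 hε2 hn
  have hbox : (0 : ℝ) ≤ ((s5a_box Q.d (2 * T)).card : ℝ) := Nat.cast_nonneg _
  have hDε0 : 0 ≤ D * ε := by positivity
  -- `D ε (1 + #box) = δ'/K`
  have hDε : (400 + 2 * (48 * Real.pi + Cζ)) * (D * ε) ≤ δ' := by
    have : (400 + 2 * (48 * Real.pi + Cζ)) * (D * ε) ≤
        (400 + 2 * (48 * Real.pi + Cζ)) * D * ε * (1 + ((s5a_box Q.d (2 * T)).card : ℝ)) := by
      have h0 : 0 ≤ (400 + 2 * (48 * Real.pi + Cζ)) * (D * ε) := by positivity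
      nlinarith
    linarith
  have h1 : (48 * Real.pi + Cζ) * D * ε ≤ δ / 2 := by nlinarith
  have h2 : 2 * Real.pi * D * (2 * ε + 2 * ε * ((s5a_box Q.d (2 * T)).card : ℝ)) ≤ δ := by
    have e : 2 * Real.pi * D * (2 * ε + 2 * ε * ((s5a_box Q.d (2 * T)).card : ℝ)) =
        4 * Real.pi * (D * ε * (1 + ((s5a_box Q.d (2 * T)).card : ℝ))) := by ring
    have h3 : 0 ≤ D * ε * (1 + ((s5a_box Q.d (2 * T)).card : ℝ)) := by positivity
    have h4 : 400 * (D * ε * (1 + ((s5a_box Q.d (2 * T)).card : ℝ))) ≤ δ' := by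
      have : 0 ≤ 2 * (48 * Real.pi + Cζ) * (D * ε * (1 + ((s5a_box Q.d (2 * T)).card : ℝ))) := by positivity
      nlinarith
    rw [e]
    nlinarith
  have hmain := hcore hS Q H hQ hQb D r₁ lam R al hStr hr₁ T ε δ hT1 hε0 hε1 (by linarith) h1 hlen hAr f g Ma Mb hf hg
  have hδ0 : 0 ≤ δ := by linarith
  have hMM : 0 ≤ Ma * Mb := mul_nonneg hMa hMb
  calc s5a_sum A w a b (fun _ p => Q.eval p.2) f g
      ≤ Css * δ * s5a_NE Q.d D T ε * Ma * Mb + Cm * δ * s5a_NH Q.d T * Ma * Mb +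
        s5a_Cw C0 * (2 * Real.pi * D * (2 * ε + 2 * ε * ((s5a_box Q.d (2 * T)).card : ℝ))) * Ma * Mb +
        Ctl * (D / T) * (1 + D) * Ma * Mb := hmain
    _ ≤ Css * δ * s5a_NE Q.d D T ε * Ma * Mb + Cm * δ * s5a_NH Q.d T * Ma * Mb + s5a_Cw C0 * δ * Ma * Mb +
        Ctl * δ * Ma * Mb := by
        have e3 : Ctl * (D / T) * (1 + D) * Ma * Mb ≤ Ctl * δ * Ma * Mb := by
          have : D / T * (1 + D) ≤ δ := by linarith
          calc Ctl * (D / T) * (1 + D) * Ma * Mb = Ctl * (D / T * (1 + D)) * (Ma * Mb) := by ring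
            _ ≤ Ctl * δ * (Ma * Mb) := by gcongr
            _ = Ctl * δ * Ma * Mb := by ring
        have e4 : s5a_Cw C0 * (2 * Real.pi * D * (2 * ε + 2 * ε * ((s5a_box Q.d (2 * T)).card : ℝ))) * Ma * Mb ≤
            s5a_Cw C0 * δ * Ma * Mb := by gcongr
        linarith
    _ = δ * (Css * s5a_NE Q.d D T ε + (Ctl + s5a_Cw C0) + Cm * s5a_NH Q.d T) * Ma * Mb := by ring
    _ ≤ δ * s4a_pl C (Real.log H + Real.log (1 / δ')) * Ma * Mb := by gcongr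

end Claimed.Agent.R258
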