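/-
Row 258, block [S5a] (architect helper192).  FILE Bands: **Lemma 5.1 (low-scale sum), display (5)** in the form
     all `I ∈ A` have `A_{|I|}(Q) ≤ δ₀`   ⟹   `∑_{I ∈ A} |I| |form| ≤ δ₀ · polylog(H, 1/δ₀) · Ma Mb`.
`s5a_low_step`, `s5a_low_iter`, `s5a_low`, `s5a_crude` = ASSEMBLY (helper192);   leaf P-S5a-NUM2 = `s5a_low_num`, `s5a_crude_num`.      No paper.

PEELING (replaces the bands of the paper; no pooling).  Let all `A_{|I|} ≤ δ` on `A`, `A⁺ = {I ∈ A : δ/2 < A_{|I|}}`.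
 * `A⁺ = ∅`: take `A' = A`.
 * otherwise let `I₁ ∈ A⁺` have maximal length `r₁`; `A'' = {I ∈ A : |I| ≤ r₁}`, `A' = {I ∈ A : r₁ < |I|}`.   On `A'` all `A_{|I|} ≤ δ/2` (maximality).   On `A''`: `s5a_band` with `δ' = δ/16 < δ/2 < A_{r₁}`.
 So  `S(A) ≤ δ pl C (log H + log (16/δ)) Ma Mb + S(A')`, `A' ⊆ A`, all `A_{|I|} ≤ δ/2` on `A'`  (`s5a_low_step`).   Iterate `M` times (`s5a_low_iter`); the rest is `≤ C_ss δ₀ 2^{-M} #A Ma Mb` (`s5a_sum_ss`), choose `2^M ≥ #A`.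
NUM2.  `s5a_low_num`: `log (16·2^m/δ₀) = log (8/δ₀) + (m+1) log 2`, `y = log H + log(8/δ₀) ≥ 0`: `1 + y + (m+1) log 2 ≤ (1+y)(m+2)`, so `pl C (…) ≤ C (1+y)^C (m+2)^C`;  `∑_{m<M} 2^{-m} (m+2)^C ≤ K_C := ∑' …` (`summable_pow_mul_geometric_of_norm_lt_one`
 after shifting, `Summable.sum_le_tsum`);  `C' ≥ C ⌈K_C⌉ + ⌈c⌉ + C`.
-/
import Claimed.Agent.R258.S5a.BandAsm

set_option autoImplicit false
open MeasureTheory
open scoped ENNReal ContDiff ComplexConjugate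

namespace Claimed.Agent.R258

theorem s5a_low_num (C : ℕ) (c : ℝ) (hc : 0 ≤ c) : ∃ C' : ℕ, ∀ (H δ₀ : ℝ) (M : ℕ), Real.exp 2 ≤ H → 0 < δ₀ → δ₀ ≤ 4 →
    ∑ m ∈ Finset.range M, (1 / 2 : ℝ) ^ m * s4a_pl C (Real.log H + Real.log (1 / (δ₀ * (1 / 2) ^ m / 16))) + c ≤
      s4a_pl C' (Real.log H + Real.log (8 / δ₀)) := by
  set g : ℕ → ℝ := fun m => (1 / 2 : ℝ) ^ m * ((m : ℝ) + 2) ^ C with hg
  have hsum : Summable g := by
    have h0 : Summable (fun n : ℕ => ((n : ℝ)) ^ C * (1 / 2 : ℝ) ^ n) :=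
      summable_pow_mul_geometric_of_norm_lt_one C (by rw [Real.norm_eq_abs, abs_of_pos] <;> norm_num)
    have h1 := ((summable_nat_add_iff 2).2 h0).mul_left 4
    refine h1.congr fun m => ?_
    simp only [hg]
    push_cast
    rw [pow_add]
    ring
  set KC : ℝ := ∑' m, g m with hKC
  have hg0 : ∀ m, 0 ≤ g m := fun m => by simp only [hg]; positivity
  have hKC0 : 0 ≤ KC := tsum_nonneg hg0
  refine ⟨C * ⌈KC⌉₊ + ⌈c⌉₊ + C, fun H δ₀ M hH hδ hδ4 => ?_⟩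
  have hH1 : (1 : ℝ) ≤ H := le_trans (Real.one_le_exp (by norm_num : (0 : ℝ) ≤ 2)) hH
  set y : ℝ := Real.log H + Real.log (8 / δ₀) with hy
  have hy0 : 0 ≤ y := add_nonneg (Real.log_nonneg hH1) (Real.log_nonneg (by
    rw [le_div_iff₀ hδ]; linarith))
  have hl2 : Real.log 2 ≤ 1 := by
    have := Real.log_two_lt_d9
    linarith
  have hl20 : 0 ≤ Real.log 2 := Real.log_nonneg (by norm_num)
  have hterm : ∀ m : ℕ, (1 / 2 : ℝ) ^ m * s4a_pl C (Real.log H + Real.log (1 / (δ₀ * (1 / 2) ^ m / 16))) ≤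
      (C : ℝ) * (1 + y) ^ C * g m := by
    intro m
    have e1 : Real.log (1 / (δ₀ * (1 / 2) ^ m / 16)) = Real.log (8 / δ₀) + ((m : ℝ) + 1) * Real.log 2 := by
      have : 1 / (δ₀ * (1 / 2) ^ m / 16) = 8 / δ₀ * 2 ^ (m + 1) := by
        rw [one_div_pow, pow_succ]
        field_simp
        norm_num
      rw [this, Real.log_mul (by positivity) (by positivity), Real.log_pow]
      push_cast
      ring
    rw [e1, ← add_assoc, ← hy]
    have hm0 : (0 : ℝ) ≤ (m : ℝ) := Nat.cast_nonneg _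
    have h1 : 1 + (y + ((m : ℝ) + 1) * Real.log 2) ≤ (1 + y) * ((m : ℝ) + 2) := by
      have : ((m : ℝ) + 1) * Real.log 2 ≤ ((m : ℝ) + 1) * 1 := mul_le_mul_of_nonneg_left hl2 (by linarith)
      nlinarith
    have h2 : (1 + (y + ((m : ℝ) + 1) * Real.log 2)) ^ C ≤ (1 + y) ^ C * ((m : ℝ) + 2) ^ C := by
      rw [← mul_pow]
      exact pow_le_pow_left₀ (by positivity) h1 _
    unfold s4a_pl
    simp only [hg]
    calc (1 / 2 : ℝ) ^ m * ((C : ℝ) * (1 + (y + ((m : ℝ) + 1) * Real.log 2)) ^ C)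
        ≤ (1 / 2 : ℝ) ^ m * ((C : ℝ) * ((1 + y) ^ C * ((m : ℝ) + 2) ^ C)) := by gcongr
      _ = _ := by ring
  have hS : ∑ m ∈ Finset.range M, (1 / 2 : ℝ) ^ m * s4a_pl C (Real.log H + Real.log (1 / (δ₀ * (1 / 2) ^ m / 16))) ≤
      (C : ℝ) * (1 + y) ^ C * KC := by
    calc _ ≤ ∑ m ∈ Finset.range M, (C : ℝ) * (1 + y) ^ C * g m := Finset.sum_le_sum fun m _ => hterm m
      _ = (C : ℝ) * (1 + y) ^ C * ∑ m ∈ Finset.range M, g m := by rw [Finset.mul_sum]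
      _ ≤ (C : ℝ) * (1 + y) ^ C * KC :=
          mul_le_mul_of_nonneg_left (hsum.sum_le_tsum _ fun m _ => hg0 m) (by positivity)
  have hp1 : (1 : ℝ) ≤ (1 + y) ^ C := one_le_pow₀ (by linarith)
  have hpp : (1 + y) ^ C ≤ (1 + y) ^ (C * ⌈KC⌉₊ + ⌈c⌉₊ + C) := pow_le_pow_right₀ (by linarith) (by omega)
  have hK' : KC ≤ (⌈KC⌉₊ : ℝ) := Nat.le_ceil _
  have hc' : c ≤ (⌈c⌉₊ : ℝ) := Nat.le_ceil _
  refine (add_le_add hS le_rfl).trans ?_
  unfold s4a_pl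
  push_cast
  have hC0 : (0 : ℝ) ≤ (C : ℝ) := Nat.cast_nonneg _
  calc (C : ℝ) * (1 + y) ^ C * KC + c
      ≤ (C : ℝ) * (1 + y) ^ C * (⌈KC⌉₊ : ℝ) + (⌈c⌉₊ : ℝ) * (1 + y) ^ C := by
        have a1 : (C : ℝ) * (1 + y) ^ C * KC ≤ (C : ℝ) * (1 + y) ^ C * (⌈KC⌉₊ : ℝ) :=
          mul_le_mul_of_nonneg_left hK' (by positivity)
        have a2 : (⌈c⌉₊ : ℝ) * 1 ≤ (⌈c⌉₊ : ℝ) * (1 + y) ^ C := mul_le_mul_of_nonneg_left hp1 (Nat.cast_nonneg _)
        linarith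
    _ ≤ ((C : ℝ) * (⌈KC⌉₊ : ℝ) + (⌈c⌉₊ : ℝ) + (C : ℝ)) * (1 + y) ^ C := by nlinarith
    _ ≤ ((C : ℝ) * (⌈KC⌉₊ : ℝ) + (⌈c⌉₊ : ℝ) + (C : ℝ)) * (1 + y) ^ (C * ⌈KC⌉₊ + ⌈c⌉₊ + C) :=
        mul_le_mul_of_nonneg_left hpp (by positivity)

theorem s5a_crude_num (C : ℕ) : ∃ C' : ℕ, ∀ H : ℝ, Real.exp 2 ≤ H →
    4 * s4a_pl C (Real.log H + Real.log (8 / 4)) ≤ s4a_pl C' (Real.log H) := by
  set V : ℝ → Prop := fun H => Real.exp 2 ≤ H with hV
  set x : ℝ → ℝ := fun H => Real.log H with hxdef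
  have hx : ∀ p, V p → 0 ≤ x p := fun p hp =>
    Real.log_nonneg (le_trans (Real.one_le_exp (by norm_num : (0 : ℝ) ≤ 2)) hp)
  obtain ⟨C', hC'⟩ := (s4a_IsPL.const hx 4 (by norm_num)).mul hx (s4a_IsPL.comp hx C
    ((s4a_IsPL.size hx).add hx (s4a_IsPL.const hx (Real.log (8 / 4)) (Real.log_nonneg (by norm_num)))))
  exact ⟨C', fun H hH => (hC' H hH).2⟩

/-- one peeling step -/
theorem s5a_low_step (hW : s4a_Weyl1) (c0 C0 : ℝ) (hSS : s5a_SS c0 C0) :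
    ∃ C : ℕ, ∀ {J : Cell} {A : Finset Cell} {w : Cell → ℝ × ℝ → ℂ} {a b : Fin 4}, s5a_Std c0 C0 J A w a b →
    ∀ (Q : Chart) (H : ℝ), Q.Cplx H → Q.Bdd → ∀ δ : ℝ, 0 < δ → δ ≤ 4 → (∀ I ∈ A, s4a_Ar Q.eval I.len ≤ δ) →
    ∀ (f g : Cell → ℝ → ℂ) (Ma Mb : ℝ), s5a_SRow J f Ma → s5a_SRow J g Mb →
      ∃ A' : Finset Cell, A' ⊆ A ∧ (∀ I ∈ A', s4a_Ar Q.eval I.len ≤ δ / 2) ∧
        s5a_sum A w a b (fun _ p => Q.eval p.2) f g ≤
          δ * s4a_pl C (Real.log H + Real.log (1 / (δ / 16))) * Ma * Mb + s5a_sum A' w a b (fun _ p => Q.eval p.2) f g := by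
  classical
  obtain ⟨C, hband⟩ := s5a_band hW c0 C0 hSS
  refine ⟨C, ?_⟩
  intro J A w a b hS Q H hQ hQb δ hδ0 hδ4 hA f g Ma Mb hf hg
  have hMa := hf.nonneg
  have hMb := hg.nonneg
  by_cases hne : (A.filter fun I => δ / 2 < s4a_Ar Q.eval I.len).Nonempty
  · obtain ⟨I₁, hI₁, hmax⟩ := Finset.exists_max_image _ Cell.len hne
    refine ⟨A.filter (fun I => ¬ I.len ≤ I₁.len), Finset.filter_subset _ _, ?_, ?_⟩
    · intro I hI
      by_contra hcon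
      exact (Finset.mem_filter.1 hI).2 (hmax I (Finset.mem_filter.2 ⟨(Finset.mem_filter.1 hI).1, not_le.1 hcon⟩))
    · have hsplit : s5a_sum A w a b (fun _ p => Q.eval p.2) f g =
          s5a_sum (A.filter fun I => I.len ≤ I₁.len) w a b (fun _ p => Q.eval p.2) f g +
          s5a_sum (A.filter fun I => ¬ I.len ≤ I₁.len) w a b (fun _ p => Q.eval p.2) f g := by
        rw [← s5a_sum_union _ _ (Finset.disjoint_filter_filter_not _ _ _), Finset.filter_union_filter_not_eq]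
      rw [hsplit]
      have h1 := (Finset.mem_filter.1 hI₁).2
      have := hband (hS.mono (Finset.filter_subset (fun I => I.len ≤ I₁.len) A)) Q H hQ hQb (δ / 16) δ I₁.len (by positivity)
        (by linarith) (by linarith) (cell_len_pos _) (by linarith) (fun I hI => (Finset.mem_filter.1 hI).2)
        (fun I hI => hA I (Finset.mem_filter.1 hI).1) f g Ma Mb hf hg
      linarith
  · refine ⟨A, Finset.Subset.refl _, ?_, ?_⟩
    · intro I hI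
      by_contra hcon
      exact hne ⟨I, Finset.mem_filter.2 ⟨hI, not_le.1 hcon⟩⟩
    · have hlogH : 0 ≤ Real.log H := Real.log_nonneg (le_trans (Real.one_le_exp (by norm_num)) hQ.H_ge)
      have hx : 0 ≤ Real.log H + Real.log (1 / (δ / 16)) :=
        add_nonneg hlogH (Real.log_nonneg (by rw [le_div_iff₀ (by positivity)]; linarith))
      have := s4a_pl_nonneg C hx
      have h0 : 0 ≤ δ * s4a_pl C (Real.log H + Real.log (1 / (δ / 16))) * Ma * Mb := by positivity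
      linarith

/-- **Lemma 5.1, display (5)** -/
theorem s5a_low (hW : s4a_Weyl1) (c0 C0 : ℝ) (hSS : s5a_SS c0 C0) :
    ∃ C : ℕ, ∀ {J : Cell} {A : Finset Cell} {w : Cell → ℝ × ℝ → ℂ} {a b : Fin 4}, s5a_Std c0 C0 J A w a b →
    ∀ (Q : Chart) (H : ℝ), Q.Cplx H → Q.Bdd → ∀ δ₀ : ℝ, 0 < δ₀ → δ₀ ≤ 4 → (∀ I ∈ A, s4a_Ar Q.eval I.len ≤ δ₀) →
    ∀ (f g : Cell → ℝ → ℂ) (Ma Mb : ℝ), s5a_SRow J f Ma → s5a_SRow J g Mb →
      s5a_sum A w a b (fun _ p => Q.eval p.2) f g ≤ δ₀ * s4a_pl C (Real.log H + Real.log (8 / δ₀)) * Ma * Mb := by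
  classical
  obtain ⟨C, hstep⟩ := s5a_low_step hW c0 C0 hSS
  obtain ⟨Css, hCss0, hss⟩ := s5a_sum_ss hSS
  obtain ⟨C', hnum⟩ := s5a_low_num C Css hCss0
  refine ⟨C', ?_⟩
  intro J A w a b hS Q H hQ hQb δ₀ hδ0 hδ4 hA f g Ma Mb hf hg
  have hMa := hf.nonneg
  have hMb := hg.nonneg
  have iter : ∀ M : ℕ, ∃ A' : Finset Cell, A' ⊆ A ∧ (∀ I ∈ A', s4a_Ar Q.eval I.len ≤ δ₀ * (1 / 2) ^ M) ∧
      s5a_sum A w a b (fun _ p => Q.eval p.2) f g ≤
        δ₀ * (∑ m ∈ Finset.range M, (1 / 2 : ℝ) ^ m * s4a_pl C (Real.log H + Real.log (1 / (δ₀ * (1 / 2) ^ m / 16)))) * Ma * Mb +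
          s5a_sum A' w a b (fun _ p => Q.eval p.2) f g := by
    intro M
    induction M with
    | zero => exact ⟨A, Finset.Subset.refl _, by simpa using hA, by simp⟩
    | succ M ih =>
      obtain ⟨A', hsub, hAr, hle⟩ := ih
      have hp : (0 : ℝ) < (1 / 2) ^ M := by positivity
      have hp1 : ((1 : ℝ) / 2) ^ M ≤ 1 := pow_le_one₀ (by norm_num) (by norm_num)
      obtain ⟨A'', hsub', hAr', hle'⟩ := hstep (hS.mono hsub) Q H hQ hQb (δ₀ * (1 / 2) ^ M) (by positivity)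
        (by nlinarith) hAr f g Ma Mb hf hg
      refine ⟨A'', hsub'.trans hsub, ?_, ?_⟩
      · intro I hI
        have := hAr' I hI
        rw [pow_succ]
        linarith
      · rw [Finset.sum_range_succ]
        calc s5a_sum A w a b (fun _ p => Q.eval p.2) f g ≤ _ := hle
          _ ≤ _ := add_le_add_right hle' _
          _ = _ := by ring
  obtain ⟨A', hsub, hAr, hle⟩ := iter A.card
  have hrest := hss (hS.mono hsub) Q.eval (s4b_eval_continuous hQ) hQb _ hAr f g Ma Mb hf hg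
  have hcard : ((A'.image Cell.depth).card : ℝ) ≤ (A.card : ℝ) := by
    exact_mod_cast le_trans Finset.card_image_le (Finset.card_le_card hsub)
  have hpow : ((1 : ℝ) / 2) ^ A.card * (A.card : ℝ) ≤ 1 := by
    have h1 : (A.card : ℝ) ≤ 2 ^ A.card := by exact_mod_cast (Nat.lt_two_pow_self).le
    rw [one_div, inv_pow, inv_mul_le_iff₀ (by positivity)]
    linarith
  have hrest' : s5a_sum A' w a b (fun _ p => Q.eval p.2) f g ≤ δ₀ * Css * Ma * Mb := by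
    refine le_trans hrest ?_
    have h2 : ((1 : ℝ) / 2) ^ A.card * ((A'.image Cell.depth).card : ℝ) ≤ 1 :=
      le_trans (mul_le_mul_of_nonneg_left hcard (by positivity)) hpow
    calc Css * (δ₀ * (1 / 2) ^ A.card) * ((A'.image Cell.depth).card : ℝ) * Ma * Mb
        = δ₀ * Css * Ma * Mb * ((1 / 2) ^ A.card * ((A'.image Cell.depth).card : ℝ)) := by ring
      _ ≤ δ₀ * Css * Ma * Mb * 1 := by
          apply mul_le_mul_of_nonneg_left h2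
          positivity
      _ = δ₀ * Css * Ma * Mb := by ring
  have hn := hnum H δ₀ A.card hQ.H_ge hδ0 hδ4
  calc s5a_sum A w a b (fun _ p => Q.eval p.2) f g
      ≤ δ₀ * (∑ m ∈ Finset.range A.card, (1 / 2 : ℝ) ^ m * s4a_pl C (Real.log H + Real.log (1 / (δ₀ * (1 / 2) ^ m / 16)))) * Ma * Mb +
          δ₀ * Css * Ma * Mb := by linarith
    _ = δ₀ * (∑ m ∈ Finset.range A.card, (1 / 2 : ℝ) ^ m * s4a_pl C (Real.log H + Real.log (1 / (δ₀ * (1 / 2) ^ m / 16))) + Css) *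
          Ma * Mb := by ring
    _ ≤ δ₀ * s4a_pl C' (Real.log H + Real.log (8 / δ₀)) * Ma * Mb := by gcongr

/-- the crude bound for one chart multiplier -/
theorem s5a_crude (hW : s4a_Weyl1) (c0 C0 : ℝ) (hSS : s5a_SS c0 C0) :
    ∃ C : ℕ, ∀ {J : Cell} {A : Finset Cell} {w : Cell → ℝ × ℝ → ℂ} {a b : Fin 4}, s5a_Std c0 C0 J A w a b →
    ∀ (Q : Chart) (H : ℝ), Q.Cplx H → Q.Bdd →
    ∀ (f g : Cell → ℝ → ℂ) (Ma Mb : ℝ), s5a_SRow J f Ma → s5a_SRow J g Mb →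
      s5a_sum A w a b (fun _ p => Q.eval p.2) f g ≤ s4a_pl C (Real.log H) * Ma * Mb := by
  obtain ⟨C, hlow⟩ := s5a_low hW c0 C0 hSS
  obtain ⟨C', hnum⟩ := s5a_crude_num C
  refine ⟨C', ?_⟩
  intro J A w a b hS Q H hQ hQb f g Ma Mb hf hg
  have hMa := hf.nonneg
  have hMb := hg.nonneg
  refine le_trans (hlow hS Q H hQ hQb 4 (by norm_num) le_rfl (fun I _ => s5a_Ar_le _ hQb _) f g Ma Mb hf hg) ?_
  have := hnum H hQ.H_ge
  gcongr

end Claimed.Agent.R258
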