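/-
Row 258, block [S5a] (architect helper192).  FILE Pred: **a predictor-small sequence in the slot `a`** (base.tex l.330-420 = Lemma 5.3, display (7), reorganized).
Leaves: P-S5a-PRED1 (`s5a_pred_lin`), P-S5a-PRED2 (`s5a_omv_bump`, `s5a_pred_quad`).   `s5a_pred` = assembly (helper192).     No paper.
Uses the STATEMENTS of Td.lean, Cnt.lean, Shape.lean, Rows.lean, Form.lean, S4a/Lat.lean.

`s5a_Small J d η0 η1` provides `X0, X1 : Cell → ℝ` with `|∫ om d_I| ≤ S √|I| X0 I` (mean-zero bumps), `≤ S √|I| X1 I` (all bumps), `∑_{I ∈ A} X0² ≤ η0²` (all finite `A` below `J`), `∑ X1² ≤ η1²` (antichains).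
PRED1 (multiplier `1`).  `s5a_td_form` with `γ = 0` (`ee (0 * t) = 1`: `s5a_sum_congr`/`s5a_formG_congr`; `-(0/κ) = 0`):
      `|I| formG I w 1 d_I g_I = ∑_ℓ A^I_ℓ |κ|⁻¹ rw I ℓ0 0 d_I · rw I ℓ1 0 g_I`,   `‖A^I_ℓ‖ ≤ 16 X8 (1+‖ℓ‖)^{-8}`.
   `|rw I k 0 d_I| = (√|I|)⁻¹ |∫ bump_{I,k} d_I| ≤ S_k X0 I`, `S_k = Cχ (1+|k|)` (`s5a_bump_bump`, `s5a_bump_int`; `ee (0*u) = 1`).
   `∑_{I ∈ A} |rw I k 0 g_I|² ≤ 8 S_k² Mb²`: `s5a_SRow.rows` with `ι = Cell`, `s = A`, `u = id`, `ρ_I = (√|I|)⁻¹ bump_{I,k}`, `𝔅 = 2 S_k² · 4`; Bessel hypothesis = `s5a_mb` with `N s = {0}`, `𝔥 = 4` (`s5a_cnt1` with `x = 2π ζ`).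
   Cauchy-Schwarz over `I ∈ A`, then `∑'_ℓ`: `∑_I |I| |formG| ≤ ∑'_ℓ 16 X8 (1+‖ℓ‖)^{-8} S_{ℓ0} η0 √8 S_{ℓ1} Mb ≤ 16 X8 · 3 Cχ² · 16 · η0 Mb`   (`(1+|ℓ0|)(1+|ℓ1|) ≤ (1+‖ℓ‖)²`, `∑' (1+‖ℓ‖)^{-4} ≤ 16`: `s4a_lat_tsum_le`, `ι = Fin 2`).
   (Same bookkeeping as in `s5a_je`: interchange of the finite sum over `I` and `∑'_ℓ`.)
PRED2 (multiplier `e(lam t²) - 1`).
   `s5a_omv_bump`: for fixed `v`, `om_v(u) = w(X u v) (e(lam ((v-u)/κ)²) - 1)` is a bump on `I` with `S = C |lam| |I|²`:  smooth (composition);  support: `w (X u v) ≠ 0 → left < u < right` (`s5a_supp` for the slot `a`, `s5a_X_slot`);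
     sup: on the support `|t| ≤ |I|/3`, `|e(x) - 1| ≤ 2π|x|`;   derivative: `∂_u [w ∘ X] = Dw(X)(1 + a/κ, -1/κ)`, `‖Dw‖ ≤ |I|⁻¹ (3 C0)^(3 C0)` (`Admissible.deriv 1`, `norm_iteratedFDeriv_one`/`iteratedFDeriv_one_apply`), `‖(1 + a/κ, -1/κ)‖ ≤ 4`;
     where `Dw(X u v) ≠ 0` the point lies in the closure of `{w ≠ 0}`, on which the CLOSED conditions of `Admissible.supp` persist, so again `|t| ≤ |I|/3`  (or: if `w = 0` in a neighbourhood the derivative vanishes; otherwise approximate);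
     `|∂_u e(lam ((v-u)/κ)²)| = 2π |lam| 2|t|/|κ| ≤ 4π |lam| |I|/3` on the support of `w ∘ X`.
   `s5a_formG_cv` (`G p = e(lam p.2²) - 1`, bounded by `2`, measurable):  `formG = |I|⁻² |κ|⁻¹ ∫ g(v) (∫ om_v(u) d(u) du) dv`; the inner integral vanishes unless `v ∈ I` and is `≤ S √|I| X1 I`;  `∫_I |g| ≤ √|I| ‖g‖_{L²(I)}` (`s5a_l1_le`).  Hence
      `|I| |formG I …| ≤ C |lam| |I|² X1(I) ‖g_I‖_{L²(I)}`.
   Sum over the cells of one depth `s` (antichain: `s5a_antichain_depth`): Cauchy-Schwarz, `∑ X1² ≤ η1²`, `∑ ‖g_I‖²_{L²(I)} ≤ Mb²` (`s5a_SRow.l2`): `≤ C |lam| (2^{-s})² η1 Mb`;  sum over the depths: `s5a_geo` (`n = 2`, `X = D`): `≤ 2 C D η1 Mb`.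
-/
import Claimed.Agent.R258.S5a.Je

set_option autoImplicit false
open MeasureTheory
open scoped ENNReal ContDiff ComplexConjugate

namespace Claimed.Agent.R258

theorem s5a_prd_ee_zero : ee 0 = 1 := by
  unfold ee
  simp

/-- a unimodular phase turning `z` into `‖z‖` -/
theorem s5a_prd_phase (z : ℂ) : ∃ θ : ℂ, ‖θ‖ ≤ 1 ∧ θ * z = (‖z‖ : ℂ) := by
  by_cases hz : z = 0
  · exact ⟨0, by simp, by simp [hz]⟩
  · refine ⟨conj z / (‖z‖ : ℂ), ?_, ?_⟩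
    · rw [norm_div, RCLike.norm_conj, Complex.norm_real, norm_norm, div_self (norm_ne_zero_iff.2 hz)]
    · have h1 : (‖z‖ : ℂ) ≠ 0 := by exact_mod_cast norm_ne_zero_iff.2 hz
      rw [div_mul_eq_mul_div, Complex.conj_mul', div_eq_iff h1]
      ring

/-- the unmodulated row -/
theorem s5a_prd_rw0 (c0 : ℝ) (I : Cell) (k : ℤ) (f : ℝ → ℂ) :
    s5a_rw c0 I k 0 f = ((Real.sqrt I.len)⁻¹ : ℝ) * ∫ u : ℝ, s5a_bump c0 I k u * f u := by
  unfold s5a_rw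
  congr 2
  funext u
  rw [zero_mul, s5a_prd_ee_zero, mul_one]

theorem s5a_prd_rw0' (c0 : ℝ) (I : Cell) (k : ℤ) (f : ℝ → ℂ) :
    s5a_rw c0 I k 0 f = ∫ u : ℝ, (((Real.sqrt I.len)⁻¹ : ℝ) : ℂ) * s5a_bump c0 I k u * f u := by
  rw [s5a_prd_rw0, ← integral_const_mul]
  congr 1
  funext u
  ring

/-- the rows of a predictor-small sequence -/
theorem s5a_prd_small_row {c0 : ℝ} (hc0 : 0 < c0) {Cχ : ℝ}
    (hb : ∀ (I : Cell) (k : ℤ), s5a_Bump I (Cχ * (1 + |(k : ℝ)|)) (s5a_bump c0 I k)) {I : Cell} {dI : ℝ → ℂ} {x0 : ℝ}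
    (h : ∀ (om : ℝ → ℂ) (S : ℝ), s5a_Bump I S om → ∫ u, om u = 0 → ‖∫ u, om u * dI u‖ ≤ S * Real.sqrt I.len * x0) (k : ℤ) :
    ‖s5a_rw c0 I k 0 dI‖ ≤ Cχ * (1 + |(k : ℝ)|) * x0 := by
  have hs : 0 < Real.sqrt I.len := Real.sqrt_pos.2 (cell_len_pos I)
  rw [s5a_prd_rw0, norm_mul, Complex.norm_real, Real.norm_of_nonneg (inv_nonneg.2 hs.le)]
  have h1 := h _ _ (hb I k) (s5a_bump_int hc0 I k)
  calc (Real.sqrt I.len)⁻¹ * ‖∫ u, s5a_bump c0 I k u * dI u‖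
      ≤ (Real.sqrt I.len)⁻¹ * (Cχ * (1 + |(k : ℝ)|) * Real.sqrt I.len * x0) :=
        mul_le_mul_of_nonneg_left h1 (inv_nonneg.2 hs.le)
    _ = Cχ * (1 + |(k : ℝ)|) * x0 := by
        field_simp

/-- the rows of a sequence with the row bound -/
theorem s5a_prd_rows {c0 : ℝ} (hc0 : 0 < c0) {Cχ : ℝ}
    (hb : ∀ (I : Cell) (k : ℤ), s5a_Bump I (Cχ * (1 + |(k : ℝ)|)) (s5a_bump c0 I k)) {J : Cell} {A : Finset Cell}
    (hA : ∀ I ∈ A, I ≤ J) {g : Cell → ℝ → ℂ} {Mb : ℝ} (hg : s5a_SRow J g Mb) (k : ℤ) :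
    ∑ I ∈ A, ‖s5a_rw c0 I k 0 (g I)‖ ^ 2 ≤ 2 * (Cχ * (1 + |(k : ℝ)|)) ^ 2 * 4 * Mb ^ 2 := by
  classical
  have h1 := hg.rows Cell A id (fun I y => (((Real.sqrt I.len)⁻¹ : ℝ) : ℂ) * s5a_bump c0 I k y)
    (2 * (Cχ * (1 + |(k : ℝ)|)) ^ 2 * 4) (by positivity) hA (fun I _ => (hb I k).memLp.const_mul _)
    (fun I _ y hy => by
      show _ * s5a_bump c0 I k y = 0
      rw [(hb I k).eq_zero hy, mul_zero]) ?_
  · refine le_trans (le_of_eq ?_) h1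
    refine Finset.sum_congr rfl fun I _ => ?_
    rw [s5a_prd_rw0']
    rfl
  · intro f hf
    have h2 := s5a_mb A (fun _ => {0}) 4 ?_ (fun I => s5a_bump c0 I k) (Cχ * (1 + |(k : ℝ)|)) (fun I _ => hb I k)
      (fun I _ => s5a_bump_int hc0 I k) f hf
    · refine le_trans (le_of_eq ?_) h2
      refine Finset.sum_congr rfl fun I _ => ?_
      rw [Finset.sum_singleton]
      have := s5a_prd_rw0' c0 I k f
      unfold s5a_rw at this
      rw [this]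
    · intro ζ
      refine le_trans (le_of_eq ?_) (s5a_cnt1 (A.image Cell.depth) (2 * Real.pi * ζ))
      refine Finset.sum_congr rfl fun s _ => ?_
      rw [Finset.sum_singleton, add_zero]
      congr 1
      ring

/-- Cauchy-Schwarz over the cells -/
theorem s5a_prd_cs (A : Finset Cell) (P R X0 : Cell → ℝ) (S0 S1 η0 Mb : ℝ) (hS0 : 0 ≤ S0) (hS1 : 0 ≤ S1) (hη : 0 ≤ η0)
    (hM : 0 ≤ Mb) (hR0 : ∀ I, 0 ≤ R I) (hP : ∀ I ∈ A, P I ≤ S0 * X0 I) (hX : ∑ I ∈ A, X0 I ^ 2 ≤ η0 ^ 2)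
    (hR : ∑ I ∈ A, R I ^ 2 ≤ 2 * S1 ^ 2 * 4 * Mb ^ 2) :
    ∑ I ∈ A, P I * R I ≤ S0 * η0 * (3 * S1 * Mb) := by
  have h1 : ∑ I ∈ A, P I * R I ≤ S0 * ∑ I ∈ A, X0 I * R I := by
    rw [Finset.mul_sum]
    refine Finset.sum_le_sum fun I hI => ?_
    rw [← mul_assoc]
    exact mul_le_mul_of_nonneg_right (hP I hI) (hR0 I)
  have h2 := Real.sum_mul_le_sqrt_mul_sqrt A X0 R
  have h3 : Real.sqrt (∑ I ∈ A, X0 I ^ 2) ≤ η0 := Real.sqrt_le_iff.2 ⟨hη, hX⟩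
  have h4 : Real.sqrt (∑ I ∈ A, R I ^ 2) ≤ 3 * S1 * Mb := by
    refine Real.sqrt_le_iff.2 ⟨by positivity, hR.trans ?_⟩
    nlinarith [mul_nonneg (sq_nonneg S1) (sq_nonneg Mb)]
  calc ∑ I ∈ A, P I * R I ≤ S0 * ∑ I ∈ A, X0 I * R I := h1
    _ ≤ S0 * (η0 * (3 * S1 * Mb)) :=
        mul_le_mul_of_nonneg_left (h2.trans (mul_le_mul h3 h4 (Real.sqrt_nonneg _) hη)) hS0
    _ = _ := by ring

/-- PRED1 -/
theorem s5a_pred_lin (c0 C0 : ℝ) : ∃ C : ℝ, 0 ≤ C ∧ ∀ {J : Cell} {A : Finset Cell} {w : Cell → ℝ × ℝ → ℂ} {a b : Fin 4},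
    s5a_Std c0 C0 J A w a b → ∀ (d g : Cell → ℝ → ℂ) (η0 η1 Mb : ℝ), s5a_Small J d η0 η1 → s5a_SRow J g Mb →
      s5a_sum A w a b (fun _ _ => 1) d g ≤ C * η0 * Mb := by
  by_cases hcc : 0 < c0 ∧ 1 ≤ C0
  swap
  · exact ⟨0, le_rfl, fun hS => absurd ⟨hS.c0_pos, hS.C0_ge⟩ hcc⟩
  obtain ⟨hc0, hC0⟩ := hcc
  obtain ⟨Cχ, hCχ, hb⟩ := s5a_bump_bump hc0
  have hCχ0 : 0 ≤ Cχ := le_trans (by norm_num) hCχ
  have hX8 : 0 ≤ s5a_X8 C0 := by
    unfold s5a_X8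
    positivity
  refine ⟨16 * s5a_X8 C0 * Cχ ^ 2 * 3 * 16, by positivity, ?_⟩
  intro J A w a b hS d g η0 η1 Mb hd hg
  obtain ⟨X0, X1, hX0, hX1, hm0, hm1, hs0, hs1⟩ := hd.ex
  have hη0 := hd.nonneg0
  have hMb := hg.nonneg
  have htd := fun I (hI : I ∈ A) => s5a_td_form hc0 hC0 (hS.adm I hI) hS.ne
  choose! Ac hAc1 hAc2 using htd
  choose θ hθ1 hθ2 using fun I => s5a_prd_phase ((I.len : ℂ) * s5a_formG I (w I) a b (fun _ => 1) (d I) (g I))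
  obtain ⟨term, hterm_def⟩ : ∃ term : Cell → (Fin 2 → ℤ) → ℂ, term = fun I ℓ =>
      Ac I ℓ * ((|s5a_kap a b|⁻¹ : ℝ) : ℂ) * s5a_rw c0 I (ℓ 0) 0 (d I) * s5a_rw c0 I (ℓ 1) 0 (g I) := ⟨_, rfl⟩
  have hterm : ∀ I ∈ A, HasSum (term I) ((I.len : ℂ) * s5a_formG I (w I) a b (fun _ => 1) (d I) (g I)) := by
    intro I hI
    have h1 := hAc2 I hI 0 (d I) (g I) (hd.mem I) (hg.mem I)
    simp only [zero_div, neg_zero, zero_mul, s5a_prd_ee_zero] at h1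
    rw [hterm_def]
    exact h1
  have hsum : HasSum (fun ℓ => ∑ I ∈ A, θ I * term I ℓ)
      (∑ I ∈ A, θ I * ((I.len : ℂ) * s5a_formG I (w I) a b (fun _ => 1) (d I) (g I))) :=
    hasSum_sum fun I hI => (hterm I hI).mul_left (θ I)
  have hval : (∑ I ∈ A, θ I * ((I.len : ℂ) * s5a_formG I (w I) a b (fun _ => 1) (d I) (g I))) =
      ((s5a_sum A w a b (fun _ _ => 1) d g : ℝ) : ℂ) := by
    unfold s5a_sum
    rw [Complex.ofReal_sum]
    refine Finset.sum_congr rfl fun I _ => ?_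
    rw [hθ2, norm_mul, Complex.norm_real, Real.norm_of_nonneg (cell_len_nonneg I)]
  obtain ⟨K, hK⟩ : ∃ K : ℝ, K = 16 * s5a_X8 C0 * Cχ ^ 2 * 3 * η0 * Mb := ⟨_, rfl⟩
  have hK0 : 0 ≤ K := by
    rw [hK]
    positivity
  have hκ : |s5a_kap a b|⁻¹ ≤ 1 := inv_le_one_of_one_le₀ (s5a_one_le_abs_kap hS.ne)
  have hκ0 : 0 ≤ |s5a_kap a b|⁻¹ := inv_nonneg.2 (abs_nonneg _)
  have hbound : ∀ ℓ : Fin 2 → ℤ, ‖∑ I ∈ A, θ I * term I ℓ‖ ≤ K * ((1 + ‖ℓ‖) ^ (2 * Fintype.card (Fin 2)))⁻¹ := by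
    intro ℓ
    obtain ⟨n, hn⟩ : ∃ n : ℝ, n = 1 + ‖ℓ‖ := ⟨_, rfl⟩
    have hn1 : 1 ≤ n := by
      rw [hn]
      linarith [norm_nonneg ℓ]
    have hn0 : 0 < n := by linarith
    have hl : ∀ i, 1 + |((ℓ i : ℤ) : ℝ)| ≤ n := by
      intro i
      have := norm_le_pi_norm ℓ i
      rw [Int.norm_eq_abs] at this
      rw [hn]
      linarith
    rw [← hn, Fintype.card_fin]
    have h1 : ‖∑ I ∈ A, θ I * term I ℓ‖ ≤
        16 * s5a_X8 C0 * (n ^ 8)⁻¹ * ∑ I ∈ A, ‖s5a_rw c0 I (ℓ 0) 0 (d I)‖ * ‖s5a_rw c0 I (ℓ 1) 0 (g I)‖ := by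
      refine (norm_sum_le _ _).trans ?_
      rw [Finset.mul_sum]
      refine Finset.sum_le_sum fun I hI => ?_
      have h2 : ‖Ac I ℓ‖ ≤ 16 * s5a_X8 C0 * (n ^ 8)⁻¹ := by
        have := hAc1 I hI ℓ
        rw [← hn] at this
        rw [← div_eq_mul_inv, le_div_iff₀ (by positivity)]
        exact this
      rw [hterm_def]
      simp only [norm_mul, Complex.norm_real, Real.norm_of_nonneg hκ0]
      have h3 : ‖θ I‖ * (‖Ac I ℓ‖ * |s5a_kap a b|⁻¹) ≤ 16 * s5a_X8 C0 * (n ^ 8)⁻¹ := by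
        calc ‖θ I‖ * (‖Ac I ℓ‖ * |s5a_kap a b|⁻¹) ≤ 1 * (16 * s5a_X8 C0 * (n ^ 8)⁻¹ * 1) :=
              mul_le_mul (hθ1 I) (mul_le_mul h2 hκ hκ0 (by positivity)) (by positivity) zero_le_one
          _ = _ := by ring
      calc ‖θ I‖ * (‖Ac I ℓ‖ * |s5a_kap a b|⁻¹ * ‖s5a_rw c0 I (ℓ 0) 0 (d I)‖ * ‖s5a_rw c0 I (ℓ 1) 0 (g I)‖)
          = ‖θ I‖ * (‖Ac I ℓ‖ * |s5a_kap a b|⁻¹) * (‖s5a_rw c0 I (ℓ 0) 0 (d I)‖ * ‖s5a_rw c0 I (ℓ 1) 0 (g I)‖) := by ring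
        _ ≤ _ := mul_le_mul_of_nonneg_right h3 (by positivity)
    have h4 := s5a_prd_cs A (fun I => ‖s5a_rw c0 I (ℓ 0) 0 (d I)‖) (fun I => ‖s5a_rw c0 I (ℓ 1) 0 (g I)‖) X0
      (Cχ * (1 + |((ℓ 0 : ℤ) : ℝ)|)) (Cχ * (1 + |((ℓ 1 : ℤ) : ℝ)|)) η0 Mb (by positivity) (by positivity) hη0 hMb
      (fun I => norm_nonneg _) (fun I hI => s5a_prd_small_row hc0 hb (hm0 I (hS.le I hI)) (ℓ 0)) (hs0 A hS.le)
      (s5a_prd_rows hc0 hb hS.le hg (ℓ 1))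
    have h5 : (1 + |((ℓ 0 : ℤ) : ℝ)|) * (1 + |((ℓ 1 : ℤ) : ℝ)|) ≤ n ^ 2 := by
      rw [sq]
      exact mul_le_mul (hl 0) (hl 1) (by positivity) hn0.le
    have h6 : (n ^ 8)⁻¹ * n ^ 2 ≤ (n ^ (2 * 2))⁻¹ := by
      rw [← div_eq_inv_mul, div_le_iff₀ (by positivity), ← div_eq_inv_mul, le_div_iff₀ (by positivity), ← pow_add]
      exact pow_le_pow_right₀ hn1 (by norm_num)
    calc ‖∑ I ∈ A, θ I * term I ℓ‖
        ≤ 16 * s5a_X8 C0 * (n ^ 8)⁻¹ * (Cχ * (1 + |((ℓ 0 : ℤ) : ℝ)|) * η0 * (3 * (Cχ * (1 + |((ℓ 1 : ℤ) : ℝ)|)) * Mb)) :=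
          h1.trans (mul_le_mul_of_nonneg_left h4 (by positivity))
      _ = K * ((n ^ 8)⁻¹ * ((1 + |((ℓ 0 : ℤ) : ℝ)|) * (1 + |((ℓ 1 : ℤ) : ℝ)|))) := by
          rw [hK]
          ring
      _ ≤ K * ((n ^ 8)⁻¹ * n ^ 2) := by
          refine mul_le_mul_of_nonneg_left (mul_le_mul_of_nonneg_left h5 (by positivity)) hK0
      _ ≤ _ := mul_le_mul_of_nonneg_left h6 hK0
  have hfin := hsum.norm_le_of_bounded ((s4a_lat_summable (ι := Fin 2)).hasSum.mul_left K) hbound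
  rw [hval, Complex.norm_real, Real.norm_of_nonneg (s5a_sum_nonneg _ _ _ _ _ _ _)] at hfin
  calc s5a_sum A w a b (fun _ _ => 1) d g ≤ K * ∑' ℓ : Fin 2 → ℤ, ((1 + ‖ℓ‖) ^ (2 * Fintype.card (Fin 2)))⁻¹ := hfin
    _ ≤ K * 4 ^ Fintype.card (Fin 2) := mul_le_mul_of_nonneg_left s4a_lat_tsum_le hK0
    _ = _ := by
        rw [hK, Fintype.card_fin]
        ring

theorem s5a_prd_ee_smooth : ContDiff ℝ ∞ ee := by
  have := s5a_ee_contDiff 1
  simpa only [one_mul] using this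

theorem s5a_prd_ee_comp {φ : ℝ → ℝ} {φ' u : ℝ} (h : HasDerivAt φ φ' u) :
    HasDerivAt (fun u => ee (φ u)) (φ' • (2 * Real.pi * Complex.I * ee (φ u))) u := by
  have h1 := s5a_ee_hasDerivAt 1 (φ u)
  simp only [one_mul, Complex.ofReal_one, mul_one] at h1
  exact HasDerivAt.scomp u h1 h

theorem s5a_prd_X_hasDerivAt (a b : Fin 4) (u v : ℝ) :
    HasDerivAt (fun u => s5a_X a b u v) (1 - (a : ℝ) * ((0 - 1) / s5a_kap a b), (0 - 1) / s5a_kap a b) u := by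
  have ht : HasDerivAt (fun u : ℝ => (v - u) / s5a_kap a b) ((0 - 1) / s5a_kap a b) u :=
    ((hasDerivAt_const u v).sub (hasDerivAt_id u)).div_const _
  exact ((hasDerivAt_id u).sub (ht.const_mul (a : ℝ))).prodMk ht

theorem s5a_prd_X_smooth (a b : Fin 4) (v : ℝ) : ContDiff ℝ ∞ (fun u => s5a_X a b u v) := by
  unfold s5a_X
  fun_prop

theorem s5a_prd_dir_le {a b : Fin 4} (hab : a ≠ b) :
    ‖((1 - (a : ℝ) * ((0 - 1) / s5a_kap a b), (0 - 1) / s5a_kap a b) : ℝ × ℝ)‖ ≤ 4 := by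
  have h1 := s5a_one_le_abs_kap hab
  have h0 : 0 < |s5a_kap a b| := by linarith
  have ha := s5a_f_slot_le a
  have ha0 : (0 : ℝ) ≤ ((a : ℕ) : ℝ) := Nat.cast_nonneg _
  have h2 : |(0 - 1) / s5a_kap a b| ≤ 1 := by
    rw [abs_div, div_le_one h0]
    simpa using h1
  rw [Prod.norm_def, max_le_iff, Real.norm_eq_abs, Real.norm_eq_abs]
  refine ⟨?_, h2.trans (by norm_num)⟩
  have h3 : |(a : ℝ) * ((0 - 1) / s5a_kap a b)| ≤ 3 := by
    rw [abs_mul, abs_of_nonneg ha0]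
    nlinarith [abs_nonneg ((0 - 1) / s5a_kap a b)]
  calc |1 - (a : ℝ) * ((0 - 1) / s5a_kap a b)| ≤ |(1 : ℝ)| + |(a : ℝ) * ((0 - 1) / s5a_kap a b)| := abs_sub _ _
    _ ≤ 4 := by
      rw [abs_one]
      linarith

/-- the first derivative of an admissible kernel -/
theorem s5a_prd_fderiv_le {c0 C0 : ℝ} {I : Cell} {w : ℝ × ℝ → ℂ} (hw : Admissible c0 C0 I w) (p : ℝ × ℝ) :
    ‖fderiv ℝ w p‖ ≤ I.len⁻¹ * (C0 * 3) ^ (C0 * 3) := by
  have h := hw.deriv 1 p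
  rw [norm_iteratedFDeriv_one, pow_one] at h
  have e : ((1 : ℕ) : ℝ) + 2 = 3 := by norm_num
  rw [e] at h
  exact h

/-- `|e(lam t²) - 1| ≤ 2π |lam| t²` -/
theorem s5a_prd_E_le (lam t : ℝ) : ‖ee (lam * t ^ 2) - 1‖ ≤ 2 * Real.pi * (|lam| * t ^ 2) := by
  have h := s4a_ee_sub_le (lam * t ^ 2) 0
  rw [s4a_ee_zero, sub_zero, abs_mul, abs_of_nonneg (sq_nonneg t)] at h
  exact h

/-- the kernel with the quadratic correction, frozen at `v = y_b`, is a bump in `u = y_a` of size `C |lam| |I|²` -/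
theorem s5a_omv_bump (c0 C0 : ℝ) (hc0 : 0 < c0) (hC0 : 1 ≤ C0) : ∃ C : ℝ, 0 ≤ C ∧ ∀ (I : Cell) (w : ℝ × ℝ → ℂ) (a b : Fin 4),
    a ≠ b → Admissible c0 C0 I w → ∀ lam v : ℝ,
      s5a_Bump I (C * |lam| * I.len ^ 2) (fun u => w (s5a_X a b u v) * (ee (lam * (s5a_X a b u v).2 ^ 2) - 1)) := by
  obtain ⟨K1, hK1⟩ : ∃ K1 : ℝ, K1 = (C0 * 3) ^ (C0 * 3) := ⟨_, rfl⟩
  have hK10 : 0 ≤ K1 := by
    rw [hK1]
    positivity
  have hCw : 0 ≤ s5a_Cw C0 := le_trans zero_le_one (s5a_Cw_pos hC0)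
  refine ⟨3 * K1 + 5 * s5a_Cw C0, by positivity, ?_⟩
  intro I w a b hab hw lam v
  have hr := cell_len_pos I
  have hπ : Real.pi ≤ 3.15 := Real.pi_lt_d2.le
  have hπ0 := Real.pi_pos
  have hl0 : 0 ≤ |lam| := abs_nonneg lam
  -- size of the two factors where `|t| ≤ |I|/3`
  have hE : ∀ u : ℝ, |(s5a_X a b u v).2| ≤ I.len / 3 →
      ‖ee (lam * (s5a_X a b u v).2 ^ 2) - 1‖ ≤ 2 * Real.pi * (|lam| * (I.len ^ 2 / 9)) := by
    intro u hu
    refine (s5a_prd_E_le _ _).trans ?_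
    have : (s5a_X a b u v).2 ^ 2 ≤ I.len ^ 2 / 9 := by
      have := sq_le_sq' (abs_le.1 hu).1 (abs_le.1 hu).2
      nlinarith
    gcongr
  refine ⟨?_, ?_, ?_, ?_⟩
  · exact (hw.smooth.comp (s5a_prd_X_smooth a b v)).mul
      ((s5a_prd_ee_smooth.comp (contDiff_const.mul ((contDiff_snd.comp (s5a_prd_X_smooth a b v)).pow 2))).sub contDiff_const)
  · intro u hu
    have h1 : w (s5a_X a b u v) ≠ 0 := left_ne_zero_of_mul hu
    have h2 := s5a_supp hw hc0 h1 a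
    rw [(s5a_X_slot hab u v).1] at h2
    exact h2
  · intro u
    by_cases h1 : w (s5a_X a b u v) = 0
    · rw [h1, zero_mul, norm_zero]
      positivity
    · rw [norm_mul]
      have h2 := hE u (s5a_supp_t hw hc0 h1)
      have h3 := s5a_w_bound hw (s5a_X a b u v)
      calc ‖w (s5a_X a b u v)‖ * ‖ee (lam * (s5a_X a b u v).2 ^ 2) - 1‖
          ≤ s5a_Cw C0 * (2 * Real.pi * (|lam| * (I.len ^ 2 / 9))) := mul_le_mul h3 h2 (norm_nonneg _) hCw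
        _ = (2 * Real.pi / 9) * (s5a_Cw C0 * (|lam| * I.len ^ 2)) := by ring
        _ ≤ 5 * (s5a_Cw C0 * (|lam| * I.len ^ 2)) := by
            refine mul_le_mul_of_nonneg_right (by linarith) (by positivity)
        _ ≤ (3 * K1 + 5 * s5a_Cw C0) * |lam| * I.len ^ 2 := by
            have : 0 ≤ K1 * (|lam| * I.len ^ 2) := by positivity
            nlinarith
  · intro u
    by_cases ht : |(s5a_X a b u v).2| ≤ I.len / 3
    · -- product rule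
      have hX := s5a_prd_X_hasDerivAt a b u v
      have hW : HasDerivAt (fun u => w (s5a_X a b u v))
          (fderiv ℝ w (s5a_X a b u v) (1 - (a : ℝ) * ((0 - 1) / s5a_kap a b), (0 - 1) / s5a_kap a b)) u :=
        ((hw.smooth.differentiable (by simp)).differentiableAt.hasFDerivAt).comp_hasDerivAt u hX
      have ht' : HasDerivAt (fun u : ℝ => (s5a_X a b u v).2) ((0 - 1) / s5a_kap a b) u :=
        ((hasDerivAt_const u v).sub (hasDerivAt_id u)).div_const _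
      have hφ : HasDerivAt (fun u : ℝ => lam * (s5a_X a b u v).2 ^ 2)
          (lam * (((2 : ℕ) : ℝ) * (s5a_X a b u v).2 ^ (2 - 1) * ((0 - 1) / s5a_kap a b))) u := (ht'.pow 2).const_mul lam
      have hEd := (s5a_prd_ee_comp hφ).sub_const 1
      have hd : HasDerivAt (fun u => w (s5a_X a b u v) * (ee (lam * (s5a_X a b u v).2 ^ 2) - 1)) _ u := hW.mul hEd
      rw [hd.deriv]
      have b1 : ‖fderiv ℝ w (s5a_X a b u v) (1 - (a : ℝ) * ((0 - 1) / s5a_kap a b), (0 - 1) / s5a_kap a b)‖ ≤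
          I.len⁻¹ * K1 * 4 := by
        refine (ContinuousLinearMap.le_opNorm _ _).trans ?_
        rw [hK1]
        exact mul_le_mul (s5a_prd_fderiv_le hw _) (s5a_prd_dir_le hab) (norm_nonneg _) (by rw [← hK1]; positivity)
      have b2 := hE u ht
      have b3 := s5a_w_bound hw (s5a_X a b u v)
      have hκ1 : |(0 - 1) / s5a_kap a b| ≤ 1 := by
        have h1 := s5a_one_le_abs_kap hab
        rw [abs_div, div_le_one (by linarith)]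
        simpa using h1
      have b4 : ‖(lam * (((2 : ℕ) : ℝ) * (s5a_X a b u v).2 ^ (2 - 1) * ((0 - 1) / s5a_kap a b))) •
          (2 * (Real.pi : ℂ) * Complex.I * ee (lam * (s5a_X a b u v).2 ^ 2))‖ ≤ |lam| * (2 * (I.len / 3)) * (2 * Real.pi) := by
        rw [norm_smul, Real.norm_eq_abs]
        have e1 : ‖2 * (Real.pi : ℂ) * Complex.I * ee (lam * (s5a_X a b u v).2 ^ 2)‖ = 2 * Real.pi := by
          rw [norm_mul, norm_mul, norm_mul, s4a_ee_norm, Complex.norm_I, Complex.norm_real, Real.norm_of_nonneg hπ0.le]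
          simp
        rw [e1]
        refine mul_le_mul_of_nonneg_right ?_ (by positivity)
        rw [abs_mul, abs_mul, abs_mul]
        simp only [Nat.cast_ofNat, Nat.add_one_sub_one, pow_one]
        rw [abs_of_pos (by norm_num : (0 : ℝ) < 2)]
        refine mul_le_mul_of_nonneg_left ?_ hl0
        calc 2 * |(s5a_X a b u v).2| * |(0 - 1) / s5a_kap a b| ≤ 2 * (I.len / 3) * 1 :=
              mul_le_mul (by linarith) hκ1 (abs_nonneg _) (by positivity)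
          _ = _ := by ring
      refine (norm_add_le _ _).trans ?_
      rw [norm_mul, norm_mul]
      calc _ ≤ I.len⁻¹ * K1 * 4 * (2 * Real.pi * (|lam| * (I.len ^ 2 / 9))) +
            s5a_Cw C0 * (|lam| * (2 * (I.len / 3)) * (2 * Real.pi)) :=
            add_le_add (mul_le_mul b1 b2 (norm_nonneg _) (by positivity)) (mul_le_mul b3 b4 (norm_nonneg _) hCw)
        _ = (8 * Real.pi / 9) * (K1 * (|lam| * I.len)) + (4 * Real.pi / 3) * (s5a_Cw C0 * (|lam| * I.len)) := by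
            field_simp
            ring
        _ ≤ 3 * (K1 * (|lam| * I.len)) + 5 * (s5a_Cw C0 * (|lam| * I.len)) :=
            add_le_add (mul_le_mul_of_nonneg_right (by linarith) (by positivity))
              (mul_le_mul_of_nonneg_right (by linarith) (by positivity))
        _ = (3 * K1 + 5 * s5a_Cw C0) * |lam| * I.len ^ 2 / I.len := by
            field_simp
    · -- the function vanishes near `u`
      have hcont : Continuous fun u : ℝ => |(s5a_X a b u v).2| :=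
        (continuous_snd.comp (s5a_prd_X_smooth a b v).continuous).abs
      have hopen : IsOpen {u : ℝ | I.len / 3 < |(s5a_X a b u v).2|} := isOpen_lt continuous_const hcont
      have hev : (fun u => w (s5a_X a b u v) * (ee (lam * (s5a_X a b u v).2 ^ 2) - 1)) =ᶠ[nhds u] fun _ => 0 := by
        filter_upwards [hopen.mem_nhds (not_le.1 ht)] with u' hu'
        have : w (s5a_X a b u' v) = 0 := by
          by_contra hne
          exact absurd (s5a_supp_t hw hc0 hne) (not_le.2 hu')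
        rw [this, zero_mul]
      rw [hev.deriv_eq, deriv_const, norm_zero]
      positivity

/-- one cell of PRED2 -/
theorem s5a_prd_cell {c0 C0 : ℝ} (hc0 : 0 < c0) {I : Cell} {w : ℝ × ℝ → ℂ} {a b : Fin 4} (hab : a ≠ b)
    (hw : Admissible c0 C0 I w) (lam S x1 : ℝ) (hS : 0 ≤ S) (hx1 : 0 ≤ x1) (dI gI : ℝ → ℂ) (hd : MemLp dI 2 volume)
    (hg : MemLp gI 2 volume)
    (hbump : ∀ v, s5a_Bump I S (fun u => w (s5a_X a b u v) * (ee (lam * (s5a_X a b u v).2 ^ 2) - 1)))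
    (hm : ∀ (om : ℝ → ℂ) (S : ℝ), s5a_Bump I S om → ‖∫ u, om u * dI u‖ ≤ S * Real.sqrt I.len * x1) :
    I.len * ‖s5a_formG I w a b (fun p => ee (lam * p.2 ^ 2) - 1) dI gI‖ ≤
      S * x1 * Real.sqrt (∫ y in I.set, ‖gI y‖ ^ 2) := by
  have hr := cell_len_pos I
  have hmeas : Measurable fun p : ℝ × ℝ => ee (lam * p.2 ^ 2) - 1 :=
    ((s4a_ee_continuous.comp (by fun_prop)).sub continuous_const).measurable
  have hbd : ∀ p : ℝ × ℝ, ‖ee (lam * p.2 ^ 2) - 1‖ ≤ 2 := by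
    intro p
    calc ‖ee (lam * p.2 ^ 2) - 1‖ ≤ ‖ee (lam * p.2 ^ 2)‖ + ‖(1 : ℂ)‖ := norm_sub_le _ _
      _ = 2 := by
        rw [s4a_ee_norm]
        norm_num
  rw [s5a_formG_cv hc0 hw hab _ hmeas 2 hbd dI gI hd hg]
  obtain ⟨inner, hinner⟩ : ∃ inner : ℝ → ℂ, inner = fun v =>
      ∫ u : ℝ, w (s5a_X a b u v) * (ee (lam * (s5a_X a b u v).2 ^ 2) - 1) * dI u := ⟨_, rfl⟩
  have e0 : (∫ v : ℝ, gI v * ∫ u : ℝ, w (s5a_X a b u v) * (ee (lam * (s5a_X a b u v).2 ^ 2) - 1) * dI u) =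
      ∫ v : ℝ, gI v * inner v := by
    rw [hinner]
  rw [e0]
  have h1 : ∀ v, ‖inner v‖ ≤ S * Real.sqrt I.len * x1 := by
    intro v
    rw [hinner]
    exact hm _ _ (hbump v)
  have h2 : ∀ v, v ∉ I.set → inner v = 0 := by
    intro v hv
    rw [hinner]
    have : ∀ u : ℝ, w (s5a_X a b u v) * (ee (lam * (s5a_X a b u v).2 ^ 2) - 1) * dI u = 0 := by
      intro u
      have hz : w (s5a_X a b u v) = 0 := by
        by_contra hne
        have := s5a_supp_set hw hc0 hne b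
        rw [(s5a_X_slot hab u v).2] at this
        exact hv this
      rw [hz, zero_mul, zero_mul]
    simp only [this, integral_zero]
  obtain ⟨hgi, hgl⟩ := s5a_l1_le (I := I) gI hg
  have h3 : ‖∫ v : ℝ, gI v * inner v‖ ≤ ∫ v, (I.set).indicator (fun v => ‖gI v‖ * (S * Real.sqrt I.len * x1)) v := by
    refine norm_integral_le_of_norm_le ?_ (Filter.Eventually.of_forall fun v => ?_)
    · rw [integrable_indicator_iff (cell_measurableSet I)]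
      exact hgi.norm.mul_const _
    · by_cases hv : v ∈ I.set
      · rw [Set.indicator_of_mem hv, norm_mul]
        exact mul_le_mul_of_nonneg_left (h1 v) (norm_nonneg _)
      · rw [Set.indicator_of_notMem hv, h2 v hv, mul_zero, norm_zero]
  rw [integral_indicator (cell_measurableSet I), integral_mul_const] at h3
  have hκ : |s5a_kap a b|⁻¹ ≤ 1 := inv_le_one_of_one_le₀ (s5a_one_le_abs_kap hab)
  have hκ0 : 0 ≤ |s5a_kap a b|⁻¹ := inv_nonneg.2 (abs_nonneg _)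
  obtain ⟨N, hN⟩ : ∃ N : ℝ, N = Real.sqrt (∫ y in I.set, ‖gI y‖ ^ 2) := ⟨_, rfl⟩
  have hN0 : 0 ≤ N := by
    rw [hN]
    exact Real.sqrt_nonneg _
  rw [← hN] at hgl ⊢
  have hs : 0 ≤ Real.sqrt I.len := Real.sqrt_nonneg _
  have hss : Real.sqrt I.len * Real.sqrt I.len = I.len := Real.mul_self_sqrt hr.le
  have h4 : ‖∫ v : ℝ, gI v * inner v‖ ≤ I.len * (S * x1 * N) := by
    calc ‖∫ v : ℝ, gI v * inner v‖ ≤ (∫ v in I.set, ‖gI v‖) * (S * Real.sqrt I.len * x1) := h3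
      _ ≤ (Real.sqrt I.len * N) * (S * Real.sqrt I.len * x1) := mul_le_mul_of_nonneg_right hgl (by positivity)
      _ = (Real.sqrt I.len * Real.sqrt I.len) * (S * x1 * N) := by ring
      _ = _ := by rw [hss]
  rw [norm_mul, Complex.norm_real, Real.norm_of_nonneg (by positivity)]
  calc I.len * ((I.len ^ 2)⁻¹ * |s5a_kap a b|⁻¹ * ‖∫ v : ℝ, gI v * inner v‖)
      ≤ I.len * ((I.len ^ 2)⁻¹ * 1 * (I.len * (S * x1 * N))) := by
        refine mul_le_mul_of_nonneg_left ?_ hr.le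
        exact mul_le_mul (mul_le_mul_of_nonneg_left hκ (by positivity)) h4 (norm_nonneg _) (by positivity)
    _ = S * x1 * N := by
        field_simp

/-- PRED2 -/
theorem s5a_pred_quad (c0 C0 : ℝ) : ∃ C : ℝ, 0 ≤ C ∧ ∀ {J : Cell} {A : Finset Cell} {w : Cell → ℝ × ℝ → ℂ} {a b : Fin 4},
    s5a_Std c0 C0 J A w a b → ∀ (lam D : ℝ), 0 ≤ D → (∀ I ∈ A, |lam| * I.len ^ 2 ≤ D) →
    ∀ (d g : Cell → ℝ → ℂ) (η0 η1 Mb : ℝ), s5a_Small J d η0 η1 → s5a_SRow J g Mb →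
      s5a_sum A w a b (fun _ p => ee (lam * p.2 ^ 2) - 1) d g ≤ C * D * η1 * Mb := by
  classical
  by_cases hcc : 0 < c0 ∧ 1 ≤ C0
  swap
  · exact ⟨0, le_rfl, fun hS => absurd ⟨hS.c0_pos, hS.C0_ge⟩ hcc⟩
  obtain ⟨hc0, hC0⟩ := hcc
  obtain ⟨C1, hC1, hbump⟩ := s5a_omv_bump c0 C0 hc0 hC0
  refine ⟨2 * C1, by positivity, ?_⟩
  intro J A w a b hS lam D hD hlam d g η0 η1 Mb hd hg
  obtain ⟨X0, X1, hX0, hX1, hm0, hm1, hs0, hs1⟩ := hd.ex
  have hη1 := hd.nonneg1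
  have hMb := hg.nonneg
  have hl0 : 0 ≤ |lam| := abs_nonneg lam
  obtain ⟨N, hN⟩ : ∃ N : Cell → ℝ, N = fun I => Real.sqrt (∫ y in I.set, ‖g I y‖ ^ 2) := ⟨_, rfl⟩
  have hN0 : ∀ I, 0 ≤ N I := by
    intro I
    rw [hN]
    exact Real.sqrt_nonneg _
  have hNsq : ∀ I, N I ^ 2 = ∫ y in I.set, ‖g I y‖ ^ 2 := by
    intro I
    rw [hN]
    exact Real.sq_sqrt (integral_nonneg fun y => sq_nonneg _)
  have hcell : ∀ I ∈ A, I.len * ‖s5a_formG I (w I) a b (fun p => ee (lam * p.2 ^ 2) - 1) (d I) (g I)‖ ≤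
      C1 * |lam| * I.len ^ 2 * X1 I * N I := by
    intro I hI
    have := s5a_prd_cell hc0 hS.ne (hS.adm I hI) lam (C1 * |lam| * I.len ^ 2) (X1 I) (by positivity) (hX1 I) (d I) (g I)
      (hd.mem I) (hg.mem I) (fun v => hbump I (w I) a b hS.ne (hS.adm I hI) lam v) (hm1 I (hS.le I hI))
    rw [hN]
    exact this
  have hdepth : ∀ s ∈ A.image Cell.depth, ∑ I ∈ A.filter (fun I => I.depth = s), C1 * |lam| * I.len ^ 2 * X1 I * N I ≤
      C1 * η1 * Mb * (|lam| * ((2 : ℝ) ^ (-s)) ^ 2) := by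
    intro s _
    have hle : ∀ I ∈ A.filter (fun I => I.depth = s), I ≤ J := fun I hI => hS.le I (Finset.mem_filter.1 hI).1
    have hanti := s5a_antichain_depth (A.filter fun I => I.depth = s) s (fun I hI => (Finset.mem_filter.1 hI).2)
    have h1 := Real.sum_mul_le_sqrt_mul_sqrt (A.filter fun I => I.depth = s) X1 N
    have h2 : Real.sqrt (∑ I ∈ A.filter (fun I => I.depth = s), X1 I ^ 2) ≤ η1 :=
      Real.sqrt_le_iff.2 ⟨hη1, hs1 _ hle hanti⟩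
    have h3 : Real.sqrt (∑ I ∈ A.filter (fun I => I.depth = s), N I ^ 2) ≤ Mb := by
      refine Real.sqrt_le_iff.2 ⟨hMb, ?_⟩
      simp only [hNsq]
      exact hg.l2 _ hle hanti
    have h4 : ∑ I ∈ A.filter (fun I => I.depth = s), X1 I * N I ≤ η1 * Mb :=
      h1.trans (mul_le_mul h2 h3 (Real.sqrt_nonneg _) hη1)
    calc ∑ I ∈ A.filter (fun I => I.depth = s), C1 * |lam| * I.len ^ 2 * X1 I * N I
        = C1 * |lam| * ((2 : ℝ) ^ (-s)) ^ 2 * ∑ I ∈ A.filter (fun I => I.depth = s), X1 I * N I := by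
          rw [Finset.mul_sum]
          refine Finset.sum_congr rfl fun I hI => ?_
          have : I.len = (2 : ℝ) ^ (-s) := by
            rw [← (Finset.mem_filter.1 hI).2]
            rfl
          rw [this]
          ring
      _ ≤ C1 * |lam| * ((2 : ℝ) ^ (-s)) ^ 2 * (η1 * Mb) := mul_le_mul_of_nonneg_left h4 (by positivity)
      _ = _ := by ring
  have hgeo := s5a_geo (A.image Cell.depth) |lam| D 2 (by norm_num) hl0 hD (by
    intro s hs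
    obtain ⟨I, hI, rfl⟩ := Finset.mem_image.1 hs
    exact hlam I hI)
  unfold s5a_sum
  calc ∑ I ∈ A, I.len * ‖s5a_formG I (w I) a b (fun p => ee (lam * p.2 ^ 2) - 1) (d I) (g I)‖
      ≤ ∑ I ∈ A, C1 * |lam| * I.len ^ 2 * X1 I * N I := Finset.sum_le_sum hcell
    _ = ∑ s ∈ A.image Cell.depth, ∑ I ∈ A.filter (fun I => I.depth = s), C1 * |lam| * I.len ^ 2 * X1 I * N I :=
        (Finset.sum_fiberwise_of_maps_to (fun I hI => Finset.mem_image_of_mem _ hI) _).symm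
    _ ≤ ∑ s ∈ A.image Cell.depth, C1 * η1 * Mb * (|lam| * ((2 : ℝ) ^ (-s)) ^ 2) := Finset.sum_le_sum hdepth
    _ = C1 * η1 * Mb * ∑ s ∈ A.image Cell.depth, |lam| * ((2 : ℝ) ^ (-s)) ^ 2 := by rw [Finset.mul_sum]
    _ ≤ C1 * η1 * Mb * (2 * D) := mul_le_mul_of_nonneg_left hgeo (by positivity)
    _ = _ := by ring

theorem s5a_sum_zero (A : Finset Cell) (w : Cell → ℝ × ℝ → ℂ) (a b : Fin 4) (f g : Cell → ℝ → ℂ) :
    s5a_sum A w a b (fun _ _ => 0) f g = 0 := by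
  unfold s5a_sum s5a_formG
  simp

/-- **predictor-small input, quadratic phase** -/
theorem s5a_pred (c0 C0 : ℝ) : ∃ C : ℝ, 0 ≤ C ∧ ∀ {J : Cell} {A : Finset Cell} {w : Cell → ℝ × ℝ → ℂ} {a b : Fin 4},
    s5a_Std c0 C0 J A w a b → ∀ (lam D : ℝ), 0 ≤ D → (∀ I ∈ A, |lam| * I.len ^ 2 ≤ D) →
    ∀ (d g : Cell → ℝ → ℂ) (η0 η1 Mb : ℝ), s5a_Small J d η0 η1 → s5a_SRow J g Mb →
      s5a_sum A w a b (fun _ p => ee (lam * p.2 ^ 2)) d g ≤ C * (η0 + D * η1) * Mb := by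
  obtain ⟨C1, h1, hl⟩ := s5a_pred_lin c0 C0
  obtain ⟨C2, h2, hq⟩ := s5a_pred_quad c0 C0
  refine ⟨max C1 C2, le_trans h1 (le_max_left _ _), ?_⟩
  intro J A w a b hS lam D hD hlam d g η0 η1 Mb hd hg
  have hm : Measurable fun p : ℝ × ℝ => ee (lam * p.2 ^ 2) - 1 :=
    ((s4a_ee_continuous.comp (by fun_prop)).sub continuous_const).measurable
  have tri := s5a_sum_tri hS (fun _ p => ee (lam * p.2 ^ 2)) (fun _ _ => 1) (fun _ p => ee (lam * p.2 ^ 2) - 1)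
    (fun _ _ => 0) (fun _ => measurable_const) (fun _ => hm) (fun _ => measurable_const) 2
    (fun _ _ => by simp) (fun _ p => by
      calc ‖ee (lam * p.2 ^ 2) - 1‖ ≤ ‖ee (lam * p.2 ^ 2)‖ + ‖(1 : ℂ)‖ := norm_sub_le _ _
        _ = 2 := by rw [s4a_ee_norm]; norm_num)
    (fun _ _ => by simp) (fun _ _ _ _ => by ring) d g hd.mem hg.mem
  rw [s5a_sum_zero, add_zero] at tri
  have e1 := hl hS d g η0 η1 Mb hd hg
  have e2 := hq hS lam D hD hlam d g η0 η1 Mb hd hg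
  have hMb := hg.nonneg
  have hη0 := hd.nonneg0
  have hη1 := hd.nonneg1
  calc s5a_sum A w a b (fun _ p => ee (lam * p.2 ^ 2)) d g ≤ C1 * η0 * Mb + C2 * D * η1 * Mb := by linarith
    _ ≤ max C1 C2 * η0 * Mb + max C1 C2 * D * η1 * Mb := by
        gcongr
        · exact le_max_left _ _
        · exact le_max_right _ _
    _ = max C1 C2 * (η0 + D * η1) * Mb := by ring

end Claimed.Agent.R258
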