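/-
Row 258, block [S5a] (architect helper192).  FILE Ret: **one separated term** (base.tex l.233-330: Cor. 5.2 + display (6)).   ASSEMBLIES `s5a_ret`, `s5a_term` (leaf A-S5a-TERM if not proved by helper192).    No paper.

`s5a_ret` (retained scales).  `hStr : s5a_Str Q D r₁ lam R al`, all `|I| ≤ r₁`.   `s5a_sum_tsum` with `ι = Fin Q.d → ℤ`, `c = al`, `Gs l p = e(lam t² + (β+σ_l) t)`, `G p = Q(t)` (`s5a_Str.hasSum`; on the support `|t| ≤ |I|/3 ≤ 2 r₁`),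
   `X l = Cp (η0 + D η1) Mb` for `l ∈ box T`  [`e(lam t² + γ t) = e(γ t) e(lam t²)`, `s5a_formG_mod`, then `s5a_pred` with `d_I = e(-(γ/κ)·) f_I` (hypothesis) and `e((γ/κ)·) g_I` (`s5a_SRow.mul`)],
   `X l = Cq (1 + D) Ma Mb` for `l ∉ box T` (`s5a_qe`).     `∑' ‖al l‖ X l ≤ D Cp (η0 + D η1) Mb + (D/T) Cq (1+D) Ma Mb` (`s5a_Str.sum0_le`, `s5a_Str.tail_le`).
`s5a_term`.  `A = A_disc ∪ A_ret`, `A_disc = {A_{|I|} ≤ δ₀}` (`s5a_low`), `A_ret = {δ₀ < A_{|I|}}`: if nonempty let `I₁ ∈ A_ret` have maximal length `r₁` (`Finset.exists_max_image`); `s5a_str` at `r₁` with `δ = δ₀`; `s5a_ret`.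
-/
import Claimed.Agent.R258.S5a.Bands
import Claimed.Agent.R258.S5a.Pred

set_option autoImplicit false
open MeasureTheory
open scoped ENNReal ContDiff ComplexConjugate

namespace Claimed.Agent.R258

theorem s5a_Str.mono {Q : Chart} {D D' r₁ lam : ℝ} {R : ℕ} {al : (Fin Q.d → ℤ) → ℂ} (h : s5a_Str Q D r₁ lam R al)
    (hD : D ≤ D') : s5a_Str Q D' r₁ lam R al :=
  ⟨h.lam_le.trans hD, h.R_pos, h.R_le.trans hD, h.summ, h.sum_le.trans hD, h.exp⟩

/-- **retained scales** -/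
theorem s5a_ret (c0 C0 : ℝ) : ∃ K : ℝ, 0 ≤ K ∧ ∀ {J : Cell} {A : Finset Cell} {w : Cell → ℝ × ℝ → ℂ} {a b : Fin 4},
    s5a_Std c0 C0 J A w a b → ∀ (Q : Chart) (D r₁ lam : ℝ) (R : ℕ) (al : (Fin Q.d → ℤ) → ℂ), s5a_Str Q D r₁ lam R al →
    (∀ I ∈ A, I.len ≤ r₁) → ∀ T : ℕ, 1 ≤ T → ∀ (f g : Cell → ℝ → ℂ) (Ma Mb η0 η1 : ℝ), s5a_SRow J f Ma → s5a_SRow J g Mb →
    0 ≤ η0 → 0 ≤ η1 →
    (∀ l ∈ s5a_box Q.d T,
      s5a_Small J (fun I u => ee (-((Q.bet + s5a_sig Q R l) / s5a_kap a b) * u) * f I u) η0 η1) →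
      s5a_sum A w a b (fun _ p => Q.eval p.2) f g ≤ K * D * (η0 + D * η1) * Mb + K * (D / T) * (1 + D) * Ma * Mb := by
  obtain ⟨Cp, hCp0, hpred⟩ := s5a_pred c0 C0
  obtain ⟨Cq, hCq0, hqe⟩ := s5a_qe c0 C0
  refine ⟨max Cp Cq, le_trans hCp0 (le_max_left _ _), ?_⟩
  intro J A w a b hS Q D r₁ lam R al hStr hlen T hT f g Ma Mb η0 η1 hf hg hη0 hη1 hsm
  have hD1 := hStr.one_le
  have hD0 : 0 ≤ D := by linarith
  have hMa := hf.nonneg
  have hMb := hg.nonneg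
  have hT0 : (0 : ℝ) < T := by exact_mod_cast hT
  have hU : 0 ≤ Cp * (η0 + D * η1) * Mb := by positivity
  have hV : 0 ≤ Cq * (1 + D) * Ma * Mb := by positivity
  have hlamlen : ∀ I ∈ A, |lam| * I.len ^ 2 ≤ D := fun I hI => hStr.lam_len (cell_len_pos I).le (hlen I hI)
  have hXle : ∀ l, s5a_sum A w a b (fun _ p => ee (lam * p.2 ^ 2 + (Q.bet + s5a_sig Q R l) * p.2)) f g ≤
      if l ∈ s5a_box Q.d T then Cp * (η0 + D * η1) * Mb else Cq * (1 + D) * Ma * Mb := by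
    intro l
    by_cases hl : l ∈ s5a_box Q.d T
    · rw [if_pos hl]
      have e1 : s5a_sum A w a b (fun _ p => ee (lam * p.2 ^ 2 + (Q.bet + s5a_sig Q R l) * p.2)) f g =
          s5a_sum A w a b (fun _ p => ee (lam * p.2 ^ 2))
            (fun I u => ee (-((Q.bet + s5a_sig Q R l) / s5a_kap a b) * u) * f I u)
            (fun I v => ee ((Q.bet + s5a_sig Q R l) / s5a_kap a b * v) * g I v) := by
        unfold s5a_sum
        refine Finset.sum_congr rfl fun I _ => ?_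
        rw [← s5a_formG_mod hS.ne]
        congr 2
        refine s5a_formG_congr a b (fun p _ => ?_) _ _
        show ee (lam * p.2 ^ 2 + (Q.bet + s5a_sig Q R l) * p.2) = ee ((Q.bet + s5a_sig Q R l) * p.2) * ee (lam * p.2 ^ 2)
        rw [s4a_ee_add, mul_comm]
      rw [e1]
      refine hpred hS lam D hD0 hlamlen _ _ η0 η1 Mb (hsm l hl) ?_
      exact hg.mul _ (s4a_ee_continuous.comp (by fun_prop)).measurable (fun y => le_of_eq (s4a_ee_norm _))
    · rw [if_neg hl]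
      exact hqe hS lam _ D hD0 hlamlen f g Ma Mb hf hg
  have hbd : ∀ l, ‖al l‖ * (if l ∈ s5a_box Q.d T then Cp * (η0 + D * η1) * Mb else Cq * (1 + D) * Ma * Mb) ≤
      ‖al l‖ * (Cp * (η0 + D * η1) * Mb) + ‖(if l ∈ s5a_box Q.d T then 0 else al l : ℂ)‖ * (Cq * (1 + D) * Ma * Mb) := by
    intro l
    by_cases hl : l ∈ s5a_box Q.d T
    · simp [hl]
    · simp only [hl, if_false]
      have := mul_nonneg (norm_nonneg (al l)) hU
      linarith
  have hs1 : Summable fun l => ‖al l‖ * (Cp * (η0 + D * η1) * Mb) +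
      ‖(if l ∈ s5a_box Q.d T then 0 else al l : ℂ)‖ * (Cq * (1 + D) * Ma * Mb) :=
    (hStr.summ0.mul_right _).add ((hStr.tail_summ T).mul_right _)
  have hs0 : Summable fun l => ‖al l‖ *
      (if l ∈ s5a_box Q.d T then Cp * (η0 + D * η1) * Mb else Cq * (1 + D) * Ma * Mb) := by
    refine Summable.of_nonneg_of_le (fun l => mul_nonneg (norm_nonneg _) ?_) hbd hs1
    split_ifs
    · exact hU
    · exact hV
  have key := s5a_sum_tsum hS al (fun l p => ee (lam * p.2 ^ 2 + (Q.bet + s5a_sig Q R l) * p.2)) (fun p => Q.eval p.2)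
    hStr.summ0 (fun l => (s4a_ee_continuous.comp (by fun_prop)).measurable) (fun l p => le_of_eq (s4a_ee_norm _))
    (fun I hI p hp => by
      apply hStr.hasSum
      have h1 := s5a_supp_t (hS.adm I hI) hS.c0_pos hp
      have h2 := hlen I hI
      have h3 := cell_len_pos I
      linarith) f g hf.mem hg.mem _ hXle hs0
  refine le_trans key ?_
  calc ∑' l, ‖al l‖ * (if l ∈ s5a_box Q.d T then Cp * (η0 + D * η1) * Mb else Cq * (1 + D) * Ma * Mb)
      ≤ ∑' l, (‖al l‖ * (Cp * (η0 + D * η1) * Mb) +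
        ‖(if l ∈ s5a_box Q.d T then 0 else al l : ℂ)‖ * (Cq * (1 + D) * Ma * Mb)) := hs0.tsum_le_tsum hbd hs1
    _ = (∑' l, ‖al l‖) * (Cp * (η0 + D * η1) * Mb) +
        (∑' l, ‖(if l ∈ s5a_box Q.d T then 0 else al l : ℂ)‖) * (Cq * (1 + D) * Ma * Mb) := by
        rw [(hStr.summ0.mul_right _).tsum_add ((hStr.tail_summ T).mul_right _), tsum_mul_right, tsum_mul_right]
    _ ≤ D * (Cp * (η0 + D * η1) * Mb) + D / T * (Cq * (1 + D) * Ma * Mb) := by
        gcongr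
        · exact hStr.sum0_le
        · exact hStr.tail_le T hT
    _ ≤ D * (max Cp Cq * (η0 + D * η1) * Mb) + D / T * (max Cp Cq * (1 + D) * Ma * Mb) := by
        gcongr
        · exact le_max_left _ _
        · exact le_max_right _ _
    _ = max Cp Cq * D * (η0 + D * η1) * Mb + max Cp Cq * (D / T) * (1 + D) * Ma * Mb := by ring

/-- **one separated term**: discarded scales + retained scales -/
theorem s5a_term (hW : s4a_Weyl1) (c0 C0 : ℝ) (hSS : s5a_SS c0 C0) : ∃ (C : ℕ) (K : ℝ), 0 ≤ K ∧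
    ∀ {J : Cell} {A : Finset Cell} {w : Cell → ℝ × ℝ → ℂ} {a b : Fin 4}, s5a_Std c0 C0 J A w a b →
    ∀ (Q : Chart) (H : ℝ), Q.Cplx H → Q.Bdd → ∀ δ₀ : ℝ, 0 < δ₀ → δ₀ < 1 / 2 → ∀ T : ℕ, 1 ≤ T →
    ∀ (f g : Cell → ℝ → ℂ) (Ma Mb η0 η1 : ℝ), s5a_SRow J f Ma → s5a_SRow J g Mb → 0 ≤ η0 → 0 ≤ η1 →
    (∀ R : ℕ, 1 ≤ R → (R : ℝ) ≤ s4b_qp C (Real.log H + Real.log (1 / δ₀)) → ∀ l ∈ s5a_box Q.d T,
      s5a_Small J (fun I u => ee (-((Q.bet + s5a_sig Q R l) / s5a_kap a b) * u) * f I u) η0 η1) →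
      s5a_sum A w a b (fun _ p => Q.eval p.2) f g ≤
        δ₀ * s4a_pl C (Real.log H + Real.log (8 / δ₀)) * Ma * Mb +
        K * s4b_qp C (Real.log H + Real.log (1 / δ₀)) * (η0 + s4b_qp C (Real.log H + Real.log (1 / δ₀)) * η1) * Mb +
        K * (s4b_qp C (Real.log H + Real.log (1 / δ₀)) / T) * (1 + s4b_qp C (Real.log H + Real.log (1 / δ₀))) * Ma * Mb := by
  classical
  obtain ⟨Clo, hlow⟩ := s5a_low hW c0 C0 hSS
  obtain ⟨Cs, hstr⟩ := s5a_str hW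
  obtain ⟨K, hK0, hret⟩ := s5a_ret c0 C0
  refine ⟨max Clo Cs, K, hK0, ?_⟩
  intro J A w a b hS Q H hQ hQb δ₀ hδ0 hδ1 T hT f g Ma Mb η0 η1 hf hg hη0 hη1 hsm
  have hMa := hf.nonneg
  have hMb := hg.nonneg
  have hT0 : (0 : ℝ) < T := by exact_mod_cast hT
  have hlogH : 0 ≤ Real.log H := Real.log_nonneg (le_trans (Real.one_le_exp (by norm_num)) hQ.H_ge)
  have hx : 0 ≤ Real.log H + Real.log (1 / δ₀) :=
    add_nonneg hlogH (Real.log_nonneg (by rw [le_div_iff₀ hδ0]; linarith))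
  have hx8 : 0 ≤ Real.log H + Real.log (8 / δ₀) :=
    add_nonneg hlogH (Real.log_nonneg (by rw [le_div_iff₀ hδ0]; linarith))
  have hD0 : 0 < s4b_qp (max Clo Cs) (Real.log H + Real.log (1 / δ₀)) := s4a_qp_pos _ _
  have hsplit : s5a_sum A w a b (fun _ p => Q.eval p.2) f g =
      s5a_sum (A.filter fun I => s4a_Ar Q.eval I.len ≤ δ₀) w a b (fun _ p => Q.eval p.2) f g +
      s5a_sum (A.filter fun I => ¬ s4a_Ar Q.eval I.len ≤ δ₀) w a b (fun _ p => Q.eval p.2) f g := by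
    rw [← s5a_sum_union _ _ (Finset.disjoint_filter_filter_not _ _ _), Finset.filter_union_filter_not_eq]
  have h1 : s5a_sum (A.filter fun I => s4a_Ar Q.eval I.len ≤ δ₀) w a b (fun _ p => Q.eval p.2) f g ≤
      δ₀ * s4a_pl (max Clo Cs) (Real.log H + Real.log (8 / δ₀)) * Ma * Mb := by
    refine le_trans (hlow (hS.mono (Finset.filter_subset _ _)) Q H hQ hQb δ₀ hδ0 (by linarith)
      (fun I hI => (Finset.mem_filter.1 hI).2) f g Ma Mb hf hg) ?_
    have := s4a_pl_mono (le_max_left Clo Cs) hx8 le_rfl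
    gcongr
  have h2 : s5a_sum (A.filter fun I => ¬ s4a_Ar Q.eval I.len ≤ δ₀) w a b (fun _ p => Q.eval p.2) f g ≤
      K * s4b_qp (max Clo Cs) (Real.log H + Real.log (1 / δ₀)) *
        (η0 + s4b_qp (max Clo Cs) (Real.log H + Real.log (1 / δ₀)) * η1) * Mb +
      K * (s4b_qp (max Clo Cs) (Real.log H + Real.log (1 / δ₀)) / T) *
        (1 + s4b_qp (max Clo Cs) (Real.log H + Real.log (1 / δ₀))) * Ma * Mb := by
    by_cases hne : (A.filter fun I => ¬ s4a_Ar Q.eval I.len ≤ δ₀).Nonempty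
    · obtain ⟨I₁, hI₁, hmax⟩ := Finset.exists_max_image _ Cell.len hne
      obtain ⟨lam, R, al, hStr⟩ := hstr Q H δ₀ I₁.len hQ hδ0 hδ1 (cell_len_pos I₁) (not_le.1 (Finset.mem_filter.1 hI₁).2)
      have hStr' := hStr.mono (s4a_qp_mono (le_max_right Clo Cs) hx le_rfl)
      exact hret (hS.mono (Finset.filter_subset _ _)) Q _ I₁.len lam R al hStr' hmax T hT f g Ma Mb η0 η1 hf hg hη0 hη1
        (fun l hl => hsm R hStr'.R_pos hStr'.R_le l hl)
    · rw [Finset.not_nonempty_iff_eq_empty] at hne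
      rw [hne]
      have : s5a_sum ∅ w a b (fun _ p => Q.eval p.2) f g = 0 := by simp [s5a_sum]
      rw [this]
      positivity
  rw [hsplit]
  linarith

end Claimed.Agent.R258
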