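/-
Row 258, block [S5a] (architect helper192).  FILE Pr = leaves P-S5a-PR (section PR), P-S5a-ORTH (section ORTH), P-S5a-PRIV (section PRIV): the pairing with a weighted predictor column.    No paper.
Uses block [XV] (helper132; all proved): XV/Phys.lean (`xvCoord`, `xv_coord_*`, `xv_physFn_*`, `xv_inner_vec`, `xvPrivZero`), XV/Proj.lean, XV/Restr.lean, XV/L1.lean (`xv_sum_coord_sq_le`, `xv_sum_vec_ae`), XV/Col.lean (`xv_fn_*`), CellApi/Fin.lean (`cellsAt`), S5/Roll.lean, Shape.lean (`s5a_Bump.*`).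

`Φ` a column with `Φ.phi` measurable, `|Φ.phi| ≤ 1`, `0 ≤ Φ.eps ≤ 1`.    `h_z(y) = conj(φ(y)) z_0(y) + √ε z_{v+1}(y)`  (`z_0 = physFn z`, `z_{v+1} = xvCoord (Φ.lab+1) z`) is the pointwise inner product `⟨Φ.fn y, z y⟩`;
     `s5a_pr Φ om z = ∫ om h_z`.          `|h_z(y)|² ≤ (1+ε)(|z_0|² + |z_{v+1}|²) ≤ 2 ‖z y‖²`   (Cauchy-Schwarz in `ℂ²`; `xv_sum_coord_sq_le` with `K = {0, v+1}`).
PR.
 * `s5a_pr_sub`, `s5a_pr_sum`: a.e. linearity of the coordinates (`xv_coord_sub`, `xv_coord_sum`), integrability of `om h_z` (`om ∈ L²` bounded, `h_z ∈ L²`: `MemLp.integrable_mul`).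
 * `s5a_pr_cell`: `z = restr Q z` gives `h_z = 0` a.e. off `Q` (`xv_coord_restr`), so `pr = ∫_Q om h_z`;  `∫_Q h_z = ⟪Φ.vec Q, z⟫ = 0` (`xv_inner_vec`, `mom`; `Φ.Reg Q` by `xv_reg_of_measurable`);  hence `pr = ∫_Q (om - om(Q.left)) h_z`,
   `|om y - om(Q.left)| ≤ (S/|I|) |Q|` on `Q` (`s5a_Bump.lip`),  `∫_Q |h_z| ≤ √|Q| (∫_Q |h_z|²)^{1/2} ≤ √|Q| √2 ‖z‖` (`xv_normsq_eq_integral`).
 * `s5a_pr_level`: `z = ∑_{Q ∈ cellsAt I n} restr Q z` (`xv_restr_part` with `cell_part_cellsAt`-type lemma of CellApi/Fin.lean), `⟪Φ.vec Q, restr Q z⟫ = ⟪Φ.vec Q, z⟫` (`xv_restr_inner`, `xv_restr_vec_self`), `|Q| = 2^{-n}|I|` (`cell_len_of_mem_cellsAt`),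
   Cauchy-Schwarz: `∑_Q √|Q| ‖restr Q z‖ ≤ √(∑|Q|) √(∑ ‖restr Q z‖²) = √|I| ‖z‖` (`xv_normsq_restr_part`; `∑_Q |Q| = |I|`).
 * `s5a_pr_le`: `|pr| ≤ ‖om‖₂ ‖h_z‖₂ ≤ S √|I| √2 ‖z‖`.
ORTH.  `res n = restr I F - dproj m I n F`,  `Y n = dproj m I (n+1) F - dproj m I n F = res n - res (n+1)`.
 * `s5a_res_orth`: for `Q ∈ cellsAt I n`: `⟪Φ.vec Q, res n⟫ = ⟪Φ.vec Q, restr Q (res n)⟫`, `restr Q (res n) = restr Q F - cproj (m Q) Q F` (`s5r_dproj_block` with `k = 0`, or `xv_dproj_apply` + `xv_restr_cproj_disjoint`), which is orthogonal to `colSpan (m Q) Q ∋ Φ.vec Q`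
   (`Submodule.starProjection` facts: `xv_cproj_inner`, `xv_cproj_vec`, `xv_cproj_restr`:  `⟪v, x - P x⟫ = ⟪v,x⟫ - ⟪P v, x⟫ = 0`).
 * `s5a_res_orth'`: `Q ∈ cellsAt I n` and level `n+1`: `Φ.vec Q = Φ.vec (child 0) + Φ.vec (child 1)` (`xv_vec_child`), the children are in `cellsAt I (n+1)` (`cell_sum_cellsAt_succ`/membership lemma).
 * `s5a_tele`: induction on `N`:  `pr (res K0) = ∑_{n<N} pr (Y (K0+n)) + pr (res (K0+N))`; `s5a_pr_level` for each term;  `‖res n‖ ≤ ‖restr I F‖` (`xv_norm_resid_le`).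
PRIV.
 * `s5a_coord_cproj`: `cproj (m I) I F = ∑_{Φ' ∈ m I} a_{Φ'} Φ'.vec I` (`xv_cproj_exists_coef`), a.e. `= 1_I ∑ a_{Φ'} Φ'.fn` (`xv_sum_vec_ae`); coordinate `v+1`: `(Φ'.fn y)(v+1) = √ε` if `Φ' = Φ` (`xv_fn_lab`), `0` if `Φ'.lab ≠ Φ.lab` (`xv_fn_ne`); labels are private (`Inh.lab`).
 * `s5a_int_resid`: `∫ om conj(φ) physFn (res K0) = pr (res K0) - √ε ∫ om xvCoord (v+1) (res K0)` and `xvCoord (v+1) (res K0) = - xvCoord (v+1) (dproj m I K0 F)` a.e. (`xv_ofScalar_mem_privZero`, `xv_restr_mem_privZero`).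
 * `|∫ om xvCoord k z| ≤ ‖om‖₂ ‖z‖ ≤ S √|I| ‖z‖`  (`xv_coord_norm_le`).
-/
import Claimed.Agent.R258.S5a.Shape
import Claimed.Agent.R258.S5.Roll

set_option autoImplicit false
open MeasureTheory
open scoped ENNReal ContDiff ComplexConjugate InnerProductSpace

namespace Claimed.Agent.R258

/-- regularity of one column -/
structure s5a_CReg (Φ : Col) : Prop where
  meas : Measurable Φ.phi
  bdd : ∀ y, ‖Φ.phi y‖ ≤ 1
  eps0 : 0 ≤ Φ.eps
  eps1 : Φ.eps ≤ 1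

/-- the pairing of `z` with the column `Φ` weighted by `om` -/
noncomputable def s5a_pr (Φ : Col) (om : ℝ → ℂ) (z : XV) : ℂ :=
  ∫ y, om y * (conj (Φ.phi y) * physFn z y + (Real.sqrt Φ.eps : ℂ) * xvCoord (Φ.lab + 1) z y)

/-! ### tools -/

/-- Cauchy-Schwarz -/
theorem s5a_cs {α : Type*} [MeasurableSpace α] {μ : Measure α} {f g : α → ℂ} (hf : MemLp f 2 μ) (hg : MemLp g 2 μ) :
    ‖∫ y, f y * g y ∂μ‖ ≤ Real.sqrt (∫ y, ‖f y‖ ^ 2 ∂μ) * Real.sqrt (∫ y, ‖g y‖ ^ 2 ∂μ) := by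
  have h1 : ‖∫ y, f y * g y ∂μ‖ ≤ ∫ y, ‖f y‖ * ‖g y‖ ∂μ := by
    refine (norm_integral_le_integral_norm _).trans (le_of_eq ?_)
    simp only [norm_mul]
  have h2 := integral_mul_le_Lp_mul_Lq_of_nonneg (μ := μ) (p := 2) (q := 2) Real.HolderConjugate.two_two
    (f := fun y => ‖f y‖) (g := fun y => ‖g y‖) (Filter.Eventually.of_forall fun _ => norm_nonneg _)
    (Filter.Eventually.of_forall fun _ => norm_nonneg _)
    (by simpa using hf.norm) (by simpa using hg.norm)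
  refine h1.trans (h2.trans (le_of_eq ?_))
  simp only [Real.rpow_two, Real.sqrt_eq_rpow]

/-- the pointwise inner product with the column -/
noncomputable def s5a_hz (Φ : Col) (z : XV) (y : ℝ) : ℂ :=
  conj (Φ.phi y) * physFn z y + (Real.sqrt Φ.eps : ℂ) * xvCoord (Φ.lab + 1) z y

theorem s5a_pr_eq (Φ : Col) (om : ℝ → ℂ) (z : XV) : s5a_pr Φ om z = ∫ y, om y * s5a_hz Φ z y := rfl

theorem s5a_hz_eq (Φ : Col) (z : XV) (y : ℝ) : s5a_hz Φ z y = ⟪Φ.fn y, (z : ℝ → HV) y⟫_ℂ := by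
  rw [xv_inner_fn_left]
  unfold s5a_hz
  rw [mul_comm (conj (Φ.phi y))]
  rfl

theorem s5a_norm_fn_le {Φ : Col} (hΦ : s5a_CReg Φ) (y : ℝ) : ‖Φ.fn y‖ ≤ Real.sqrt 2 := by
  apply Real.le_sqrt_of_sq_le
  rw [xv_normsq_fn Φ hΦ.eps0]
  have h1 := hΦ.bdd y
  have h2 := hΦ.eps1
  have h3 : ‖Φ.phi y‖ ^ 2 ≤ 1 := pow_le_one₀ (norm_nonneg _) h1
  linarith

theorem s5a_hz_le {Φ : Col} (hΦ : s5a_CReg Φ) (z : XV) (y : ℝ) : ‖s5a_hz Φ z y‖ ≤ Real.sqrt 2 * ‖(z : ℝ → HV) y‖ := by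
  rw [s5a_hz_eq]
  exact (norm_inner_le_norm _ _).trans (mul_le_mul_of_nonneg_right (s5a_norm_fn_le hΦ y) (norm_nonneg _))

theorem s5a_hz_aesm {Φ : Col} (hΦ : s5a_CReg Φ) (z : XV) : AEStronglyMeasurable (s5a_hz Φ z) volume := by
  unfold s5a_hz
  have h1 : Measurable fun y => conj (Φ.phi y) := Complex.continuous_conj.measurable.comp hΦ.meas
  exact (h1.aestronglyMeasurable.mul (xv_physFn_aesm z)).add (aestronglyMeasurable_const.mul (xv_coord_aesm _ z))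

theorem s5a_hz_memLp {Φ : Col} (hΦ : s5a_CReg Φ) (z : XV) : MemLp (s5a_hz Φ z) 2 volume :=
  MemLp.of_le_mul (Lp.memLp z) (s5a_hz_aesm hΦ z) (Filter.Eventually.of_forall (s5a_hz_le hΦ z))

theorem s5a_hz_sq_int {Φ : Col} (hΦ : s5a_CReg Φ) (z : XV) : ∫ y, ‖s5a_hz Φ z y‖ ^ 2 ≤ 2 * ‖z‖ ^ 2 := by
  rw [xv_normsq_eq_integral, ← integral_const_mul]
  refine integral_mono ((s5a_hz_memLp hΦ z).integrable_norm_pow (by norm_num)) ((xv_integrable_normsq z).const_mul 2) fun y => ?_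
  have h := pow_le_pow_left₀ (norm_nonneg _) (s5a_hz_le hΦ z y) 2
  rw [mul_pow, Real.sq_sqrt (by norm_num)] at h
  exact h

theorem s5a_hz_sub (Φ : Col) (z z' : XV) : s5a_hz Φ (z - z') =ᵐ[volume] fun y => s5a_hz Φ z y - s5a_hz Φ z' y := by
  filter_upwards [xv_physFn_sub z z', xv_coord_sub (Φ.lab + 1) z z'] with y h1 h2
  unfold s5a_hz
  rw [h1, h2]
  ring

theorem s5a_hz_add (Φ : Col) (z z' : XV) : s5a_hz Φ (z + z') =ᵐ[volume] fun y => s5a_hz Φ z y + s5a_hz Φ z' y := by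
  filter_upwards [xv_physFn_add z z', xv_coord_add (Φ.lab + 1) z z'] with y h1 h2
  unfold s5a_hz
  rw [h1, h2]
  ring

theorem s5a_hz_zero (Φ : Col) : s5a_hz Φ 0 =ᵐ[volume] fun _ => 0 := by
  filter_upwards [xv_physFn_zero, xv_coord_zero (Φ.lab + 1)] with y h1 h2
  unfold s5a_hz
  rw [h1, h2]
  ring

theorem s5a_Bump.sq_int {I : Cell} {S : ℝ} {om : ℝ → ℂ} (h : s5a_Bump I S om) : ∫ y, ‖om y‖ ^ 2 ≤ S ^ 2 * I.len := by
  have h0 : ∫ y, ‖om y‖ ^ 2 = ∫ y in I.set, ‖om y‖ ^ 2 := by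
    symm
    apply setIntegral_eq_integral_of_forall_compl_eq_zero
    intro y hy
    rw [h.eq_zero hy]; simp
  rw [h0]
  have hfin := xv_cell_finite I
  calc ∫ y in I.set, ‖om y‖ ^ 2 ≤ ∫ _y in I.set, S ^ 2 := by
        refine integral_mono ((h.memLp.integrable_norm_pow (by norm_num)).integrableOn) (integrable_const _) fun y => ?_
        exact pow_le_pow_left₀ (norm_nonneg _) (h.bd y) 2
    _ = S ^ 2 * I.len := by
        rw [setIntegral_const, smul_eq_mul, Measure.real, cell_volume_set, ENNReal.toReal_ofReal (cell_len_nonneg I)]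
        ring

theorem s5a_Bump.sqrt_sq_int {I : Cell} {S : ℝ} {om : ℝ → ℂ} (h : s5a_Bump I S om) :
    Real.sqrt (∫ y, ‖om y‖ ^ 2) ≤ S * Real.sqrt I.len := by
  calc Real.sqrt (∫ y, ‖om y‖ ^ 2) ≤ Real.sqrt (S ^ 2 * I.len) := Real.sqrt_le_sqrt h.sq_int
    _ = S * Real.sqrt I.len := by rw [Real.sqrt_mul (sq_nonneg S), Real.sqrt_sq h.nonneg]

theorem s5a_pr_integrable {Φ : Col} {I : Cell} {S : ℝ} {om : ℝ → ℂ} (hΦ : s5a_CReg Φ) (hom : s5a_Bump I S om) (z : XV) :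
    Integrable fun y => om y * s5a_hz Φ z y := hom.memLp.integrable_mul (s5a_hz_memLp hΦ z)

section PR
variable {Φ : Col} {I : Cell} {S : ℝ} {om : ℝ → ℂ}

theorem s5a_pr_sub (hΦ : s5a_CReg Φ) (hom : s5a_Bump I S om) (z z' : XV) :
    s5a_pr Φ om (z - z') = s5a_pr Φ om z - s5a_pr Φ om z' := by
  rw [s5a_pr_eq, s5a_pr_eq, s5a_pr_eq, ← integral_sub (s5a_pr_integrable hΦ hom z) (s5a_pr_integrable hΦ hom z')]
  apply integral_congr_ae
  filter_upwards [s5a_hz_sub Φ z z'] with y hy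
  rw [hy]; ring

theorem s5a_pr_add (hΦ : s5a_CReg Φ) (hom : s5a_Bump I S om) (z z' : XV) :
    s5a_pr Φ om (z + z') = s5a_pr Φ om z + s5a_pr Φ om z' := by
  rw [s5a_pr_eq, s5a_pr_eq, s5a_pr_eq, ← integral_add (s5a_pr_integrable hΦ hom z) (s5a_pr_integrable hΦ hom z')]
  apply integral_congr_ae
  filter_upwards [s5a_hz_add Φ z z'] with y hy
  rw [hy]; ring

theorem s5a_pr_zero (Φ : Col) (om : ℝ → ℂ) : s5a_pr Φ om 0 = 0 := by
  rw [s5a_pr_eq]
  apply integral_eq_zero_of_ae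
  filter_upwards [s5a_hz_zero Φ] with y hy
  rw [hy]; simp

theorem s5a_pr_sum (hΦ : s5a_CReg Φ) (hom : s5a_Bump I S om) {ι : Type} (s : Finset ι) (z : ι → XV) :
    s5a_pr Φ om (∑ i ∈ s, z i) = ∑ i ∈ s, s5a_pr Φ om (z i) := by
  classical
  induction s using Finset.induction_on with
  | empty => simp [s5a_pr_zero]
  | insert a s ha ih => rw [Finset.sum_insert ha, Finset.sum_insert ha, s5a_pr_add hΦ hom, ih]

theorem s5a_pr_le (hΦ : s5a_CReg Φ) (hom : s5a_Bump I S om) (z : XV) :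
    ‖s5a_pr Φ om z‖ ≤ Real.sqrt 2 * S * Real.sqrt I.len * ‖z‖ := by
  rw [s5a_pr_eq]
  have h1 := s5a_cs hom.memLp (s5a_hz_memLp hΦ z)
  have h2 : Real.sqrt (∫ y, ‖s5a_hz Φ z y‖ ^ 2) ≤ Real.sqrt 2 * ‖z‖ := by
    calc Real.sqrt (∫ y, ‖s5a_hz Φ z y‖ ^ 2) ≤ Real.sqrt (2 * ‖z‖ ^ 2) := Real.sqrt_le_sqrt (s5a_hz_sq_int hΦ z)
      _ = Real.sqrt 2 * ‖z‖ := by rw [Real.sqrt_mul (by norm_num), Real.sqrt_sq (norm_nonneg _)]
  calc ‖∫ y, om y * s5a_hz Φ z y‖ ≤ (S * Real.sqrt I.len) * (Real.sqrt 2 * ‖z‖) :=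
        h1.trans (mul_le_mul hom.sqrt_sq_int h2 (Real.sqrt_nonneg _) (mul_nonneg hom.nonneg (Real.sqrt_nonneg _)))
    _ = Real.sqrt 2 * S * Real.sqrt I.len * ‖z‖ := by ring


/-- `∫_Q h_z = ⟪Φ.vec Q, z⟫` -/
theorem s5a_int_hz (hΦ : s5a_CReg Φ) (Q : Cell) (z : XV) : ∫ y in Q.set, s5a_hz Φ z y = ⟪Φ.vec Q, z⟫_ℂ := by
  have hreg : Φ.Reg Q := xv_reg_of_measurable ⟨hΦ.meas, hΦ.bdd⟩ Q
  rw [L2.inner_def, ← integral_indicator (cell_measurableSet Q)]
  apply integral_congr_ae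
  filter_upwards [xv_vec_ae hreg] with y hy
  rw [hy]
  by_cases hyQ : y ∈ Q.set
  · rw [Set.indicator_of_mem hyQ, Set.indicator_of_mem hyQ, s5a_hz_eq]
  · rw [Set.indicator_of_notMem hyQ, Set.indicator_of_notMem hyQ, inner_zero_left]

/-- one cell: orthogonality to the column gains the oscillation of `om` -/
theorem s5a_pr_cell (hΦ : s5a_CReg Φ) (hom : s5a_Bump I S om) {Q : Cell} (z : XV) (hz : restr Q.set z = z)
    (horth : ⟪Φ.vec Q, z⟫_ℂ = 0) :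
    ‖s5a_pr Φ om z‖ ≤ Real.sqrt 2 * S * (Q.len / I.len) * Real.sqrt Q.len * ‖z‖ := by
  have hfin := xv_cell_finite Q
  have hS := hom.nonneg
  have hI := cell_len_pos I
  have hQ := cell_len_pos Q
  have hoff : ∀ᵐ y ∂(volume : Measure ℝ), y ∉ Q.set → om y * s5a_hz Φ z y = 0 := by
    filter_upwards [(xv_restr_eq_self_iff (cell_measurableSet Q) z).1 hz] with y hy hyQ
    rw [s5a_hz_eq, hy hyQ, inner_zero_right, mul_zero]
  have hhz : IntegrableOn (s5a_hz Φ z) Q.set := ((s5a_hz_memLp hΦ z).restrict Q.set).integrable (by norm_num)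
  have h1 : s5a_pr Φ om z = ∫ y in Q.set, (om y - om Q.left) * s5a_hz Φ z y := by
    rw [s5a_pr_eq, ← setIntegral_eq_integral_of_ae_compl_eq_zero hoff]
    have e : ∀ y, (om y - om Q.left) * s5a_hz Φ z y = om y * s5a_hz Φ z y - om Q.left * s5a_hz Φ z y := fun y => by ring
    simp only [e]
    rw [integral_sub (s5a_pr_integrable hΦ hom z).integrableOn (hhz.const_mul _), integral_const_mul, s5a_int_hz hΦ, horth,
      mul_zero, sub_zero]
  have hL1 : ∫ y in Q.set, ‖(z : ℝ → HV) y‖ ≤ Real.sqrt Q.len * ‖z‖ := by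
    have := xv_L1_sq_le z Q
    rw [hz] at this
    have h0 : 0 ≤ Real.sqrt Q.len * ‖z‖ := by positivity
    refine (sq_le_sq₀ (integral_nonneg fun _ => norm_nonneg _) h0).1 ?_
    rw [mul_pow, Real.sq_sqrt hQ.le]
    exact this
  rw [h1]
  calc ‖∫ y in Q.set, (om y - om Q.left) * s5a_hz Φ z y‖
      ≤ ∫ y in Q.set, (S / I.len * Q.len * Real.sqrt 2) * ‖(z : ℝ → HV) y‖ := by
        refine norm_integral_le_of_norm_le ((xv_integrableOn_norm z Q).const_mul _) ?_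
        refine (ae_restrict_iff' (cell_measurableSet Q)).2 (Filter.Eventually.of_forall fun y hy => ?_)
        rw [norm_mul]
        have e1 : ‖om y - om Q.left‖ ≤ S / I.len * Q.len := by
          refine (hom.lip y Q.left).trans (mul_le_mul_of_nonneg_left ?_ (by positivity))
          have := hy.1
          have := hy.2
          rw [cell_right_eq] at this
          rw [abs_of_nonneg (by linarith)]
          linarith
        calc ‖om y - om Q.left‖ * ‖s5a_hz Φ z y‖ ≤ (S / I.len * Q.len) * (Real.sqrt 2 * ‖(z : ℝ → HV) y‖) :=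
              mul_le_mul e1 (s5a_hz_le hΦ z y) (norm_nonneg _) (by positivity)
          _ = (S / I.len * Q.len * Real.sqrt 2) * ‖(z : ℝ → HV) y‖ := by ring
    _ = (S / I.len * Q.len * Real.sqrt 2) * ∫ y in Q.set, ‖(z : ℝ → HV) y‖ := integral_const_mul _ _
    _ ≤ (S / I.len * Q.len * Real.sqrt 2) * (Real.sqrt Q.len * ‖z‖) := mul_le_mul_of_nonneg_left hL1 (by positivity)
    _ = Real.sqrt 2 * S * (Q.len / I.len) * Real.sqrt Q.len * ‖z‖ := by ring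

/-- one level -/
theorem s5a_pr_level (hΦ : s5a_CReg Φ) (hom : s5a_Bump I S om) (n : ℕ) (z : XV) (hz : restr I.set z = z)
    (horth : ∀ Q ∈ cellsAt I n, ⟪Φ.vec Q, z⟫_ℂ = 0) :
    ‖s5a_pr Φ om z‖ ≤ Real.sqrt 2 * S * (1 / 2 : ℝ) ^ n * Real.sqrt I.len * ‖z‖ := by
  have hS := hom.nonneg
  have hI := cell_len_pos I
  have hpart := cell_part_cellsAt I n
  have hsum : z = ∑ Q ∈ cellsAt I n, restr Q.set z := by rw [xv_restr_part hpart, hz]
  have hterm : ∀ Q ∈ cellsAt I n, ‖s5a_pr Φ om (restr Q.set z)‖ ≤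
      (Real.sqrt 2 * S * (1 / 2 : ℝ) ^ n) * (Real.sqrt Q.len * ‖restr Q.set z‖) := by
    intro Q hQ
    have h := s5a_pr_cell hΦ hom (Q := Q) (restr Q.set z) (xv_restr_idem _ _)
      (by rw [← xv_restr_inner, xv_restr_vec_self]; exact horth Q hQ)
    refine h.trans (le_of_eq ?_)
    have : Q.len / I.len = (1 / 2 : ℝ) ^ n := by
      rw [cell_len_of_mem_cellsAt hQ, one_div, inv_pow]
      field_simp
    rw [this]; ring
  have hcs : ∑ Q ∈ cellsAt I n, Real.sqrt Q.len * ‖restr Q.set z‖ ≤ Real.sqrt I.len * ‖z‖ := by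
    refine (Real.sum_mul_le_sqrt_mul_sqrt _ _ _).trans (le_of_eq ?_)
    rw [xv_normsq_restr_part hpart, hz, Real.sqrt_sq (norm_nonneg _),
      Finset.sum_congr rfl fun Q _ => Real.sq_sqrt (cell_len_nonneg Q), hpart.sum_len]
  calc ‖s5a_pr Φ om z‖ = ‖∑ Q ∈ cellsAt I n, s5a_pr Φ om (restr Q.set z)‖ := by
        rw [← s5a_pr_sum hΦ hom, ← hsum]
    _ ≤ ∑ Q ∈ cellsAt I n, ‖s5a_pr Φ om (restr Q.set z)‖ := norm_sum_le _ _
    _ ≤ ∑ Q ∈ cellsAt I n, (Real.sqrt 2 * S * (1 / 2 : ℝ) ^ n) * (Real.sqrt Q.len * ‖restr Q.set z‖) :=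
        Finset.sum_le_sum hterm
    _ = (Real.sqrt 2 * S * (1 / 2 : ℝ) ^ n) * ∑ Q ∈ cellsAt I n, Real.sqrt Q.len * ‖restr Q.set z‖ := by
        rw [Finset.mul_sum]
    _ ≤ (Real.sqrt 2 * S * (1 / 2 : ℝ) ^ n) * (Real.sqrt I.len * ‖z‖) := mul_le_mul_of_nonneg_left hcs (by positivity)
    _ = Real.sqrt 2 * S * (1 / 2 : ℝ) ^ n * Real.sqrt I.len * ‖z‖ := by ring

theorem s5a_coord_sq_int (k : ℕ) (z : XV) : ∫ y, ‖xvCoord k z y‖ ^ 2 ≤ ‖z‖ ^ 2 := by
  rw [xv_normsq_eq_integral]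
  refine integral_mono ((xv_coord_memLp k z).integrable_norm_pow (by norm_num)) (xv_integrable_normsq z) fun y => ?_
  exact pow_le_pow_left₀ (norm_nonneg _) (xv_coord_norm_le k z y) 2

/-- a single coordinate against a bump -/
theorem s5a_coord_le (hom : s5a_Bump I S om) (k : ℕ) (z : XV) :
    ‖∫ y, om y * xvCoord k z y‖ ≤ S * Real.sqrt I.len * ‖z‖ := by
  have h1 := s5a_cs hom.memLp (xv_coord_memLp k z)
  have h2 : Real.sqrt (∫ y, ‖xvCoord k z y‖ ^ 2) ≤ ‖z‖ := by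
    calc Real.sqrt (∫ y, ‖xvCoord k z y‖ ^ 2) ≤ Real.sqrt (‖z‖ ^ 2) := Real.sqrt_le_sqrt (s5a_coord_sq_int k z)
      _ = ‖z‖ := Real.sqrt_sq (norm_nonneg _)
  exact h1.trans (mul_le_mul hom.sqrt_sq_int h2 (Real.sqrt_nonneg _) (mul_nonneg hom.nonneg (Real.sqrt_nonneg _)))

end PR


section ORTH
variable {Φ : Col} {I : Cell} {m : Cell → Finset Col}

/-- the residual of a delayed projection is orthogonal to the span of the level -/
theorem s5a_res_orth_span (m : Cell → Finset Col) (I : Cell) (F : XV) (n : ℕ) {v : XV} (hv : v ∈ xvPSpan m (cellsAt I n)) :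
    ⟪v, restr I.set F - dproj m I n F⟫_ℂ = 0 := by
  rw [← xv_dproj_restr, xv_dproj_eq_proj]
  exact Submodule.inner_right_of_mem_orthogonal hv (Submodule.sub_starProjection_mem_orthogonal _)

theorem s5a_res_orth (hΦ : s5a_CReg Φ) (F : XV) (n : ℕ) {Q : Cell} (hQ : Q ∈ cellsAt I n) (hm : Φ ∈ m Q) :
    ⟪Φ.vec Q, restr I.set F - dproj m I n F⟫_ℂ = 0 :=
  s5a_res_orth_span m I F n (xv_colSpan_le_pspan m hQ (xv_vec_mem_colSpan hm Q))

theorem s5a_child_mem {I Q : Cell} {n : ℕ} (hQ : Q ∈ cellsAt I n) (b : Fin 2) : Q.child b ∈ cellsAt I (n + 1) := by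
  rw [cell_mem_cellsAt'] at hQ ⊢
  refine ⟨(cell_child_le Q b).trans hQ.1, ?_⟩
  rw [cell_depth_child, hQ.2]
  push_cast
  ring

theorem s5a_res_orth' (hΦ : s5a_CReg Φ) (F : XV) (n : ℕ) {Q : Cell} (hQ : Q ∈ cellsAt I n)
    (hm : ∀ Q' ∈ cellsAt I (n + 1), Φ ∈ m Q') : ⟪Φ.vec Q, restr I.set F - dproj m I (n + 1) F⟫_ℂ = 0 := by
  have hreg : Φ.Reg Q := xv_reg_of_measurable ⟨hΦ.meas, hΦ.bdd⟩ Q
  rw [xv_vec_child hreg, inner_add_left, s5a_res_orth hΦ F (n + 1) (s5a_child_mem hQ 0) (hm _ (s5a_child_mem hQ 0)),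
    s5a_res_orth hΦ F (n + 1) (s5a_child_mem hQ 1) (hm _ (s5a_child_mem hQ 1)), add_zero]

theorem s5a_step_orth (hΦ : s5a_CReg Φ) (F : XV) (n : ℕ) {Q : Cell} (hQ : Q ∈ cellsAt I n) (hm : ∀ Q', Q' ≤ I → Φ ∈ m Q') :
    ⟪Φ.vec Q, dproj m I (n + 1) F - dproj m I n F⟫_ℂ = 0 := by
  have h1 := s5a_res_orth (m := m) hΦ F n hQ (hm Q ((cell_part_cellsAt I n).le Q hQ))
  have h2 := s5a_res_orth' (m := m) hΦ F n hQ (fun Q' hQ' => hm Q' ((cell_part_cellsAt I (n + 1)).le Q' hQ'))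
  have e : dproj m I (n + 1) F - dproj m I n F =
      (restr I.set F - dproj m I n F) - (restr I.set F - dproj m I (n + 1) F) := by abel
  rw [e, inner_sub_right, h1, h2, sub_zero]

/-- the telescoping estimate -/
theorem s5a_tele (hΦ : s5a_CReg Φ) (hm : ∀ Q', Q' ≤ I → Φ ∈ m Q') {S : ℝ} {om : ℝ → ℂ} (hom : s5a_Bump I S om) (F : XV)
    (K0 N : ℕ) :
    ‖s5a_pr Φ om (restr I.set F - dproj m I K0 F)‖ ≤ Real.sqrt 2 * S * Real.sqrt I.len *
      (∑ n ∈ Finset.range N, (1 / 2 : ℝ) ^ (K0 + n) * ‖dproj m I (K0 + n + 1) F - dproj m I (K0 + n) F‖ +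
        (1 / 2 : ℝ) ^ (K0 + N) * ‖restr I.set F‖) := by
  have hS := hom.nonneg
  have hres : ∀ n, ‖s5a_pr Φ om (restr I.set F - dproj m I n F)‖ ≤
      Real.sqrt 2 * S * Real.sqrt I.len * ((1 / 2 : ℝ) ^ n * ‖restr I.set F‖) := by
    intro n
    have h := s5a_pr_level hΦ hom n (restr I.set F - dproj m I n F) (xv_restr_resid m I n F)
      (fun Q hQ => s5a_res_orth hΦ F n hQ (hm Q ((cell_part_cellsAt I n).le Q hQ)))
    calc ‖s5a_pr Φ om (restr I.set F - dproj m I n F)‖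
        ≤ Real.sqrt 2 * S * (1 / 2 : ℝ) ^ n * Real.sqrt I.len * ‖restr I.set F - dproj m I n F‖ := h
      _ ≤ Real.sqrt 2 * S * (1 / 2 : ℝ) ^ n * Real.sqrt I.len * ‖restr I.set F‖ :=
          mul_le_mul_of_nonneg_left (xv_norm_resid_le m I n F) (by positivity)
      _ = _ := by ring
  have hstep : ∀ n, ‖s5a_pr Φ om (dproj m I (n + 1) F - dproj m I n F)‖ ≤
      Real.sqrt 2 * S * Real.sqrt I.len * ((1 / 2 : ℝ) ^ n * ‖dproj m I (n + 1) F - dproj m I n F‖) := by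
    intro n
    have h := s5a_pr_level hΦ hom n (dproj m I (n + 1) F - dproj m I n F)
      (by rw [map_sub, xv_restr_dproj, xv_restr_dproj]) (fun Q hQ => s5a_step_orth hΦ F n hQ hm)
    refine h.trans (le_of_eq ?_)
    ring
  have htel : ∀ N : ℕ, restr I.set F - dproj m I K0 F =
      ∑ n ∈ Finset.range N, (dproj m I (K0 + n + 1) F - dproj m I (K0 + n) F) + (restr I.set F - dproj m I (K0 + N) F) := by
    intro N
    induction N with
    | zero => simp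
    | succ N ih =>
      rw [Finset.sum_range_succ, ih]
      rw [show K0 + (N + 1) = K0 + N + 1 by ring]
      abel
  rw [htel N, s5a_pr_add hΦ hom, s5a_pr_sum hΦ hom, mul_add, Finset.mul_sum]
  refine (norm_add_le _ _).trans (add_le_add ((norm_sum_le _ _).trans (Finset.sum_le_sum fun n _ => hstep (K0 + n))) (hres _))

end ORTH


section PRIV
variable {Φ : Col} {I J : Cell} {m : Cell → Finset Col}

/-- the private coordinate of the current projection is constant on the cell -/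
theorem s5a_coord_cproj (hreg : ColReg m) (hlab : ∀ Φ' ∈ m I, Φ'.lab = Φ.lab → Φ' = Φ) (F : XV) :
    ∃ c : ℂ, xvCoord (Φ.lab + 1) (cproj (m I) I F) =ᵐ[volume] I.set.indicator fun _ => c := by
  classical
  obtain ⟨a, ha⟩ := xv_cproj_exists_coef (m I) I F
  have hr : ∀ Φ' ∈ m I, Φ'.Reg I := fun Φ' h => xv_reg_of_measurable ⟨hreg.meas I Φ' h, hreg.bdd I Φ' h⟩ I
  refine ⟨∑ Φ' ∈ m I, a Φ' * (if Φ'.lab = Φ.lab then (Real.sqrt Φ'.eps : ℂ) else 0), ?_⟩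
  rw [ha]
  filter_upwards [xv_sum_vec_ae hr a] with y hy
  unfold xvCoord
  rw [hy]
  by_cases hyI : y ∈ I.set
  · rw [Set.indicator_of_mem hyI, Set.indicator_of_mem hyI, ← xv_eval_apply, map_sum]
    refine Finset.sum_congr rfl fun Φ' _ => ?_
    rw [map_smul, smul_eq_mul, xv_eval_apply]
    congr 1
    split_ifs with h
    · rw [← h, xv_fn_lab]
    · exact xv_fn_ne Φ' y (Nat.succ_ne_zero _) (fun h' => h (by omega))
  · rw [Set.indicator_of_notMem hyI, Set.indicator_of_notMem hyI]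
    rfl

theorem s5a_coord_integrable {S : ℝ} {om : ℝ → ℂ} (hom : s5a_Bump I S om) (k : ℕ) (z : XV) :
    Integrable fun y => om y * xvCoord k z y := hom.memLp.integrable_mul (xv_coord_memLp k z)

/-- the scalar moment of the residual = pairing + private part of the delayed projection -/
theorem s5a_int_resid (hΦ : s5a_CReg Φ) {S : ℝ} {om : ℝ → ℂ} (hom : s5a_Bump I S om) (f : ℝ → ℂ) (K0 : ℕ) :
    ∫ u, om u * (conj (Φ.phi u) * physFn (restr I.set (ofScalar f) - dproj m I K0 (ofScalar f)) u) =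
      s5a_pr Φ om (restr I.set (ofScalar f) - dproj m I K0 (ofScalar f)) +
        (Real.sqrt Φ.eps : ℂ) * ∫ u, om u * xvCoord (Φ.lab + 1) (dproj m I K0 (ofScalar f)) u := by
  set z := restr I.set (ofScalar f) - dproj m I K0 (ofScalar f) with hz
  have h0 : xvCoord (Φ.lab + 1) (restr I.set (ofScalar f)) =ᵐ[volume] fun _ => 0 :=
    xv_restr_mem_privZero (cell_measurableSet I) (xv_ofScalar_mem_privZero f Φ.lab)
  rw [s5a_pr_eq, ← integral_const_mul, ← integral_add (s5a_pr_integrable hΦ hom z)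
    ((s5a_coord_integrable hom _ _).const_mul _)]
  apply integral_congr_ae
  filter_upwards [h0, xv_coord_sub (Φ.lab + 1) (restr I.set (ofScalar f)) (dproj m I K0 (ofScalar f))] with y h1 h2
  unfold s5a_hz
  rw [hz, h2, h1]
  ring

/-- for mean-zero bumps only the rolling difference contributes -/
theorem s5a_int_priv0 (hreg : ColReg m) (hlab : ∀ Φ' ∈ m I, Φ'.lab = Φ.lab → Φ' = Φ) {S : ℝ} {om : ℝ → ℂ}
    (hom : s5a_Bump I S om) (h0 : ∫ u, om u = 0) (F : XV) (K0 : ℕ) :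
    ∫ u, om u * xvCoord (Φ.lab + 1) (dproj m I K0 F) u =
      ∫ u, om u * xvCoord (Φ.lab + 1) (dproj m I K0 F - cproj (m I) I F) u := by
  obtain ⟨c, hc⟩ := s5a_coord_cproj hreg hlab F
  have h1 : ∫ u, om u * xvCoord (Φ.lab + 1) (cproj (m I) I F) u = 0 := by
    have : ∫ u, om u * xvCoord (Φ.lab + 1) (cproj (m I) I F) u = ∫ u, om u * c := by
      apply integral_congr_ae
      filter_upwards [hc] with y hy
      rw [hy]
      by_cases hyI : y ∈ I.set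
      · rw [Set.indicator_of_mem hyI]
      · rw [hom.eq_zero hyI, zero_mul, zero_mul]
    rw [this, integral_mul_const, h0, zero_mul]
  have h2 : ∫ u, om u * xvCoord (Φ.lab + 1) (dproj m I K0 F - cproj (m I) I F) u =
      ∫ u, (om u * xvCoord (Φ.lab + 1) (dproj m I K0 F) u - om u * xvCoord (Φ.lab + 1) (cproj (m I) I F) u) := by
    apply integral_congr_ae
    filter_upwards [xv_coord_sub (Φ.lab + 1) (dproj m I K0 F) (cproj (m I) I F)] with y hy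
    rw [hy]; ring
  rw [h2, integral_sub (s5a_coord_integrable hom _ _) (s5a_coord_integrable hom _ _), h1, sub_zero]

end PRIV

end Claimed.Agent.R258
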