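/-
Row 258, block [S5a] (architect helper192).  FILE Small: **the delayed residual times a predictor multiplier is predictor-small** (base.tex l.330-400, Lemma 5.3).
Leaves: P-S5a-EN (section EN), P-S5a-SMALL (`s5a_small`).       No paper.   Uses the STATEMENTS of Pr.lean, S5/Roll.lean (`s5r_step_energy`, `s5r_rolling`: proved), XV, S3/Prefix.lean (`s3_sum_sq_add_le`: proved).

`F = ofScalar f`, `res I = restr I F - dproj m I K0 F`, `Y_n I = dproj m I (n+1) F - dproj m I n F`,   `s5a_en m F K0 I = ∑'_n 2^{-n} ‖Y_{K0+n} I‖²`.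
EN.
 * `‖Y_n I‖ ≤ 2 ‖restr I F‖` (`xv_norm_dproj_le_restr`), so the series is summable (`summable_geometric_two`-type comparison), `0 ≤ en`.
 * `s5a_en_sum`: `∑_{I ∈ A} en I = ∑'_n 2^{-n} ∑_{I ∈ A} ‖Y_{K0+n} I‖² ≤ ∑'_n 2^{-n} ‖restr J F‖² = 2 ‖restr J F‖²`   (`Summable.tsum_finsetSum`/`tsum_finsetSum`-type interchange, `s5r_step_energy`, `tsum_geometric_two`, `Summable.tsum_le_tsum`).
 * `s5a_pr_en`: from `s5a_tele` for every `N`:  `∑_{n<N} 2^{-(K0+n)} y_n = 2^{-K0} ∑_{n<N} 2^{-n} y_n ≤ 2^{-K0} √(∑_{n<N} 2^{-n}) √(∑_{n<N} 2^{-n} y_n²) ≤ 2^{-K0} √2 √(en I)`  (Cauchy-Schwarz `Finset.sum_mul_sq_le_sq_mul_sq` /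
   `Real.sum_sqrt_mul_sqrt_le` with `2^{-n} y_n = √(2^{-n}) · √(2^{-n} y_n²)`; `Summable.sum_le_tsum`), and `2^{-(K0+N)} ‖restr I F‖ → 0` (`ge_of_tendsto'`/`le_of_forall_pos_le_add`).   So `‖pr (res I)‖ ≤ √2 S √|I| · 2^{-K0} √2 √(en I) = S √|I| · 2 · 2^{-K0} √(en I)`.
SMALL.  `X0 I = 2·2^{-K0} √(en I) + √ε ‖dproj m I K0 F - cproj (m I) I F‖`,    `X1 I = 2·2^{-K0} √(en I) + √ε ‖restr I F‖`.
 * moments: `s5a_int_resid`, `s5a_pr_en`, `s5a_coord_le` (+ `s5a_int_priv0` in the mean-zero case; `‖dproj m I K0 F‖ ≤ ‖restr I F‖`);   hypotheses for `I ≤ J`: `Φ ∈ m Q'` for `Q' ≤ I ≤ J`; `hlab` from `Inh.lab`; `s5a_CReg Φ` from `ColReg m` and `Φ ∈ m J`.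
 * square sums: `s3_sum_sq_add_le` with `x I = 2·2^{-K0} √(en I)`: `∑ x² = 4·4^{-K0} ∑ en ≤ 8·4^{-K0} ‖restr J F‖² ≤ (4·2^{-K0} ‖restr J F‖)²`;   `y I = √ε ‖roll‖`: `∑ y² ≤ ε K0² ‖restr J F‖²` (`s5r_rolling`);  resp. `y I = √ε ‖restr I F‖`, antichain: `xv_sum_normsq_restr_antichain_le`.
 * `meas`: `Φ.phi` measurable, `physFn` measurable (`(xv_continuous_coord 0).comp_stronglyMeasurable (Lp.stronglyMeasurable z)`, cf. `s7t_physFn_measurable` in S7/Terms.lean);  `mem`: bounded multiplier times `xv_physFn_memLp`.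
-/
import Claimed.Agent.R258.S5a.Pr
import Claimed.Agent.R258.Pack016

set_option autoImplicit false
open MeasureTheory
open scoped ENNReal ContDiff ComplexConjugate InnerProductSpace

namespace Claimed.Agent.R258

/-- the weighted energy of the later increments -/
noncomputable def s5a_en (m : Cell → Finset Col) (F : XV) (K0 : ℕ) (I : Cell) : ℝ :=
  ∑' n : ℕ, (1 / 2 : ℝ) ^ n * ‖dproj m I (K0 + n + 1) F - dproj m I (K0 + n) F‖ ^ 2

section EN
variable {m : Cell → Finset Col}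

theorem s5a_step_norm_le (m : Cell → Finset Col) (F : XV) (n : ℕ) (I : Cell) :
    ‖dproj m I (n + 1) F - dproj m I n F‖ ≤ 2 * ‖restr I.set F‖ := by
  have h1 := xv_norm_dproj_le_restr m I (n + 1) F
  have h2 := xv_norm_dproj_le_restr m I n F
  have h3 := norm_sub_le (dproj m I (n + 1) F) (dproj m I n F)
  linarith

theorem s5a_en_summable (m : Cell → Finset Col) (F : XV) (K0 : ℕ) (I : Cell) :
    Summable fun n : ℕ => (1 / 2 : ℝ) ^ n * ‖dproj m I (K0 + n + 1) F - dproj m I (K0 + n) F‖ ^ 2 := by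
  refine Summable.of_nonneg_of_le (fun n => by positivity) (fun n => ?_)
    (summable_geometric_two.mul_right ((2 * ‖restr I.set F‖) ^ 2))
  exact mul_le_mul_of_nonneg_left (pow_le_pow_left₀ (norm_nonneg _) (s5a_step_norm_le m F (K0 + n) I) 2) (by positivity)

theorem s5a_en_nonneg (m : Cell → Finset Col) (F : XV) (K0 : ℕ) (I : Cell) : 0 ≤ s5a_en m F K0 I :=
  tsum_nonneg fun n => by positivity

theorem s5a_en_sum {J : Cell} (hm : Inh J m) (F : XV) (K0 : ℕ) (A : Finset Cell) (hA : ∀ I ∈ A, I ≤ J) :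
    ∑ I ∈ A, s5a_en m F K0 I ≤ 2 * ‖restr J.set F‖ ^ 2 := by
  unfold s5a_en
  rw [← Summable.tsum_finsetSum fun I _ => s5a_en_summable m F K0 I]
  have hs : Summable fun n : ℕ => ∑ I ∈ A, (1 / 2 : ℝ) ^ n * ‖dproj m I (K0 + n + 1) F - dproj m I (K0 + n) F‖ ^ 2 :=
    summable_sum fun I _ => s5a_en_summable m F K0 I
  calc ∑' n : ℕ, ∑ I ∈ A, (1 / 2 : ℝ) ^ n * ‖dproj m I (K0 + n + 1) F - dproj m I (K0 + n) F‖ ^ 2
      ≤ ∑' n : ℕ, (1 / 2 : ℝ) ^ n * ‖restr J.set F‖ ^ 2 := by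
        refine hs.tsum_le_tsum (fun n => ?_) (summable_geometric_two.mul_right _)
        rw [← Finset.mul_sum]
        exact mul_le_mul_of_nonneg_left (s5r_step_energy hm (K0 + n) F A hA) (by positivity)
    _ = 2 * ‖restr J.set F‖ ^ 2 := by rw [tsum_mul_right, tsum_geometric_two]

theorem s5a_pr_en {Φ : Col} {I : Cell} (hΦ : s5a_CReg Φ) (hm : ∀ Q', Q' ≤ I → Φ ∈ m Q') {S : ℝ} {om : ℝ → ℂ}
    (hom : s5a_Bump I S om) (F : XV) (K0 : ℕ) :
    ‖s5a_pr Φ om (restr I.set F - dproj m I K0 F)‖ ≤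
      S * Real.sqrt I.len * (2 * (1 / 2 : ℝ) ^ K0 * Real.sqrt (s5a_en m F K0 I)) := by
  have hS := hom.nonneg
  set y : ℕ → ℝ := fun n => ‖dproj m I (K0 + n + 1) F - dproj m I (K0 + n) F‖ with hy
  have hsum : ∀ N : ℕ, ∑ n ∈ Finset.range N, (1 / 2 : ℝ) ^ (K0 + n) * y n ≤
      (1 / 2 : ℝ) ^ K0 * (Real.sqrt 2 * Real.sqrt (s5a_en m F K0 I)) := by
    intro N
    have e1 : ∑ n ∈ Finset.range N, (1 / 2 : ℝ) ^ (K0 + n) * y n =
        (1 / 2 : ℝ) ^ K0 * ∑ n ∈ Finset.range N, Real.sqrt ((1 / 2 : ℝ) ^ n) * Real.sqrt ((1 / 2 : ℝ) ^ n * y n ^ 2) := by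
      rw [Finset.mul_sum]
      refine Finset.sum_congr rfl fun n _ => ?_
      rw [Real.sqrt_mul (by positivity), Real.sqrt_sq (norm_nonneg _), ← mul_assoc (Real.sqrt _),
        Real.mul_self_sqrt (by positivity), pow_add]
      ring
    rw [e1]
    refine mul_le_mul_of_nonneg_left ?_ (by positivity)
    refine (Real.sum_sqrt_mul_sqrt_le _ (fun n => by positivity) (fun n => by positivity)).trans ?_
    refine mul_le_mul (Real.sqrt_le_sqrt (sum_geometric_two_le N)) (Real.sqrt_le_sqrt ?_) (Real.sqrt_nonneg _)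
      (Real.sqrt_nonneg _)
    exact (s5a_en_summable m F K0 I).sum_le_tsum _ (fun n _ => by positivity)
  have hN : ∀ N : ℕ, ‖s5a_pr Φ om (restr I.set F - dproj m I K0 F)‖ ≤ Real.sqrt 2 * S * Real.sqrt I.len *
      ((1 / 2 : ℝ) ^ K0 * (Real.sqrt 2 * Real.sqrt (s5a_en m F K0 I)) + (1 / 2 : ℝ) ^ K0 * (1 / 2 : ℝ) ^ N * ‖restr I.set F‖) := by
    intro N
    refine (s5a_tele hΦ hm hom F K0 N).trans (mul_le_mul_of_nonneg_left ?_ (by positivity))
    rw [← pow_add]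
    exact add_le_add_left (hsum N) _
  have hlim : Filter.Tendsto (fun N : ℕ => Real.sqrt 2 * S * Real.sqrt I.len *
      ((1 / 2 : ℝ) ^ K0 * (Real.sqrt 2 * Real.sqrt (s5a_en m F K0 I)) + (1 / 2 : ℝ) ^ K0 * (1 / 2 : ℝ) ^ N * ‖restr I.set F‖))
      Filter.atTop (nhds (Real.sqrt 2 * S * Real.sqrt I.len *
      ((1 / 2 : ℝ) ^ K0 * (Real.sqrt 2 * Real.sqrt (s5a_en m F K0 I)) + (1 / 2 : ℝ) ^ K0 * 0 * ‖restr I.set F‖))) := by
    have h0 : Filter.Tendsto (fun N : ℕ => (1 / 2 : ℝ) ^ N) Filter.atTop (nhds 0) :=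
      tendsto_pow_atTop_nhds_zero_of_lt_one (by norm_num) (by norm_num)
    exact ((((h0.const_mul _).mul_const _).const_add _).const_mul _)
  refine (ge_of_tendsto' hlim hN).trans (le_of_eq ?_)
  have h2 : Real.sqrt 2 * Real.sqrt 2 = 2 := Real.mul_self_sqrt (by norm_num)
  calc Real.sqrt 2 * S * Real.sqrt I.len *
      ((1 / 2 : ℝ) ^ K0 * (Real.sqrt 2 * Real.sqrt (s5a_en m F K0 I)) + (1 / 2 : ℝ) ^ K0 * 0 * ‖restr I.set F‖)
      = S * Real.sqrt I.len * ((Real.sqrt 2 * Real.sqrt 2) * (1 / 2 : ℝ) ^ K0 * Real.sqrt (s5a_en m F K0 I)) := by ring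
    _ = _ := by rw [h2]

end EN


theorem s5a_physFn_measurable (z : XV) : Measurable (physFn z) :=
  ((xv_continuous_coord 0).comp_stronglyMeasurable (Lp.stronglyMeasurable z)).measurable

/-- **predictor smallness of the delayed residual** -/
theorem s5a_small {J : Cell} {m : Cell → Finset Col} (hm : Inh J m) (hreg : ColReg m) (Φ : Col) (hΦ : ∀ I, I ≤ J → Φ ∈ m I)
    (f : ℝ → ℂ) (K0 : ℕ) :
    s5a_Small J (fun I u => conj (Φ.phi u) * physFn (restr I.set (ofScalar f) - dproj m I K0 (ofScalar f)) u)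
      (((K0 : ℝ) * Real.sqrt Φ.eps + 4 * (1 / 2 : ℝ) ^ K0) * ‖restr J.set (ofScalar f)‖)
      ((Real.sqrt Φ.eps + 4 * (1 / 2 : ℝ) ^ K0) * ‖restr J.set (ofScalar f)‖) := by
  set F := ofScalar f with hF
  have hΦJ : Φ ∈ m J := hΦ J le_rfl
  have hC : s5a_CReg Φ := ⟨hreg.meas J Φ hΦJ, hreg.bdd J Φ hΦJ, (hreg.eps J Φ hΦJ).1.le, (hreg.eps J Φ hΦJ).2⟩
  have hconj : Measurable fun y => conj (Φ.phi y) := Complex.continuous_conj.measurable.comp hC.meas
  have hlab : ∀ I, ∀ Φ' ∈ m I, Φ'.lab = Φ.lab → Φ' = Φ := fun I Φ' h h' => hm.lab I J Φ' h Φ hΦJ h'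
  have hε := Real.sqrt_nonneg Φ.eps
  have hx : ∀ A : Finset Cell, (∀ I ∈ A, I ≤ J) →
      ∑ I ∈ A, (2 * (1 / 2 : ℝ) ^ K0 * Real.sqrt (s5a_en m F K0 I)) ^ 2 ≤ (4 * (1 / 2 : ℝ) ^ K0 * ‖restr J.set F‖) ^ 2 := by
    intro A hA
    have h1 : ∀ I ∈ A, (2 * (1 / 2 : ℝ) ^ K0 * Real.sqrt (s5a_en m F K0 I)) ^ 2 =
        (2 * (1 / 2 : ℝ) ^ K0) ^ 2 * s5a_en m F K0 I := fun I _ => by
      rw [mul_pow, Real.sq_sqrt (s5a_en_nonneg m F K0 I)]
    rw [Finset.sum_congr rfl h1, ← Finset.mul_sum]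
    calc (2 * (1 / 2 : ℝ) ^ K0) ^ 2 * ∑ I ∈ A, s5a_en m F K0 I ≤ (2 * (1 / 2 : ℝ) ^ K0) ^ 2 * (2 * ‖restr J.set F‖ ^ 2) :=
          mul_le_mul_of_nonneg_left (s5a_en_sum hm F K0 A hA) (by positivity)
      _ ≤ (4 * (1 / 2 : ℝ) ^ K0 * ‖restr J.set F‖) ^ 2 := by
          have : 0 ≤ ((1 / 2 : ℝ) ^ K0) ^ 2 * ‖restr J.set F‖ ^ 2 := by positivity
          nlinarith
  refine ⟨by positivity, by positivity, fun I => hconj.mul (s5a_physFn_measurable _), fun I => ?_,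
    fun I => 2 * (1 / 2 : ℝ) ^ K0 * Real.sqrt (s5a_en m F K0 I) + Real.sqrt Φ.eps * ‖dproj m I K0 F - cproj (m I) I F‖,
    fun I => 2 * (1 / 2 : ℝ) ^ K0 * Real.sqrt (s5a_en m F K0 I) + Real.sqrt Φ.eps * ‖restr I.set F‖,
    fun I => by positivity, fun I => by positivity, ?_, ?_, ?_, ?_⟩
  · refine MemLp.of_le_mul (c := 1) (xv_physFn_memLp (restr I.set F - dproj m I K0 F))
      (hconj.mul (s5a_physFn_measurable _)).aestronglyMeasurable (Filter.Eventually.of_forall fun y => ?_)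
    rw [norm_mul, RCLike.norm_conj]
    exact mul_le_mul_of_nonneg_right (hC.bdd y) (norm_nonneg _)
  · intro I hI om S hom h0
    have hS := hom.nonneg
    rw [s5a_int_resid hC hom f K0, ← hF, s5a_int_priv0 hreg (hlab I) hom h0 F K0]
    have h1 := s5a_pr_en hC (fun Q' hQ' => hΦ Q' (hQ'.trans hI)) hom F K0
    have h2 := s5a_coord_le hom (Φ.lab + 1) (dproj m I K0 F - cproj (m I) I F)
    calc _ ≤ ‖s5a_pr Φ om (restr I.set F - dproj m I K0 F)‖ +
          ‖(Real.sqrt Φ.eps : ℂ) * ∫ u, om u * xvCoord (Φ.lab + 1) (dproj m I K0 F - cproj (m I) I F) u‖ := norm_add_le _ _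
      _ ≤ S * Real.sqrt I.len * (2 * (1 / 2 : ℝ) ^ K0 * Real.sqrt (s5a_en m F K0 I)) +
          Real.sqrt Φ.eps * (S * Real.sqrt I.len * ‖dproj m I K0 F - cproj (m I) I F‖) := by
          refine add_le_add h1 ?_
          rw [norm_mul, Complex.norm_real, Real.norm_of_nonneg hε]
          exact mul_le_mul_of_nonneg_left h2 hε
      _ = _ := by ring
  · intro I hI om S hom
    have hS := hom.nonneg
    rw [s5a_int_resid hC hom f K0, ← hF]
    have h1 := s5a_pr_en hC (fun Q' hQ' => hΦ Q' (hQ'.trans hI)) hom F K0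
    have h2 := s5a_coord_le hom (Φ.lab + 1) (dproj m I K0 F)
    have h3 := xv_norm_dproj_le_restr m I K0 F
    calc _ ≤ ‖s5a_pr Φ om (restr I.set F - dproj m I K0 F)‖ +
          ‖(Real.sqrt Φ.eps : ℂ) * ∫ u, om u * xvCoord (Φ.lab + 1) (dproj m I K0 F) u‖ := norm_add_le _ _
      _ ≤ S * Real.sqrt I.len * (2 * (1 / 2 : ℝ) ^ K0 * Real.sqrt (s5a_en m F K0 I)) +
          Real.sqrt Φ.eps * (S * Real.sqrt I.len * ‖restr I.set F‖) := by
          refine add_le_add h1 ?_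
          rw [norm_mul, Complex.norm_real, Real.norm_of_nonneg hε]
          exact mul_le_mul_of_nonneg_left (h2.trans (mul_le_mul_of_nonneg_left h3 (by positivity))) hε
      _ = _ := by ring
  · intro A hA
    have hy : ∑ I ∈ A, (Real.sqrt Φ.eps * ‖dproj m I K0 F - cproj (m I) I F‖) ^ 2 ≤
        ((K0 : ℝ) * Real.sqrt Φ.eps * ‖restr J.set F‖) ^ 2 := by
      simp only [mul_pow]
      rw [← Finset.mul_sum]
      calc Real.sqrt Φ.eps ^ 2 * ∑ I ∈ A, ‖dproj m I K0 F - cproj (m I) I F‖ ^ 2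
          ≤ Real.sqrt Φ.eps ^ 2 * ((K0 : ℝ) ^ 2 * ‖restr J.set F‖ ^ 2) :=
            mul_le_mul_of_nonneg_left (s5r_rolling J m hm K0 F A hA) (by positivity)
        _ = _ := by ring
    have := s3_sum_sq_add_le A _ _ _ _ _ (by positivity) (by positivity) (fun I _ => by positivity) (fun I _ => le_rfl)
      (hx A hA) hy
    refine this.trans (le_of_eq ?_)
    ring
  · intro A hA hanti
    have hy : ∑ I ∈ A, (Real.sqrt Φ.eps * ‖restr I.set F‖) ^ 2 ≤ (Real.sqrt Φ.eps * ‖restr J.set F‖) ^ 2 := by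
      simp only [mul_pow]
      rw [← Finset.mul_sum]
      exact mul_le_mul_of_nonneg_left (xv_sum_normsq_restr_antichain_le hanti hA F) (by positivity)
    have := s3_sum_sq_add_le A _ _ _ _ _ (by positivity) (by positivity) (fun I _ => by positivity) (fun I _ => le_rfl)
      (hx A hA) hy
    refine this.trans (le_of_eq ?_)
    ring

end Claimed.Agent.R258
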