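/-
Row 258, block [S5a] (architect helper192).  FILE Top: **the assembly of `s5a_pair`** (Cor. 5.2 + Lemma 5.3) from the leaves of the block.
-/
import Claimed.Agent.R258.S5a.Ret
import Claimed.Agent.R258.S5a.Small
import Claimed.Agent.R258.S5a.Ad
import Claimed.Agent.R258.S5a.Num

set_option autoImplicit false
open MeasureTheory
open scoped ENNReal ContDiff ComplexConjugate

namespace Claimed.Agent.R258

/-- splitting a weighted series into the retained and the discarded terms -/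
theorem s5a_tsum_split {ι : Type} (a wt X : ι → ℝ) (P : ι → Prop) (S₀ U V : ℝ) (ha : ∀ τ, 0 ≤ a τ)
    (hwt : ∀ τ, 1 ≤ wt τ) (hs : Summable fun τ => a τ * wt τ) (hS : ∑' τ, a τ * wt τ ≤ S₀) (hU : 0 ≤ U) (hV : 0 ≤ V)
    (hX0 : ∀ τ, 0 ≤ X τ) (hX1 : ∀ τ, P τ → X τ ≤ U) (hX2 : ∀ τ, ¬ P τ → X τ ≤ V * wt τ) :
    Summable (fun τ => a τ * X τ) ∧ ∑' τ, a τ * X τ ≤ S₀ * (U + V) := by
  have key : ∀ τ, a τ * X τ ≤ a τ * wt τ * (U + V) := by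
    intro τ
    have h1 : X τ ≤ wt τ * (U + V) := by
      by_cases hP : P τ
      · have := hX1 τ hP
        have h2 := hwt τ
        nlinarith [mul_nonneg (sub_nonneg.2 h2) hU, mul_nonneg (le_trans zero_le_one h2) hV]
      · have := hX2 τ hP
        have h2 := hwt τ
        nlinarith [mul_nonneg (le_trans zero_le_one h2) hU]
    calc a τ * X τ ≤ a τ * (wt τ * (U + V)) := mul_le_mul_of_nonneg_left h1 (ha τ)
      _ = a τ * wt τ * (U + V) := by ring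
  have hs2 : Summable fun τ => a τ * wt τ * (U + V) := hs.mul_right _
  have hs1 : Summable fun τ => a τ * X τ :=
    Summable.of_nonneg_of_le (fun τ => mul_nonneg (ha τ) (hX0 τ)) key hs2
  refine ⟨hs1, ?_⟩
  calc ∑' τ, a τ * X τ ≤ ∑' τ, a τ * wt τ * (U + V) := hs1.tsum_le_tsum key hs2
    _ = (∑' τ, a τ * wt τ) * (U + V) := tsum_mul_right
    _ ≤ S₀ * (U + V) := mul_le_mul_of_nonneg_right hS (add_nonneg hU hV)

/-- multipliers in the two slots -/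
theorem s5a_sum_mul (A : Finset Cell) (w : Cell → ℝ × ℝ → ℂ) (a b : Fin 4) (G : ℝ × ℝ → ℂ) (ψa ψb : ℝ → ℂ)
    (f g : Cell → ℝ → ℂ) :
    s5a_sum A w a b (fun _ p => ψa (p.1 + (a : ℝ) * p.2) * ψb (p.1 + (b : ℝ) * p.2) * G p) f g =
      s5a_sum A w a b (fun _ => G) (fun I u => ψa u * f I u) (fun I v => ψb v * g I v) := by
  unfold s5a_sum
  refine Finset.sum_congr rfl fun I _ => ?_
  rw [s5a_formG_mul]

/-- the final arithmetic -/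
theorem s5a_final_num (S₀ P δ₀ K D T ka kb Na Nb q se k0 eB DpC PL : ℝ) (hS₀ : 0 < S₀) (hK : 0 ≤ K) (hD : 0 ≤ D)
    (hka : 1 ≤ ka) (hkb : 1 ≤ kb) (hNa : 0 ≤ Na) (hNb : 0 ≤ Nb) (hq : 0 ≤ q) (hse : 0 ≤ se) (hk0 : 0 ≤ k0) (heB : 0 ≤ eB)
    (hDpC : 0 ≤ DpC)
    (h5 : S₀ * (δ₀ * P) ≤ eB / 3) (h6 : S₀ * (K * (D / T) * (1 + D)) ≤ eB / 3) (h9 : S₀ * (K * D * (4 * (1 + D))) ≤ DpC)
    (hPL : ka * kb ≤ PL) :
    S₀ * (δ₀ * P * (ka * Na) * (kb * Nb) + K * D * ((k0 * se + 4 * q) * Na + D * ((se + 4 * q) * Na)) * (kb * Nb) +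
        K * (D / T) * (1 + D) * (ka * Na) * (kb * Nb) + eB / 3 / S₀ * ((ka * Na) * (kb * Nb))) ≤
      (eB + (q + (1 + k0) * se) * DpC) * PL * (Na * Nb) := by
  have hN : 0 ≤ Na * Nb := mul_nonneg hNa hNb
  have hkk : 0 ≤ ka * kb := by positivity
  have hW : 0 ≤ ka * kb * (Na * Nb) := mul_nonneg hkk hN
  have t1 : S₀ * (δ₀ * P * (ka * Na) * (kb * Nb)) ≤ eB / 3 * (ka * kb * (Na * Nb)) := by
    calc S₀ * (δ₀ * P * (ka * Na) * (kb * Nb)) = S₀ * (δ₀ * P) * (ka * kb * (Na * Nb)) := by ring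
      _ ≤ eB / 3 * (ka * kb * (Na * Nb)) := mul_le_mul_of_nonneg_right h5 hW
  have t3 : S₀ * (K * (D / T) * (1 + D) * (ka * Na) * (kb * Nb)) ≤ eB / 3 * (ka * kb * (Na * Nb)) := by
    calc S₀ * (K * (D / T) * (1 + D) * (ka * Na) * (kb * Nb)) = S₀ * (K * (D / T) * (1 + D)) * (ka * kb * (Na * Nb)) := by ring
      _ ≤ eB / 3 * (ka * kb * (Na * Nb)) := mul_le_mul_of_nonneg_right h6 hW
  have t4 : S₀ * (eB / 3 / S₀ * ((ka * Na) * (kb * Nb))) = eB / 3 * (ka * kb * (Na * Nb)) := by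
    field_simp
  have hE : 0 ≤ q + (1 + k0) * se := by positivity
  have e1 : (k0 * se + 4 * q) * Na + D * ((se + 4 * q) * Na) ≤ 4 * (1 + D) * (q + (1 + k0) * se) * Na := by
    have : (k0 * se + 4 * q) + D * (se + 4 * q) ≤ 4 * (1 + D) * (q + (1 + k0) * se) := by
      nlinarith [mul_nonneg hD hse, mul_nonneg hk0 hse, mul_nonneg (mul_nonneg hD hk0) hse]
    calc (k0 * se + 4 * q) * Na + D * ((se + 4 * q) * Na) = ((k0 * se + 4 * q) + D * (se + 4 * q)) * Na := by ring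
      _ ≤ 4 * (1 + D) * (q + (1 + k0) * se) * Na := mul_le_mul_of_nonneg_right this hNa
  have t2 : S₀ * (K * D * ((k0 * se + 4 * q) * Na + D * ((se + 4 * q) * Na)) * (kb * Nb)) ≤
      (q + (1 + k0) * se) * DpC * (ka * kb * (Na * Nb)) := by
    have hkbN : 0 ≤ kb * Nb := by positivity
    calc S₀ * (K * D * ((k0 * se + 4 * q) * Na + D * ((se + 4 * q) * Na)) * (kb * Nb))
        ≤ S₀ * (K * D * (4 * (1 + D) * (q + (1 + k0) * se) * Na) * (kb * Nb)) := by gcongr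
      _ = S₀ * (K * D * (4 * (1 + D))) * ((q + (1 + k0) * se) * (kb * (Na * Nb))) := by ring
      _ ≤ DpC * ((q + (1 + k0) * se) * (kb * (Na * Nb))) := by
          apply mul_le_mul_of_nonneg_right h9
          positivity
      _ ≤ DpC * ((q + (1 + k0) * se) * (ka * kb * (Na * Nb))) := by
          have : kb * (Na * Nb) ≤ ka * kb * (Na * Nb) := by
            have h1 : kb ≤ ka * kb := le_mul_of_one_le_left (by linarith) hka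
            exact mul_le_mul_of_nonneg_right h1 hN
          gcongr
      _ = (q + (1 + k0) * se) * DpC * (ka * kb * (Na * Nb)) := by ring
  have hF : 0 ≤ eB + (q + (1 + k0) * se) * DpC := by positivity
  calc S₀ * (δ₀ * P * (ka * Na) * (kb * Nb) + K * D * ((k0 * se + 4 * q) * Na + D * ((se + 4 * q) * Na)) * (kb * Nb) +
        K * (D / T) * (1 + D) * (ka * Na) * (kb * Nb) + eB / 3 / S₀ * ((ka * Na) * (kb * Nb)))
      = S₀ * (δ₀ * P * (ka * Na) * (kb * Nb)) + S₀ * (K * D * ((k0 * se + 4 * q) * Na + D * ((se + 4 * q) * Na)) * (kb * Nb)) +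
        S₀ * (K * (D / T) * (1 + D) * (ka * Na) * (kb * Nb)) + S₀ * (eB / 3 / S₀ * ((ka * Na) * (kb * Nb))) := by ring
    _ ≤ eB / 3 * (ka * kb * (Na * Nb)) + (q + (1 + k0) * se) * DpC * (ka * kb * (Na * Nb)) + eB / 3 * (ka * kb * (Na * Nb)) +
        eB / 3 * (ka * kb * (Na * Nb)) := by rw [t4]; gcongr
    _ = (eB + (q + (1 + k0) * se) * DpC) * (ka * kb) * (Na * Nb) := by ring
    _ ≤ (eB + (q + (1 + k0) * se) * DpC) * PL * (Na * Nb) := by gcongr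

/-- the analytic core: the bound for fixed parameters -/
theorem s5a_core {c0 C0 : ℝ} {Ccr Ct Cap : ℕ} {K : ℝ} (hK0 : 0 ≤ K)
    (hcr : ∀ {J : Cell} {A : Finset Cell} {w : Cell → ℝ × ℝ → ℂ} {a b : Fin 4}, s5a_Std c0 C0 J A w a b →
      ∀ (Q : Chart) (H : ℝ), Q.Cplx H → Q.Bdd →
      ∀ (f g : Cell → ℝ → ℂ) (Ma Mb : ℝ), s5a_SRow J f Ma → s5a_SRow J g Mb →
        s5a_sum A w a b (fun _ p => Q.eval p.2) f g ≤ s4a_pl Ccr (Real.log H) * Ma * Mb)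
    (hterm : ∀ {J : Cell} {A : Finset Cell} {w : Cell → ℝ × ℝ → ℂ} {a b : Fin 4}, s5a_Std c0 C0 J A w a b →
      ∀ (Q : Chart) (H : ℝ), Q.Cplx H → Q.Bdd → ∀ δ₀ : ℝ, 0 < δ₀ → δ₀ < 1 / 2 → ∀ T : ℕ, 1 ≤ T →
      ∀ (f g : Cell → ℝ → ℂ) (Ma Mb η0 η1 : ℝ), s5a_SRow J f Ma → s5a_SRow J g Mb → 0 ≤ η0 → 0 ≤ η1 →
      (∀ R : ℕ, 1 ≤ R → (R : ℝ) ≤ s4b_qp Ct (Real.log H + Real.log (1 / δ₀)) → ∀ l ∈ s5a_box Q.d T,
        s5a_Small J (fun I u => ee (-((Q.bet + s5a_sig Q R l) / s5a_kap a b) * u) * f I u) η0 η1) →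
        s5a_sum A w a b (fun _ p => Q.eval p.2) f g ≤
          δ₀ * s4a_pl Ct (Real.log H + Real.log (8 / δ₀)) * Ma * Mb +
          K * s4b_qp Ct (Real.log H + Real.log (1 / δ₀)) * (η0 + s4b_qp Ct (Real.log H + Real.log (1 / δ₀)) * η1) * Mb +
          K * (s4b_qp Ct (Real.log H + Real.log (1 / δ₀)) / T) * (1 + s4b_qp Ct (Real.log H + Real.log (1 / δ₀))) * Ma * Mb)
    {J : Cell} {A : Finset Cell} {w : Cell → ℝ × ℝ → ℂ} {a b : Fin 4} (hS : s5a_Std c0 C0 J A w a b)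
    {ι : Type} [Countable ι] (c : ι → ℂ) (ψa ψb Q : ι → Chart) (h : ι → ℝ) (G : ℝ × ℝ → ℂ)
    (hch : ∀ τ, (ψa τ).Cplx (h τ) ∧ (ψb τ).Cplx (h τ) ∧ (Q τ).Cplx (h τ) ∧ (ψa τ).Bdd ∧ (ψb τ).Bdd ∧ (Q τ).Bdd)
    (hsum : Summable (fun τ => ‖c τ‖ * h τ ^ ((Cap : ℝ)⁻¹))) (S₀ : ℝ) (hS₀ : 0 < S₀)
    (hsumle : ∑' τ, ‖c τ‖ * h τ ^ ((Cap : ℝ)⁻¹) ≤ S₀)
    (hid : ∀ x t : ℝ, HasSum (fun τ => c τ * (ψa τ).eval (x + (a : ℝ) * t) * (ψb τ).eval (x + (b : ℝ) * t) * (Q τ).eval t)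
      (G (x, t)))
    (X₁ δ₀ E : ℝ) (T : ℕ) (hX1 : 1 ≤ X₁) (hδ0 : 0 < δ₀) (hδ1 : δ₀ < 1 / 2) (hT : 1 ≤ T) (hE : 0 ≤ E)
    (hn4 : ∀ h : ℝ, X₁ < h → S₀ * s4a_pl Ccr (Real.log h) ≤ E * h ^ ((Cap : ℝ)⁻¹))
    (f g : Cell → ℝ → ℂ) (Ma Mb η0 η1 : ℝ) (hf : s5a_SRow J f Ma) (hg : s5a_SRow J g Mb) (hη0 : 0 ≤ η0) (hη1 : 0 ≤ η1)
    (hsmall : ∀ τ, h τ ≤ X₁ → ∀ R : ℕ, 1 ≤ R → (R : ℝ) ≤ s4b_qp Ct (Real.log X₁ + Real.log (1 / δ₀)) →
      ∀ l ∈ s5a_box (Q τ).d T, s5a_Small J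
        (fun I u => ee (-(((Q τ).bet + s5a_sig (Q τ) R l) / s5a_kap a b) * u) * ((ψa τ).eval u * f I u)) η0 η1) :
    s5a_sum A w a b (fun _ => G) f g ≤
      S₀ * (δ₀ * s4a_pl Ct (Real.log X₁ + Real.log (8 / δ₀)) * Ma * Mb +
          K * s4b_qp Ct (Real.log X₁ + Real.log (1 / δ₀)) * (η0 + s4b_qp Ct (Real.log X₁ + Real.log (1 / δ₀)) * η1) * Mb +
          K * (s4b_qp Ct (Real.log X₁ + Real.log (1 / δ₀)) / T) * (1 + s4b_qp Ct (Real.log X₁ + Real.log (1 / δ₀))) * Ma * Mb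
        + E / S₀ * (Ma * Mb)) := by
  classical
  set D := s4b_qp Ct (Real.log X₁ + Real.log (1 / δ₀)) with hD
  have hD0 : 0 < D := s4a_qp_pos _ _
  have hMa := hf.nonneg
  have hMb := hg.nonneg
  set U := δ₀ * s4a_pl Ct (Real.log X₁ + Real.log (8 / δ₀)) * Ma * Mb + K * D * (η0 + D * η1) * Mb +
    K * (D / T) * (1 + D) * Ma * Mb with hU
  have hh1 : ∀ τ, 1 ≤ h τ := fun τ => le_trans (Real.one_le_exp (by norm_num)) (hch τ).1.H_ge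
  have hwt : ∀ τ, 1 ≤ h τ ^ ((Cap : ℝ)⁻¹) := fun τ => Real.one_le_rpow (hh1 τ) (by positivity)
  have hcs : Summable fun τ => ‖c τ‖ :=
    Summable.of_nonneg_of_le (fun τ => norm_nonneg _)
      (fun τ => le_mul_of_one_le_right (norm_nonneg _) (hwt τ)) hsum
  let Gs : ι → ℝ × ℝ → ℂ := fun τ p =>
    (ψa τ).eval (p.1 + (a : ℝ) * p.2) * (ψb τ).eval (p.1 + (b : ℝ) * p.2) * (Q τ).eval p.2
  let X : ι → ℝ := fun τ => if h τ ≤ X₁ then U else s4a_pl Ccr (Real.log (h τ)) * Ma * Mb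
  have hGm : ∀ τ, Measurable (Gs τ) := by
    intro τ
    have h1 := xv_chart_measurable _ (hch τ).1
    have h2 := xv_chart_measurable _ (hch τ).2.1
    have h3 := xv_chart_measurable _ (hch τ).2.2.1
    exact ((h1.comp (by fun_prop)).mul (h2.comp (by fun_prop))).mul (h3.comp (by fun_prop))
  have hGb : ∀ τ p, ‖Gs τ p‖ ≤ 1 := by
    intro τ p
    have h1 := (hch τ).2.2.2.1 (p.1 + (a : ℝ) * p.2)
    have h2 := (hch τ).2.2.2.2.1 (p.1 + (b : ℝ) * p.2)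
    have h3 := (hch τ).2.2.2.2.2 p.2
    show ‖_ * _ * _‖ ≤ 1
    rw [norm_mul, norm_mul]
    calc ‖(ψa τ).eval (p.1 + (a : ℝ) * p.2)‖ * ‖(ψb τ).eval (p.1 + (b : ℝ) * p.2)‖ * ‖(Q τ).eval p.2‖
        ≤ 1 * 1 * 1 := by gcongr
      _ = 1 := by norm_num
  have hGsum : ∀ I ∈ A, ∀ p, w I p ≠ 0 → HasSum (fun τ => c τ * Gs τ p) (G p) := by
    intro I _ p _
    have := hid p.1 p.2
    convert this using 1
    funext τ
    show c τ * (_ * _ * _) = _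
    ring
  have hXle : ∀ τ, s5a_sum A w a b (fun _ => Gs τ) f g ≤ X τ := by
    intro τ
    have e1 : s5a_sum A w a b (fun _ => Gs τ) f g =
        s5a_sum A w a b (fun _ p => (Q τ).eval p.2) (fun I u => (ψa τ).eval u * f I u) (fun I v => (ψb τ).eval v * g I v) :=
      s5a_sum_mul A w a b (fun p => (Q τ).eval p.2) (ψa τ).eval (ψb τ).eval f g
    have hf' := hf.mul (ψa τ).eval (xv_chart_measurable _ (hch τ).1) (hch τ).2.2.2.1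
    have hg' := hg.mul (ψb τ).eval (xv_chart_measurable _ (hch τ).2.1) (hch τ).2.2.2.2.1
    rw [e1]
    by_cases hτ : h τ ≤ X₁
    · have : X τ = U := if_pos hτ
      rw [this]
      exact hterm hS (Q τ) X₁ (s4a_cplx_mono (hch τ).2.2.1 hτ) (hch τ).2.2.2.2.2 δ₀ hδ0 hδ1 T hT _ _ Ma Mb η0 η1 hf' hg'
        hη0 hη1 (hsmall τ hτ)
    · have : X τ = s4a_pl Ccr (Real.log (h τ)) * Ma * Mb := if_neg hτ
      rw [this]
      exact hcr hS (Q τ) (h τ) (hch τ).2.2.1 (hch τ).2.2.2.2.2 _ _ Ma Mb hf' hg'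
  have hX1pos : ∀ τ, 0 ≤ X τ := fun τ => le_trans (s5a_sum_nonneg _ _ _ _ _ _ _) (hXle τ)
  have hplnn : 0 ≤ U := by
    by_cases hex : ∃ τ, h τ ≤ X₁
    · obtain ⟨τ, hτ⟩ := hex
      have : X τ = U := if_pos hτ
      rw [← this]
      exact hX1pos τ
    · have h1 : 0 ≤ Real.log X₁ + Real.log (8 / δ₀) :=
        add_nonneg (Real.log_nonneg hX1) (Real.log_nonneg (by rw [le_div_iff₀ hδ0]; linarith))
      have h2 := s4a_pl_nonneg Ct h1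
      have hT' : (0 : ℝ) < T := by exact_mod_cast hT
      positivity
  have hsplit := s5a_tsum_split (fun τ => ‖c τ‖) (fun τ => h τ ^ ((Cap : ℝ)⁻¹)) X (fun τ => h τ ≤ X₁) S₀ U
    (E / S₀ * (Ma * Mb)) (fun τ => norm_nonneg _) hwt hsum hsumle hplnn (by positivity) hX1pos
    (fun τ hτ => le_of_eq (if_pos hτ))
    (fun τ hτ => by
      have e : X τ = s4a_pl Ccr (Real.log (h τ)) * Ma * Mb := if_neg hτ
      rw [e]
      have h4 := hn4 (h τ) (not_le.1 hτ)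
      have h5 : s4a_pl Ccr (Real.log (h τ)) ≤ E / S₀ * h τ ^ ((Cap : ℝ)⁻¹) := by
        rw [div_mul_eq_mul_div, le_div_iff₀ hS₀]
        linarith
      calc s4a_pl Ccr (Real.log (h τ)) * Ma * Mb = s4a_pl Ccr (Real.log (h τ)) * (Ma * Mb) := by ring
        _ ≤ E / S₀ * h τ ^ ((Cap : ℝ)⁻¹) * (Ma * Mb) := mul_le_mul_of_nonneg_right h5 (mul_nonneg hMa hMb)
        _ = E / S₀ * (Ma * Mb) * h τ ^ ((Cap : ℝ)⁻¹) := by ring)
  exact le_trans (s5a_sum_tsum hS c Gs G hcs hGm hGb hGsum f g hf.mem hg.mem X hXle hsplit.1) hsplit.2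

/-- **Corollary 5.2 + Lemma 5.3** from the Weyl alternative -/
theorem s5a_pair_of (hW : s4a_Weyl1) (c0 C0 : ℝ) (hc0 : 0 < c0) (hC0 : 1 ≤ C0) :
    ∃ C : ℝ, 1 ≤ C ∧ ∀ i j a b : Fin 4, slot4 i j a b → ∀ (φ φ' : Chart) (Hlow B : ℝ),
      φ.Cplx Hlow → φ'.Cplx Hlow → φ.Bdd → φ'.Bdd → 1 ≤ B →
      ∃ (n : ℕ) (ρ : Fin n → Chart) (Dp : ℝ),
        1 ≤ Dp ∧ Dp ≤ qpoly C (B + Real.log Hlow) ∧ (n : ℝ) ≤ Dp ∧ (∀ ν, (ρ ν).Cplx Dp ∧ (ρ ν).Bdd) ∧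
        ∀ (J : Cell) (fa fb : ℝ → ℂ) (K0 : ℕ) (ε Dh L : ℝ) (m : Cell → Finset Col) (ch : ℕ → Chart),
          BddCS fa → BddCS fb → 0 < ε → ε ≤ 1 → 0 ≤ L → Inh J m → Bud J m ch Dh →
          (∀ ν, ∃ Φ : Col, Φ.phi = (ρ ν).eval ∧ Φ.eps = ε ∧ ∀ I, I ≤ J → Φ ∈ m I) →
          ∀ zb : Cell → XV, AdmSeq J (ofScalar fb) Dh L zb →
          ∀ (A : Finset Cell) (w : Cell → ℝ × ℝ → ℂ), (∀ I ∈ A, I ≤ J ∧ Admissible c0 C0 I (w I)) →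
            ∑ I ∈ A, I.len * ‖form I (w I) (put4 i j a φ.eval φ'.eval
                (physFn (restr I.set (ofScalar fa) - dproj m I K0 (ofScalar fa))) (physFn (zb I)))‖
              ≤ (Real.exp (-B) + ((2 : ℝ) ^ (-(K0 : ℝ)) + (1 + (K0 : ℝ)) * Real.sqrt ε) * Dp ^ C)
                  * plog C (Real.log Dh + L + K0)
                  * (‖restr J.set (ofScalar fa)‖ * ‖restr J.set (ofScalar fb)‖) := by
  have hSS := s5a_ss c0 C0 hc0 hC0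
  obtain ⟨Cap, hCap1, hAP⟩ := s5a_apsep
  obtain ⟨Ccr, hcr⟩ := s5a_crude hW c0 C0 hSS
  obtain ⟨Ct, K, hK0, hterm⟩ := s5a_term hW c0 C0 hSS
  obtain ⟨C1, hC1, hnum⟩ := s5a_top_num Cap Ccr Ct K hCap1 hK0
  obtain ⟨C2, hC2, hnum2⟩ := s5a_top_num2
  have hC1' : (1 : ℝ) ≤ (C1 : ℝ) := by exact_mod_cast hC1
  have hC2' : (1 : ℝ) ≤ (C2 : ℝ) := by exact_mod_cast hC2
  refine ⟨max (C1 : ℝ) (C2 : ℝ), le_trans hC1' (le_max_left _ _), ?_⟩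
  intro i j a b hslot φ φ' Hlow B hφ hφ' hφb hφ'b hB
  obtain ⟨ι, hι, c, ψa, ψb, Q, h, hch, hsum, hsumle, hcount, hid⟩ := hAP i j a b hslot φ φ' Hlow hφ hφ' hφb hφ'b
  obtain ⟨X₁, δ₀, T, Dp, hHX, hδ0, hδ1, hT, hn4, hn5, hn6, hn7, hn8, hn9, hn10⟩ := hnum Hlow B hφ.H_ge hB
  set D := s4b_qp Ct (Real.log X₁ + Real.log (1 / δ₀)) with hD
  set S₀ := s4b_qp Cap (Real.log Hlow) with hS₀
  have hS₀pos : 0 < S₀ := s4a_qp_pos _ _
  have hD0 : 0 < D := s4a_qp_pos _ _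
  have hH1 : 1 ≤ Hlow := le_trans (Real.one_le_exp (by norm_num)) hφ.H_ge
  have hX1 : 1 ≤ X₁ := hH1.trans hHX
  have hDp1 : 1 ≤ Dp := hX1.trans hn7
  have hlogH : 0 ≤ Real.log Hlow := Real.log_nonneg hH1
  obtain ⟨hfin, hcard⟩ := hcount X₁ hX1
  have hdim : ∀ τ ∈ {τ | h τ ≤ X₁}, (Q τ).d ≤ ⌊Real.log X₁⌋₊ := by
    intro τ hτ
    apply Nat.le_floor
    have h1 := (hch τ).2.2.1.dim
    have h2 : 0 < h τ := lt_of_lt_of_le (Real.exp_pos 2) (hch τ).1.H_ge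
    exact h1.trans (Real.log_le_log h2 hτ)
  obtain ⟨n, ρ, hn0, hnle, hρ1, hρ2⟩ := s5a_list {τ | h τ ≤ X₁} hfin ψa Q (s5a_kap a b) ⌊D⌋₊ T ⌊Real.log X₁⌋₊ hdim φ
  refine ⟨n, ρ, Dp, hDp1, ?_, ?_, ?_, ?_⟩
  · -- Dp ≤ qpoly
    have hx : 0 ≤ B + Real.log Hlow := by linarith
    calc Dp ≤ s4b_qp C1 (B + Real.log Hlow) := hn10
      _ = qpoly (C1 : ℝ) (B + Real.log Hlow) := s5a_qp_qpoly C1 _ hx
      _ ≤ qpoly (max (C1 : ℝ) (C2 : ℝ)) (B + Real.log Hlow) := s5a_qpoly_mono (by linarith) (le_max_left _ _) hx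
  · -- n ≤ Dp
    refine le_trans ?_ hn8
    have h1 : (n : ℝ) ≤ 1 + ({τ | h τ ≤ X₁}.ncard : ℝ) * (⌊D⌋₊ : ℝ) * (2 * (T : ℝ) + 1) ^ ⌊Real.log X₁⌋₊ := by
      exact_mod_cast hnle
    refine le_trans h1 ?_
    gcongr
  · intro ν
    rcases hρ1 ν with h1 | ⟨τ, hτ, μ, h1⟩
    · rw [h1]
      exact ⟨s4a_cplx_mono hφ (hHX.trans hn7), hφb⟩
    · rw [h1]
      exact ⟨s5a_pc_cplx (s4a_cplx_mono (hch τ).1 (le_trans hτ hn7)) μ, s5a_pc_bdd (hch τ).2.2.2.1 μ⟩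
  · intro J fa fb K0 ε Dh L m ch hfa hfb hε0 hε1 hL hInh hBud hcol zb hzb A w hAw
    obtain ⟨Φ0, -, -, hΦ0⟩ := hcol ⟨0, hn0⟩
    have hDh : Real.exp 2 ≤ Dh := (hBud.cplx J Φ0 (hΦ0 J le_rfl)).H_ge
    have hDh0 : 0 < Dh := lt_of_lt_of_le (Real.exp_pos 2) hDh
    have hreg : ColReg m := s5r_reg_of_bud J m ch Dh hBud hDh0
    have hS : s5a_Std c0 C0 J A w a b :=
      ⟨hc0, hC0, hslot.2.2.2.2.2, fun I hI => (hAw I hI).1, fun I hI => (hAw I hI).2⟩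
    have hNa0 : 0 ≤ ‖restr J.set (ofScalar fa)‖ := norm_nonneg _
    have hNb0 : 0 ≤ ‖restr J.set (ofScalar fb)‖ := norm_nonneg _
    have hf : s5a_SRow J (fun I => physFn (restr I.set (ofScalar fa) - dproj m I K0 (ofScalar fa)))
        (s5a_Ka Dh K0 * ‖restr J.set (ofScalar fa)‖) :=
      s5a_adm_row (s5a_adm_delay J (ofScalar fa) m ch Dh K0 hInh hBud) hDh (Nat.cast_nonneg _)
    have hg : s5a_SRow J (fun I => physFn (zb I)) (s5a_Ka Dh L * ‖restr J.set (ofScalar fb)‖) := s5a_adm_row hzb hDh hL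
    have hka1 : 1 ≤ s5a_Ka Dh K0 := s5a_one_le_Ka Dh K0 (Nat.cast_nonneg _)
    have hkb1 : 1 ≤ s5a_Ka Dh L := s5a_one_le_Ka Dh L hL
    have hq0 : 0 ≤ (1 / 2 : ℝ) ^ K0 := by positivity
    have hse : 0 ≤ Real.sqrt ε := Real.sqrt_nonneg _
    have hk0 : (0 : ℝ) ≤ (K0 : ℝ) := Nat.cast_nonneg _
    have hη0n : 0 ≤ ((K0 : ℝ) * Real.sqrt ε + 4 * (1 / 2 : ℝ) ^ K0) * ‖restr J.set (ofScalar fa)‖ :=
      mul_nonneg (add_nonneg (mul_nonneg hk0 hse) (mul_nonneg (by norm_num) hq0)) hNa0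
    have hη1n : 0 ≤ (Real.sqrt ε + 4 * (1 / 2 : ℝ) ^ K0) * ‖restr J.set (ofScalar fa)‖ :=
      mul_nonneg (add_nonneg hse (mul_nonneg (by norm_num) hq0)) hNa0
    have hLHS : ∑ I ∈ A, I.len * ‖form I (w I) (put4 i j a φ.eval φ'.eval
        (physFn (restr I.set (ofScalar fa) - dproj m I K0 (ofScalar fa))) (physFn (zb I)))‖ =
        s5a_sum A w a b (fun _ p => φ.eval (p.1 + (i : ℝ) * p.2) * φ'.eval (p.1 + (j : ℝ) * p.2))
          (fun I => physFn (restr I.set (ofScalar fa) - dproj m I K0 (ofScalar fa))) (fun I => physFn (zb I)) := by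
      unfold s5a_sum
      refine Finset.sum_congr rfl fun I _ => ?_
      rw [s5a_form_put4 hslot]
    rw [hLHS]
    have hsmall : ∀ τ, h τ ≤ X₁ → ∀ R : ℕ, 1 ≤ R → (R : ℝ) ≤ s4b_qp Ct (Real.log X₁ + Real.log (1 / δ₀)) →
        ∀ l ∈ s5a_box (Q τ).d T, s5a_Small J
          (fun I u => ee (-(((Q τ).bet + s5a_sig (Q τ) R l) / s5a_kap a b) * u) *
            ((ψa τ).eval u * physFn (restr I.set (ofScalar fa) - dproj m I K0 (ofScalar fa)) u))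
          (((K0 : ℝ) * Real.sqrt ε + 4 * (1 / 2 : ℝ) ^ K0) * ‖restr J.set (ofScalar fa)‖)
          ((Real.sqrt ε + 4 * (1 / 2 : ℝ) ^ K0) * ‖restr J.set (ofScalar fa)‖) := by
      intro τ hτ R hR1 hRD l hl
      obtain ⟨ν, hν⟩ := hρ2 τ hτ R hR1 (Nat.le_floor hRD) l hl
      obtain ⟨Φ, hΦphi, hΦeps, hΦm⟩ := hcol ν
      have hsm := s5a_small hInh hreg Φ hΦm fa K0
      rw [hΦeps] at hsm
      convert hsm using 1
      funext I u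
      rw [hΦphi, hν, s5a_pc_eval]
      ring
    have hcore := s5a_core (Cap := Cap) hK0 hcr hterm hS c ψa ψb Q h
      (fun p => φ.eval (p.1 + (i : ℝ) * p.2) * φ'.eval (p.1 + (j : ℝ) * p.2)) hch hsum S₀ hS₀pos hsumle hid X₁ δ₀
      (Real.exp (-B) / 3) T hX1 hδ0 hδ1 hT (by positivity) hn4 _ _ _ _ _ _ hf hg hη0n hη1n hsmall
    refine le_trans hcore ?_
    have hx : 0 ≤ Real.log Dh + L + K0 := by
      have : 0 ≤ Real.log Dh := Real.log_nonneg (le_trans (Real.one_le_exp (by norm_num)) hDh)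
      positivity
    have hPL : s5a_Ka Dh K0 * s5a_Ka Dh L ≤ plog (max (C1 : ℝ) (C2 : ℝ)) (Real.log Dh + L + K0) :=
      le_trans (hnum2 Dh L K0 hDh hL) (s5a_plog_mono hC2' (le_max_right _ _) hx)
    have hDpC : Dp ≤ Dp ^ (max (C1 : ℝ) (C2 : ℝ)) := by
      calc Dp = Dp ^ (1 : ℝ) := (Real.rpow_one _).symm
        _ ≤ Dp ^ (max (C1 : ℝ) (C2 : ℝ)) := Real.rpow_le_rpow_of_exponent_le hDp1 (le_trans hC1' (le_max_left _ _))
    have hq : (2 : ℝ) ^ (-(K0 : ℝ)) = (1 / 2 : ℝ) ^ K0 := by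
      rw [Real.rpow_neg (by norm_num), Real.rpow_natCast, one_div, inv_pow]
    rw [hq]
    exact s5a_final_num S₀ _ δ₀ K D T _ _ _ _ _ _ _ (Real.exp (-B)) _ _ hS₀pos hK0 hD0.le hka1 hkb1 hNa0 hNb0 hq0 hse hk0
      (Real.exp_pos _).le (le_trans (by linarith) hDpC) hn5 hn6 (le_trans hn9 hDpC) hPL

end Claimed.Agent.R258
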