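/-
Row 258, block [S5a] (architect helper192).  FILE Clump = leaves P-S5a-CLA (section CLA) and P-S5a-CLB (section CLB).   No paper (base.tex l.141-172 for orientation).  Mathlib + S4a/Defs.

CLA (combinatorics).  `L` a finite set of indices, `σ : α → ℝ`, and the DICHOTOMY: for `l, l' ∈ L`, `r|σ_l - σ_l'| < ε` or `> 1/ε`, `ε ≤ 1/2`.  Then "`r|σ_l - σ_l'| < ε`" is an equivalence relation on `L`
  (transitivity: `< 2ε ≤ 1 < 1/ε`, so the second alternative is excluded).  Take the setoid on the subtype `↥L`, `rep l = (Quotient.out ⟦l⟧)` for `l ∈ L` (`Quotient.mk_out`, `Quotient.sound`), `rep l = l` otherwise.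
  If `rep l ≠ rep l'` then `rep l`, `rep l'` are not equivalent [otherwise `l ~ rep l ~ rep l' ~ l'`, so `⟦l⟧ = ⟦l'⟧`], hence `> 1/ε`.
CLB (analysis of `ζ = s4a_zeta`, `ζ(u) = sT(2-u) sT(2+u)`).
* `0 ≤ ζ ≤ 1`, `ζ = 1` on `[-1,1]`, `ζ = 0` for `|u| ≥ 2`, smooth;  `2 ≤ ∫ ζ ≤ 4`.
* `s5a_zeta_hat`: one integration by parts: `∫ ζ(u) e(x u) du = -(2π i x)⁻¹ ∫ ζ'(u) e(x u) du`; `Cζ = ∫ |ζ'| / (2π)` (`ζ'` continuous with compact support).  (`integral_mul_deriv_eq_deriv_mul_of_integrable`.)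
* `s5a_AInt_le`, `s5a_Ar_*`: `‖AInt Q r ξ‖ ≤ ∫ ‖Q(ru)‖ ζ(u) du ≤ 4`, so the range is bounded above: `le_ciSup`; `Real.iSup_nonneg`.
* `s5a_coef_bound`: `AInt Q r (r γ₀) = ∫ G(ru) ζ(u) e(-rγ₀ u) du + ∫ (Q - G)(ru) ζ(u) e(-rγ₀u) du`, `G = ∑ c_γ e(γ·)`.  Second term: `ζ(u) ≠ 0 → |ru| ≤ 2r`, so `≤ η ∫ ζ ≤ 4η`.
  First term `= ∑_γ c_γ ∫ ζ(u) e(r(γ-γ₀)u) du = c_{γ₀} ∫ ζ + ∑_{γ ≠ γ₀} …`, each `≤ ‖c_γ‖ Cζ/(r|γ-γ₀|) ≤ ‖c_γ‖ Cζ ε`.      Hence `2 ‖c_{γ₀}‖ ≤ ‖c_{γ₀}‖ ∫ ζ ≤ A_r + 4η + Cζ ε ∑ ‖c_γ‖`.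
-/
import Claimed.Agent.R258.S5a.Defs

set_option autoImplicit false
open MeasureTheory
open scoped ENNReal ContDiff ComplexConjugate

namespace Claimed.Agent.R258

section CLA

/-- clumps and their representatives -/
theorem s5a_clump {α : Type} (L : Finset α) (σ : α → ℝ) (r ε : ℝ) (hε : 0 < ε) (hε1 : ε ≤ 1 / 2)
    (hdich : ∀ l ∈ L, ∀ l' ∈ L, r * |σ l - σ l'| < ε ∨ 1 / ε < r * |σ l - σ l'|) :
    ∃ rep : α → α, (∀ l ∈ L, rep l ∈ L ∧ r * |σ l - σ (rep l)| < ε) ∧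
      ∀ l ∈ L, ∀ l' ∈ L, rep l ≠ rep l' → 1 / ε < r * |σ (rep l) - σ (rep l')| := by
  classical
  have hinv : 2 ≤ 1 / ε := by
    rw [le_div_iff₀ hε]; linarith
  have hsymm : ∀ a b : α, r * |σ a - σ b| = r * |σ b - σ a| := fun a b => by rw [abs_sub_comm]
  have htri : ∀ a b c : α, r * |σ a - σ b| < ε → r * |σ b - σ c| < ε → r * |σ a - σ c| < 2 * ε := by
    intro a b c h1 h2
    rcases le_or_gt 0 r with hr | hr
    · have h3 : |σ a - σ c| ≤ |σ a - σ b| + |σ b - σ c| := abs_sub_le _ _ _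
      have h4 := mul_le_mul_of_nonneg_left h3 hr
      linarith
    · have h3 : r * |σ a - σ c| ≤ 0 := mul_nonpos_of_nonpos_of_nonneg hr.le (abs_nonneg _)
      linarith
  have htrans : ∀ a ∈ L, ∀ b : α, ∀ c ∈ L, r * |σ a - σ b| < ε → r * |σ b - σ c| < ε →
      r * |σ a - σ c| < ε := by
    intro a ha b c hc h1 h2
    rcases hdich a ha c hc with h | h
    · exact h
    · have := htri a b c h1 h2
      linarith
  let cls : α → Finset α := fun l => L.filter (fun l' => r * |σ l - σ l'| < ε)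
  have hmem : ∀ l l', l' ∈ cls l ↔ l' ∈ L ∧ r * |σ l - σ l'| < ε := fun l l' => Finset.mem_filter
  have hne : ∀ l ∈ L, (cls l).Nonempty := fun l hl => ⟨l, (hmem l l).2 ⟨hl, by simpa using hε⟩⟩
  let pick : Finset α → α → α := fun S d => if h : S.Nonempty then h.choose else d
  have hpick : ∀ (S : Finset α) (d : α), S.Nonempty → pick S d ∈ S := by
    intro S d h
    simp only [pick, dif_pos h]
    exact h.choose_spec
  have hpick2 : ∀ (S : Finset α) (d d' : α), S.Nonempty → pick S d = pick S d' := by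
    intro S d d' h
    simp only [pick, dif_pos h]
  have hcls : ∀ a ∈ L, ∀ b ∈ L, r * |σ a - σ b| < ε → cls a = cls b := by
    intro a ha b hb hab
    ext c
    rw [hmem, hmem]
    constructor
    · rintro ⟨hc, h⟩
      exact ⟨hc, htrans b hb a c hc (by rw [hsymm]; exact hab) h⟩
    · rintro ⟨hc, h⟩
      exact ⟨hc, htrans a ha b c hc hab h⟩
  have hrep : ∀ l ∈ L, pick (cls l) l ∈ L ∧ r * |σ l - σ (pick (cls l) l)| < ε := fun l hl =>
    (hmem l _).1 (hpick _ l (hne l hl))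
  refine ⟨fun l => pick (cls l) l, hrep, ?_⟩
  intro l hl l' hl' hne'
  rcases hdich _ (hrep l hl).1 _ (hrep l' hl').1 with h | h
  · exfalso
    apply hne'
    have h1 : r * |σ l - σ (pick (cls l') l')| < ε :=
      htrans l hl _ _ (hrep l' hl').1 (hrep l hl).2 h
    have h2 : r * |σ l - σ l'| < ε :=
      htrans l hl _ l' hl' h1 (by rw [hsymm]; exact (hrep l' hl').2)
    change pick (cls l) l = pick (cls l') l'
    rw [hcls l hl l' hl' h2]
    exact hpick2 _ _ _ (hne l' hl')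
  · exact h

end CLA

section CLB

theorem s5a_zeta_smooth : ContDiff ℝ ∞ s4a_zeta := by
  unfold s4a_zeta
  exact (Real.smoothTransition.contDiff.comp (contDiff_const.sub contDiff_id)).mul
    (Real.smoothTransition.contDiff.comp (contDiff_const.add contDiff_id))

theorem s5a_zeta_nonneg (u : ℝ) : 0 ≤ s4a_zeta u :=
  mul_nonneg (Real.smoothTransition.nonneg _) (Real.smoothTransition.nonneg _)

theorem s5a_zeta_le_one (u : ℝ) : s4a_zeta u ≤ 1 :=
  mul_le_one₀ (Real.smoothTransition.le_one _) (Real.smoothTransition.nonneg _) (Real.smoothTransition.le_one _)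

theorem s5a_zeta_eq_one {u : ℝ} (h : |u| ≤ 1) : s4a_zeta u = 1 := by
  have h' := abs_le.1 h
  unfold s4a_zeta
  rw [Real.smoothTransition.one_of_one_le (by linarith [h'.2]), Real.smoothTransition.one_of_one_le (by linarith [h'.1]),
    one_mul]

theorem s5a_zeta_eq_zero {u : ℝ} (h : 2 ≤ |u|) : s4a_zeta u = 0 := by
  unfold s4a_zeta
  rcases le_abs.1 h with h1 | h1
  · rw [Real.smoothTransition.zero_of_nonpos (by linarith), zero_mul]
  · rw [Real.smoothTransition.zero_of_nonpos (x := 2 + u) (by linarith), mul_zero]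

theorem s5a_zeta_zero_off {u : ℝ} (hu : u ∉ Set.Icc (-(2 : ℝ)) 2) : s4a_zeta u = 0 := by
  apply s5a_zeta_eq_zero
  by_contra hcon
  push Not at hcon
  exact hu (abs_le.1 hcon.le)

theorem s5a_zeta_hasCompactSupport : HasCompactSupport s4a_zeta :=
  HasCompactSupport.of_support_subset_isCompact (isCompact_Icc (a := -(2 : ℝ)) (b := 2)) fun u hu => by
    by_contra hcon
    exact hu (s5a_zeta_zero_off hcon)

theorem s5a_zeta_integrable : Integrable s4a_zeta volume :=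
  s5a_zeta_smooth.continuous.integrable_of_hasCompactSupport s5a_zeta_hasCompactSupport

theorem s5a_zeta_int : 2 ≤ ∫ u, s4a_zeta u ∧ ∫ u, s4a_zeta u ≤ 4 := by
  constructor
  · have hi : Integrable ((Set.Icc (-(1 : ℝ)) 1).indicator fun _ : ℝ => (1 : ℝ)) :=
      (integrable_indicator_iff measurableSet_Icc).2 (integrableOn_const (by simp))
    have h1 : ∫ p, (Set.Icc (-(1 : ℝ)) 1).indicator (fun _ : ℝ => (1 : ℝ)) p ≤ ∫ p, s4a_zeta p := by
      refine integral_mono hi s5a_zeta_integrable fun p => ?_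
      by_cases hp : p ∈ Set.Icc (-(1 : ℝ)) 1
      · simp only [Set.indicator_of_mem hp]
        rw [s5a_zeta_eq_one (abs_le.2 hp)]
      · simp only [Set.indicator_of_notMem hp]
        exact s5a_zeta_nonneg p
    rw [integral_indicator measurableSet_Icc, setIntegral_const, Real.volume_real_Icc_of_le (by norm_num)] at h1
    norm_num at h1
    linarith
  · have hi : Integrable ((Set.Icc (-(2 : ℝ)) 2).indicator fun _ : ℝ => (1 : ℝ)) :=
      (integrable_indicator_iff measurableSet_Icc).2 (integrableOn_const (by simp))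
    have h1 : ∫ p, s4a_zeta p ≤ ∫ p, (Set.Icc (-(2 : ℝ)) 2).indicator (fun _ : ℝ => (1 : ℝ)) p := by
      refine integral_mono s5a_zeta_integrable hi fun p => ?_
      by_cases hp : p ∈ Set.Icc (-(2 : ℝ)) 2
      · simp only [Set.indicator_of_mem hp]
        exact s5a_zeta_le_one p
      · simp only [Set.indicator_of_notMem hp]
        exact (s5a_zeta_zero_off hp).le
    rw [integral_indicator measurableSet_Icc, setIntegral_const, Real.volume_real_Icc_of_le (by norm_num)] at h1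
    norm_num at h1
    linarith

theorem s5a_ee_lin_cont (c : ℝ) : Continuous fun u : ℝ => ee (c * u) := wy_ee_continuous.comp (by fun_prop)

/-- continuous factor times `ζ` is integrable -/
theorem s5a_zeta_mul_integrable {F : ℝ → ℂ} (hF : Continuous F) : Integrable (fun u : ℝ => F u * (s4a_zeta u : ℂ)) volume := by
  apply Continuous.integrable_of_hasCompactSupport
  · exact hF.mul (Complex.continuous_ofReal.comp s5a_zeta_smooth.continuous)
  · refine HasCompactSupport.of_support_subset_isCompact (isCompact_Icc (a := -(2 : ℝ)) (b := 2)) fun u hu => ?_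
    by_contra hcon
    exact hu (by simp only [s5a_zeta_zero_off hcon, Complex.ofReal_zero, mul_zero])

theorem s5a_zeta_hat : ∃ Cζ : ℝ, 0 ≤ Cζ ∧ ∀ x : ℝ, x ≠ 0 → ‖∫ u : ℝ, (s4a_zeta u : ℂ) * ee (x * u)‖ ≤ Cζ / |x| := by
  have hdc : Continuous (deriv s4a_zeta) := s5a_zeta_smooth.continuous_deriv (by simp)
  have hds : HasCompactSupport (deriv s4a_zeta) := s5a_zeta_hasCompactSupport.deriv
  have hdi : Integrable (deriv s4a_zeta) := hdc.integrable_of_hasCompactSupport hds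
  refine ⟨∫ u, ‖deriv s4a_zeta u‖, integral_nonneg fun _ => norm_nonneg _, fun x hx => ?_⟩
  set κ : ℂ := 2 * Real.pi * (x : ℝ) * Complex.I with hκ
  have hκ0 : κ ≠ 0 := by
    have h1 : ((x : ℝ) : ℂ) ≠ 0 := by exact_mod_cast hx
    have h2 : (Real.pi : ℂ) ≠ 0 := by exact_mod_cast Real.pi_ne_zero
    exact mul_ne_zero (mul_ne_zero (mul_ne_zero two_ne_zero h2) h1) Complex.I_ne_zero
  have hκn : ‖κ‖ = 2 * Real.pi * |x| := by
    rw [hκ, norm_mul, norm_mul, norm_mul, Complex.norm_I, Complex.norm_real, Complex.norm_real,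
      Real.norm_of_nonneg Real.pi_pos.le, Real.norm_eq_abs, Complex.norm_ofNat, mul_one]
  have hu : ∀ u : ℝ, HasDerivAt (fun u : ℝ => (s4a_zeta u : ℂ)) ((deriv s4a_zeta u : ℝ) : ℂ) u := fun u =>
    ((s5a_zeta_smooth.differentiable (by simp)).differentiableAt.hasDerivAt).ofReal_comp
  have hv : ∀ u : ℝ, HasDerivAt (fun u : ℝ => ee (x * u) / κ) (ee (x * u)) u := by
    intro u
    have g1 : HasDerivAt (fun y : ℝ => x * y) x u := by simpa using (hasDerivAt_id u).const_mul x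
    have g2 := (HasDerivAt.scomp (g₁ := ee) (h := fun y : ℝ => x * y) u (gev_ee_hasDerivAt (x * u)) g1).div_const κ
    refine g2.congr_deriv ?_
    rw [Complex.real_smul]
    have e : (x : ℂ) * (2 * Real.pi * Complex.I * ee (x * u)) = ee (x * u) * κ := by rw [hκ]; ring
    rw [e, mul_div_assoc, div_self hκ0, mul_one]
  have hcs : ∀ {F G : ℝ → ℂ}, Continuous F → Continuous G → HasCompactSupport F → Integrable (F * G) := by
    intro F G hF hG hs
    exact (hF.mul hG).integrable_of_hasCompactSupport hs.mul_right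
  have hzc : Continuous fun u : ℝ => (s4a_zeta u : ℂ) := Complex.continuous_ofReal.comp s5a_zeta_smooth.continuous
  have hzs : HasCompactSupport fun u : ℝ => (s4a_zeta u : ℂ) :=
    s5a_zeta_hasCompactSupport.comp_left (g := fun t : ℝ => (t : ℂ)) Complex.ofReal_zero
  have hdc' : Continuous fun u : ℝ => ((deriv s4a_zeta u : ℝ) : ℂ) := Complex.continuous_ofReal.comp hdc
  have hds' : HasCompactSupport fun u : ℝ => ((deriv s4a_zeta u : ℝ) : ℂ) :=
    hds.comp_left (g := fun t : ℝ => (t : ℂ)) Complex.ofReal_zero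
  have hec : Continuous fun u : ℝ => ee (x * u) := s5a_ee_lin_cont x
  have key := integral_mul_deriv_eq_deriv_mul_of_integrable
    (u := fun u : ℝ => (s4a_zeta u : ℂ)) (v := fun u : ℝ => ee (x * u) / κ)
    (u' := fun u : ℝ => ((deriv s4a_zeta u : ℝ) : ℂ)) (v' := fun u : ℝ => ee (x * u))
    (fun u _ => hu u) (fun u _ => hv u) (hcs hzc hec hzs) (hcs hdc' (hec.div_const κ) hds')
    (hcs hzc (hec.div_const κ) hzs)
  rw [key, norm_neg]
  have hx' : 0 < |x| := abs_pos.2 hx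
  calc ‖∫ u : ℝ, ((deriv s4a_zeta u : ℝ) : ℂ) * (ee (x * u) / κ)‖
      ≤ ∫ u : ℝ, ‖deriv s4a_zeta u‖ * (1 / |x|) := by
        refine norm_integral_le_of_norm_le (hdi.norm.mul_const _) (Filter.Eventually.of_forall fun u => ?_)
        rw [norm_mul, norm_div, wy_ee_norm, Complex.norm_real, hκn]
        apply mul_le_mul_of_nonneg_left _ (norm_nonneg _)
        apply one_div_le_one_div_of_le hx'
        have : 1 ≤ 2 * Real.pi := by have := Real.pi_gt_three; linarith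
        nlinarith
    _ = (∫ u, ‖deriv s4a_zeta u‖) / |x| := by rw [integral_mul_const]; ring

theorem s5a_AInt_le (Q : ℝ → ℂ) (hb : ∀ t, ‖Q t‖ ≤ 1) (r ξ : ℝ) : ‖s4a_AInt Q r ξ‖ ≤ 4 := by
  unfold s4a_AInt
  refine (norm_integral_le_of_norm_le s5a_zeta_integrable (Filter.Eventually.of_forall fun u => ?_)).trans s5a_zeta_int.2
  rw [norm_mul, norm_mul, wy_ee_norm, mul_one, Complex.norm_real, Real.norm_of_nonneg (s5a_zeta_nonneg u)]
  calc ‖Q (r * u)‖ * s4a_zeta u ≤ 1 * s4a_zeta u := mul_le_mul_of_nonneg_right (hb _) (s5a_zeta_nonneg u)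
    _ = s4a_zeta u := one_mul _

theorem s5a_AInt_le_Ar (Q : ℝ → ℂ) (hb : ∀ t, ‖Q t‖ ≤ 1) (r ξ : ℝ) : ‖s4a_AInt Q r ξ‖ ≤ s4a_Ar Q r :=
  le_ciSup (f := fun ξ : ℝ => ‖s4a_AInt Q r ξ‖) ⟨4, by rintro _ ⟨ξ, rfl⟩; exact s5a_AInt_le Q hb r ξ⟩ ξ

theorem s5a_Ar_nonneg (Q : ℝ → ℂ) (r : ℝ) : 0 ≤ s4a_Ar Q r := Real.iSup_nonneg fun _ => norm_nonneg _

theorem s5a_Ar_le (Q : ℝ → ℂ) (hb : ∀ t, ‖Q t‖ ≤ 1) (r : ℝ) : s4a_Ar Q r ≤ 4 := ciSup_le fun ξ => s5a_AInt_le Q hb r ξ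

theorem s5a_exists_of_lt_Ar (Q : ℝ → ℂ) (r δ : ℝ) (h : δ < s4a_Ar Q r) : ∃ ξ, δ < ‖s4a_AInt Q r ξ‖ :=
  exists_lt_of_lt_ciSup h

/-- **every clump coefficient is `O(A_r)`** -/
theorem s5a_coef_bound : ∃ Cζ : ℝ, 0 ≤ Cζ ∧ ∀ (Q : ℝ → ℂ), Continuous Q → (∀ t, ‖Q t‖ ≤ 1) → ∀ (r ε η : ℝ), 0 < r → 0 < ε →
    ∀ (Γ : Finset ℝ) (c : ℝ → ℂ), (∀ γ ∈ Γ, ∀ γ' ∈ Γ, γ ≠ γ' → 1 / ε ≤ r * |γ - γ'|) →
      (∀ t, |t| ≤ 2 * r → ‖Q t - ∑ γ ∈ Γ, c γ * ee (γ * t)‖ ≤ η) →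
      ∀ γ₀ ∈ Γ, 2 * ‖c γ₀‖ ≤ s4a_Ar Q r + 4 * η + Cζ * ε * ∑ γ ∈ Γ, ‖c γ‖ := by
  obtain ⟨Cζ, hC0, hC⟩ := s5a_zeta_hat
  refine ⟨Cζ, hC0, fun Q hQ hb r ε η hr hε Γ c hsep happ γ₀ hγ₀ => ?_⟩
  have hη0 : 0 ≤ η := (norm_nonneg _).trans (happ 0 (by simp [hr.le]))
  set Z : ℝ := ∫ u, s4a_zeta u with hZ
  obtain ⟨hZ2, hZ4⟩ := s5a_zeta_int
  set G : ℝ → ℂ := fun t => ∑ γ ∈ Γ, c γ * ee (γ * t) with hG
  have hGc : Continuous G := continuous_finsetSum _ fun γ _ => continuous_const.mul (s5a_ee_lin_cont γ)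
  have hru : Continuous fun u : ℝ => r * u := by fun_prop
  -- the two pieces
  have hI1 : Integrable (fun u : ℝ => G (r * u) * (s4a_zeta u : ℂ) * ee (-(r * γ₀ * u))) volume := by
    have := s5a_zeta_mul_integrable (F := fun u => G (r * u) * ee (-(r * γ₀ * u)))
      ((hGc.comp hru).mul (wy_ee_continuous.comp (by fun_prop)))
    refine this.congr (Filter.Eventually.of_forall fun u => ?_)
    simp only
    ring
  have hI2 : Integrable (fun u : ℝ => (Q (r * u) - G (r * u)) * (s4a_zeta u : ℂ) * ee (-(r * γ₀ * u))) volume := by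
    have := s5a_zeta_mul_integrable (F := fun u => (Q (r * u) - G (r * u)) * ee (-(r * γ₀ * u)))
      (((hQ.comp hru).sub (hGc.comp hru)).mul (wy_ee_continuous.comp (by fun_prop)))
    refine this.congr (Filter.Eventually.of_forall fun u => ?_)
    simp only
    ring
  have hsplit : s4a_AInt Q r (r * γ₀) = (∫ u : ℝ, G (r * u) * (s4a_zeta u : ℂ) * ee (-(r * γ₀ * u)))
      + ∫ u : ℝ, (Q (r * u) - G (r * u)) * (s4a_zeta u : ℂ) * ee (-(r * γ₀ * u)) := by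
    unfold s4a_AInt
    rw [← integral_add hI1 hI2]
    refine integral_congr_ae (Filter.Eventually.of_forall fun u => ?_)
    simp only
    ring
  have hsecond : ‖∫ u : ℝ, (Q (r * u) - G (r * u)) * (s4a_zeta u : ℂ) * ee (-(r * γ₀ * u))‖ ≤ 4 * η := by
    calc _ ≤ ∫ u : ℝ, η * s4a_zeta u := by
          refine norm_integral_le_of_norm_le (s5a_zeta_integrable.const_mul η) (Filter.Eventually.of_forall fun u => ?_)
          rw [norm_mul, norm_mul, wy_ee_norm, mul_one, Complex.norm_real, Real.norm_of_nonneg (s5a_zeta_nonneg u)]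
          by_cases hu : 2 ≤ |u|
          · rw [s5a_zeta_eq_zero hu, mul_zero, mul_zero]
          · push Not at hu
            apply mul_le_mul_of_nonneg_right _ (s5a_zeta_nonneg u)
            apply happ
            rw [abs_mul, abs_of_pos hr, mul_comm]
            exact mul_le_mul_of_nonneg_right hu.le hr.le
      _ = η * Z := integral_const_mul _ _
      _ ≤ 4 * η := by nlinarith
  have hterm : ∀ γ : ℝ, ∫ u : ℝ, c γ * ee (γ * (r * u)) * (s4a_zeta u : ℂ) * ee (-(r * γ₀ * u))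
      = c γ * ∫ u : ℝ, (s4a_zeta u : ℂ) * ee (r * (γ - γ₀) * u) := by
    intro γ
    rw [← integral_const_mul]
    refine integral_congr_ae (Filter.Eventually.of_forall fun u => ?_)
    simp only
    have : r * (γ - γ₀) * u = γ * (r * u) + -(r * γ₀ * u) := by ring
    rw [this, wy_ee_add]
    ring
  have hfirst : ∫ u : ℝ, G (r * u) * (s4a_zeta u : ℂ) * ee (-(r * γ₀ * u))
      = ∑ γ ∈ Γ, c γ * ∫ u : ℝ, (s4a_zeta u : ℂ) * ee (r * (γ - γ₀) * u) := by
    have e : ∀ u : ℝ, G (r * u) * (s4a_zeta u : ℂ) * ee (-(r * γ₀ * u))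
        = ∑ γ ∈ Γ, c γ * ee (γ * (r * u)) * (s4a_zeta u : ℂ) * ee (-(r * γ₀ * u)) := by
      intro u
      rw [hG]
      simp only [Finset.sum_mul]
    simp only [e]
    rw [integral_finsetSum]
    · exact Finset.sum_congr rfl fun γ _ => hterm γ
    · intro γ _
      have := s5a_zeta_mul_integrable (F := fun u => c γ * ee (γ * (r * u)) * ee (-(r * γ₀ * u)))
        ((continuous_const.mul (wy_ee_continuous.comp (by fun_prop))).mul (wy_ee_continuous.comp (by fun_prop)))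
      refine this.congr (Filter.Eventually.of_forall fun u => ?_)
      simp only
      ring
  have hdiag : ∫ u : ℝ, (s4a_zeta u : ℂ) * ee (r * (γ₀ - γ₀) * u) = (Z : ℂ) := by
    simp only [sub_self, mul_zero, zero_mul, wy_ee_zero, mul_one]
    exact integral_complex_ofReal
  have hoff : ∀ γ ∈ Γ.erase γ₀, ‖c γ * ∫ u : ℝ, (s4a_zeta u : ℂ) * ee (r * (γ - γ₀) * u)‖ ≤ Cζ * ε * ‖c γ‖ := by
    intro γ hγ
    obtain ⟨hne, hmem⟩ := Finset.mem_erase.1 hγ
    have hx : r * (γ - γ₀) ≠ 0 := mul_ne_zero hr.ne' (sub_ne_zero.2 hne)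
    have h1 := hC _ hx
    have h2 : 1 / ε ≤ |r * (γ - γ₀)| := by
      rw [abs_mul, abs_of_pos hr]
      exact hsep γ hmem γ₀ hγ₀ hne
    have h3 : Cζ / |r * (γ - γ₀)| ≤ Cζ * ε := by
      rw [div_le_iff₀ (abs_pos.2 hx)]
      have : 1 ≤ ε * |r * (γ - γ₀)| := by
        rw [div_le_iff₀ hε] at h2
        linarith
      nlinarith
    rw [norm_mul, mul_comm]
    exact mul_le_mul_of_nonneg_right (h1.trans h3) (norm_nonneg _)
  have hmain : (Z : ℂ) * c γ₀ = s4a_AInt Q r (r * γ₀)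
      - (∫ u : ℝ, (Q (r * u) - G (r * u)) * (s4a_zeta u : ℂ) * ee (-(r * γ₀ * u)))
      - ∑ γ ∈ Γ.erase γ₀, c γ * ∫ u : ℝ, (s4a_zeta u : ℂ) * ee (r * (γ - γ₀) * u) := by
    rw [hsplit, hfirst, ← Finset.add_sum_erase Γ _ hγ₀, hdiag]
    ring
  have hnorm : Z * ‖c γ₀‖ ≤ s4a_Ar Q r + 4 * η + Cζ * ε * ∑ γ ∈ Γ, ‖c γ‖ := by
    have e0 : Z * ‖c γ₀‖ = ‖(Z : ℂ) * c γ₀‖ := by
      rw [norm_mul, Complex.norm_real, Real.norm_of_nonneg (by linarith)]
    rw [e0, hmain]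
    have s1 : ‖∑ γ ∈ Γ.erase γ₀, c γ * ∫ u : ℝ, (s4a_zeta u : ℂ) * ee (r * (γ - γ₀) * u)‖
        ≤ Cζ * ε * ∑ γ ∈ Γ, ‖c γ‖ := by
      calc _ ≤ ∑ γ ∈ Γ.erase γ₀, ‖c γ * ∫ u : ℝ, (s4a_zeta u : ℂ) * ee (r * (γ - γ₀) * u)‖ := norm_sum_le _ _
        _ ≤ ∑ γ ∈ Γ.erase γ₀, Cζ * ε * ‖c γ‖ := Finset.sum_le_sum hoff
        _ = Cζ * ε * ∑ γ ∈ Γ.erase γ₀, ‖c γ‖ := by rw [Finset.mul_sum]
        _ ≤ Cζ * ε * ∑ γ ∈ Γ, ‖c γ‖ := by
            apply mul_le_mul_of_nonneg_left _ (by positivity)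
            exact Finset.sum_le_sum_of_subset_of_nonneg (Finset.erase_subset _ _) fun _ _ _ => norm_nonneg _
    calc _ ≤ ‖s4a_AInt Q r (r * γ₀) - ∫ u : ℝ, (Q (r * u) - G (r * u)) * (s4a_zeta u : ℂ) * ee (-(r * γ₀ * u))‖
          + ‖∑ γ ∈ Γ.erase γ₀, c γ * ∫ u : ℝ, (s4a_zeta u : ℂ) * ee (r * (γ - γ₀) * u)‖ := norm_sub_le _ _
      _ ≤ (‖s4a_AInt Q r (r * γ₀)‖ + ‖∫ u : ℝ, (Q (r * u) - G (r * u)) * (s4a_zeta u : ℂ) * ee (-(r * γ₀ * u))‖)
          + ‖∑ γ ∈ Γ.erase γ₀, c γ * ∫ u : ℝ, (s4a_zeta u : ℂ) * ee (r * (γ - γ₀) * u)‖ :=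
          add_le_add (norm_sub_le _ _) le_rfl
      _ ≤ s4a_Ar Q r + 4 * η + Cζ * ε * ∑ γ ∈ Γ, ‖c γ‖ :=
          add_le_add (add_le_add (s5a_AInt_le_Ar Q hb r _) hsecond) s1
  have : 2 * ‖c γ₀‖ ≤ Z * ‖c γ₀‖ := mul_le_mul_of_nonneg_right hZ2 (norm_nonneg _)
  linarith

end CLB

end Claimed.Agent.R258
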