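/-
Row 258, block [S5a] (architect helper192).  FILE Str = leaves P-S5a-STR (section STR) and P-S5a-STRF (section STRF).   No paper.
Uses the STATEMENTS of S4a/Expand.lean (`s4a_chart_expand`, `s4a_expand_weighted`), S4a/Ops.lean (`s4a_dil*`), S4a/Single.lean (`s4a_AInt_dil`), S4a/Qp.lean + QpAuto.lean, Clump.lean (`s5a_exists_of_lt_Ar`).

STR (**structure on `|t| ≤ 2 r₁` from one large Fourier integral at the scale `r₁`**; PERSISTENCE: the expansion then serves all finer scales).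
 1. `δ < A_{r₁}` gives `ξ` with `δ < ‖AInt Q.eval r₁ ξ‖` (`s5a_exists_of_lt_Ar`), `= ‖AInt (s4a_dil Q r₁).eval 1 ξ‖` (`s4a_AInt_dil`).  `Q' = s4a_dil Q r₁` has complexity `H` (`s4a_dil_cplx`), and DEFINITIONALLY `Q'.d = Q.d`, `Q'.C = Q.C`,
    `Q'.th i = r₁ * Q.th i`, `Q'.lam = r₁^2 * Q.lam`.
 2. `hW` for `Q'`: `Pf : Matrix (Fin Q.d) (Fin Q.d) ℚ`, projection, isotropic for `Q.C`, `HtLe Pf D₁`, `|((1-Pf)(r₁ θ))_i| ≤ D₁`, `|r₁² λ + quad(r₁ θ)| ≤ D₁`, `D₁ = s4b_qp C_W x`, `x = log H + log (1/δ)`.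
 3. `s4a_chart_expand 1` for `Q` ITSELF with this `Pf` and `B = 2 D₁` (`HtLe` is monotone; `1 ≤ D₁` by `s4a_qp_one_le`): `R = s4a_xR Q.C Pf H B`, coefficients `al`.   `lam := Q.lam + s4a_quad Q.C Pf Q.th`.
    * `s4a_mv` is linear: `s4a_mv P (fun i => r * th i) i = r * s4a_mv P th i` (`Finset.mul_sum`); `s4a_quad` is homogeneous of degree 2: `s4a_quad C P (fun i => r * th i) = r^2 * s4a_quad C P th` (unfold `s4a_quad`, `s4a_bil`; `Finset.mul_sum`, `ring`).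
    * `|lam| r₁² = |r₁² λ + quad(r₁θ)| ≤ D₁`.       * for `|t| ≤ 2 r₁`: `|((1-Pf)θ)_i t| ≤ 2 |r₁ ((1-Pf)θ)_i| ≤ 2 D₁ = B`: the identity of `s4a_chart_expand` is literally `s5a_Str.exp` (`s5a_sig` unfolds to the same sum).
    * `s4a_expand_weighted 1 al X`: `∑' ‖al‖ (1+‖l‖)^((d+1)²) ≤ 4^d X`; `(1+‖l‖) ≤ (1+‖l‖)^((d+1)²)` (`le_self_pow₀`, exponent `≠ 0`); comparison of series (`Summable.of_nonneg_of_le`, `Summable.tsum_le_tsum`).  (`Fintype.card (Fin d) = d`.)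
 4. numerics `s5a_str_num`: by the calculus `s4a_IsQP` (QpAuto.lean; model: `s4a_sep_num` in S4a/Sep.lean): parameters `p = (d,H,δ)`, size `x`; `4^d = exp(d log 4)`, `d ≤ log H ≤ x`;  `log(2 D₁) = log 2 + s4a_pl C₁ x`.
STRF (consequences of `s5a_Str`): elementary manipulations of the absolutely convergent series.
 * `1 ≤ R ≤ D`.    * `‖al l‖ ≤ ‖al l‖ (1+‖l‖)`.     * `l ∉ box T ↔ T < ‖l‖` (`s5a_mem_box'`), then `‖al l‖ ≤ ‖al l‖ (1+‖l‖)/T`.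
 * `s5a_Str.hasSum`: multiply `exp` by `ee(lam t² + β t)` (`HasSum.mul_left`; `ee (x) * ee (-x) = 1`, `ee (x+y) = ee x * ee y`: `s4a_ee_*` in S4a/Br.lean or S4b).
-/
import Claimed.Agent.R258.S5a.Clump
import Claimed.Agent.R258.S5a.Hb
import Claimed.Agent.R258.S4a.Single
import Claimed.Agent.R258.S4a.QpAuto

set_option autoImplicit false
open MeasureTheory
open scoped ENNReal ContDiff ComplexConjugate

namespace Claimed.Agent.R258

section STR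

theorem s5a_str_num (C₁ C₂ : ℕ) : ∃ C : ℕ, ∀ (d : ℕ) (H δ : ℝ), Real.exp 2 ≤ H → (d : ℝ) ≤ Real.log H → 0 < δ → δ < 1 / 2 →
    s4b_qp C₁ (Real.log H + Real.log (1 / δ)) ≤ s4b_qp C (Real.log H + Real.log (1 / δ)) ∧
    s4b_qp C₂ (Real.log H + Real.log (2 * s4b_qp C₁ (Real.log H + Real.log (1 / δ)))) ≤
      s4b_qp C (Real.log H + Real.log (1 / δ)) ∧
    (4 : ℝ) ^ d * s4b_qp C₂ (Real.log H + Real.log (2 * s4b_qp C₁ (Real.log H + Real.log (1 / δ)))) ≤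
      s4b_qp C (Real.log H + Real.log (1 / δ)) := by
  let V : ℕ × ℝ × ℝ → Prop := fun p => Real.exp 2 ≤ p.2.1 ∧ (p.1 : ℝ) ≤ Real.log p.2.1 ∧ 0 < p.2.2 ∧ p.2.2 < 1 / 2
  let x : ℕ × ℝ × ℝ → ℝ := fun p => Real.log p.2.1 + Real.log (1 / p.2.2)
  have hH1 : ∀ p, V p → 1 ≤ p.2.1 := fun p hp => le_trans (Real.one_le_exp (by norm_num)) hp.1
  have hlH : ∀ p, V p → 0 ≤ Real.log p.2.1 := fun p hp => Real.log_nonneg (hH1 p hp)
  have hd1 : ∀ p, V p → 1 ≤ 1 / p.2.2 := fun p hp => by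
    rw [le_div_iff₀ hp.2.2.1]; linarith [hp.2.2.2]
  have hld : ∀ p, V p → 0 ≤ Real.log (1 / p.2.2) := fun p hp => Real.log_nonneg (hd1 p hp)
  have hx : ∀ p, V p → 0 ≤ x p := fun p hp => add_nonneg (hlH p hp) (hld p hp)
  have c : ∀ c : ℝ, 0 ≤ c → s4a_IsQP V x (fun _ => c) := fun c hc => s4a_IsQP.const hx c hc
  have plH : s4a_IsPL V x (fun p => Real.log p.2.1) := (s4a_IsPL.size hx).mono hlH (fun p hp => by
    have := hld p hp
    show Real.log p.2.1 ≤ Real.log p.2.1 + Real.log (1 / p.2.2)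
    linarith)
  have pd : s4a_IsPL V x (fun p => (p.1 : ℝ)) := plH.mono (fun p _ => Nat.cast_nonneg _) (fun p hp => hp.2.1)
  have qD1 : s4a_IsQP V x (fun p => s4b_qp C₁ (Real.log p.2.1 + Real.log (1 / p.2.2))) :=
    s4a_IsQP.comp hx C₁ (s4a_IsPL.size hx)
  have q2D1 := (c 2 (by norm_num)).mul hx qD1
  have pl2D1 := q2D1.log (fun p hp => by
    have := s4a_qp_one_le C₁ (hx p hp)
    show 1 ≤ 2 * s4b_qp C₁ (x p)
    linarith)
  have qX := s4a_IsQP.comp hx C₂ (plH.add hx pl2D1)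
  have q3 := ((c 4 (by norm_num)).pow hx pd).mul hx qX
  obtain ⟨Ca, hCa⟩ := s4a_IsQP.elim₂ hx qD1 qX
  obtain ⟨Cb, hCb⟩ := q3.elim
  refine ⟨max Ca Cb, fun d H δ h1 h2 h3 h4 => ?_⟩
  have hV : V (d, H, δ) := ⟨h1, h2, h3, h4⟩
  exact ⟨le_trans (hCa _ hV).1 (s4a_qp_mono (le_max_left _ _) (hx _ hV) le_rfl),
    le_trans (hCa _ hV).2 (s4a_qp_mono (le_max_left _ _) (hx _ hV) le_rfl),
    le_trans (hCb _ hV) (s4a_qp_mono (le_max_right _ _) (hx _ hV) le_rfl)⟩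

/-- **structure theorem** -/
theorem s5a_str (hW : s4a_Weyl1) : ∃ C : ℕ, ∀ (Q : Chart) (H δ r₁ : ℝ), Q.Cplx H → 0 < δ → δ < 1 / 2 → 0 < r₁ →
    δ < s4a_Ar Q.eval r₁ →
    ∃ (lam : ℝ) (R : ℕ) (al : (Fin Q.d → ℤ) → ℂ), s5a_Str Q (s4b_qp C (Real.log H + Real.log (1 / δ))) r₁ lam R al := by
  obtain ⟨C₁, hC₁⟩ := hW
  obtain ⟨C₂, hC₂⟩ := s4a_chart_expand 1
  obtain ⟨C, hC⟩ := s5a_str_num C₁ C₂
  refine ⟨C, ?_⟩
  intro Q H δ r₁ hQ hδ0 hδ1 hr hA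
  obtain ⟨n1, n2, n3⟩ := hC Q.d H δ hQ.H_ge hQ.dim hδ0 hδ1
  obtain ⟨ξ, hξ⟩ := s5a_exists_of_lt_Ar Q.eval r₁ δ hA
  rw [s4a_AInt_dil] at hξ
  obtain ⟨Pf, hP1, hP2, hP3, hP4, hP5⟩ : ∃ Pf : Matrix (Fin Q.d) (Fin Q.d) ℚ, s4a_IsProj Pf ∧ s4a_Iso Q.C Pf ∧
      s4a_HtLe Pf (s4b_qp C₁ (Real.log H + Real.log (1 / δ))) ∧
      (∀ i : Fin Q.d, |s4a_mv ((1 : Matrix (Fin Q.d) (Fin Q.d) ℚ) - Pf) (fun i : Fin Q.d => r₁ * Q.th i) i| ≤
        s4b_qp C₁ (Real.log H + Real.log (1 / δ))) ∧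
      |r₁ ^ 2 * Q.lam + s4a_quad Q.C Pf (fun i => r₁ * Q.th i)| ≤ s4b_qp C₁ (Real.log H + Real.log (1 / δ)) :=
    hC₁ (s4a_dil Q r₁) H δ (s4a_dil_cplx hQ r₁) hδ0 hδ1 ⟨ξ, hξ.le⟩
  have hH1 : 1 ≤ H := le_trans (Real.one_le_exp (by norm_num)) hQ.H_ge
  have hx0 : 0 ≤ Real.log H + Real.log (1 / δ) :=
    add_nonneg (Real.log_nonneg hH1) (Real.log_nonneg (by rw [le_div_iff₀ hδ0]; linarith))
  have hD1 : 1 ≤ s4b_qp C₁ (Real.log H + Real.log (1 / δ)) := s4a_qp_one_le C₁ hx0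
  generalize s4b_qp C (Real.log H + Real.log (1 / δ)) = D at n1 n2 n3 ⊢
  generalize s4b_qp C₁ (Real.log H + Real.log (1 / δ)) = D₁ at n1 n2 n3 hP3 hP4 hP5 hD1
  obtain ⟨g1, g2, al, g3, g4⟩ := hC₂ Q H (2 * D₁) Pf hQ (by linarith) (fun i j => le_trans (hP3 i j) (by linarith)) hP1 hP2
  have hX0 : 0 < s4b_qp C₂ (Real.log H + Real.log (2 * D₁)) := s4a_qp_pos _ _
  generalize s4b_qp C₂ (Real.log H + Real.log (2 * D₁)) = X at n2 n3 g2 g3 hX0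
  obtain ⟨w1, w2⟩ := s4a_expand_weighted 1 al X hX0.le (by simpa using g3)
  rw [Fintype.card_fin] at w1 w2
  have hth : (fun i => r₁ * Q.th i) = fun i => Q.th i * r₁ := by
    funext i
    ring
  have hle : ∀ l : Fin Q.d → ℤ, ‖al l‖ * (1 + ‖l‖) ≤ ‖al l‖ * (1 + ‖l‖) ^ (1 * (Q.d + 1) ^ 2) := by
    intro l
    apply mul_le_mul_of_nonneg_left _ (norm_nonneg _)
    exact le_self_pow₀ (by linarith [norm_nonneg l]) (by positivity)
  have hs : Summable fun l => ‖al l‖ * (1 + ‖l‖) :=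
    Summable.of_nonneg_of_le (fun l => by positivity) hle w1
  refine ⟨Q.lam + s4a_quad Q.C Pf Q.th, s4a_xR Q.C Pf H (2 * D₁), al, ?_, g1, le_trans g2 n2, hs,
    le_trans (hs.tsum_le_tsum hle w1) (le_trans w2 n3), ?_⟩
  · have h5 := hP5
    rw [hth, s4a_quad_mul_right] at h5
    have e2 : r₁ ^ 2 * Q.lam + s4a_quad Q.C Pf Q.th * r₁ ^ 2 = (Q.lam + s4a_quad Q.C Pf Q.th) * r₁ ^ 2 := by ring
    rw [e2, abs_mul, abs_of_nonneg (by positivity : (0 : ℝ) ≤ r₁ ^ 2)] at h5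
    exact le_trans h5 n1
  · intro t ht
    have h6 := g4 t (fun i => by
      have h4 := hP4 i
      rw [hth, s4a_mv_mul_right] at h4
      have h4' : |s4a_mv (1 - Pf) Q.th i| * r₁ ≤ D₁ := by
        rw [abs_mul, abs_of_pos hr] at h4
        exact h4
      rw [abs_mul]
      have h7 := abs_nonneg (s4a_mv (1 - Pf) Q.th i)
      calc |s4a_mv (1 - Pf) Q.th i| * |t| ≤ |s4a_mv (1 - Pf) Q.th i| * (2 * r₁) := by gcongr
        _ = 2 * (|s4a_mv (1 - Pf) Q.th i| * r₁) := by ring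
        _ ≤ 2 * D₁ := by linarith)
    exact h6

end STR

section STRF
variable {Q : Chart} {D r₁ lam : ℝ} {R : ℕ} {al : (Fin Q.d → ℤ) → ℂ}

theorem s5a_Str.one_le (h : s5a_Str Q D r₁ lam R al) : 1 ≤ D := by
  have h1 : (1 : ℝ) ≤ R := by exact_mod_cast h.R_pos
  exact h1.trans h.R_le

theorem s5a_Str.summ0 (h : s5a_Str Q D r₁ lam R al) : Summable fun l => ‖al l‖ := by
  refine Summable.of_nonneg_of_le (fun l => norm_nonneg _) (fun l => ?_) h.summ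
  have h1 : 0 ≤ ‖al l‖ * ‖l‖ := by positivity
  linarith

theorem s5a_Str.sum0_le (h : s5a_Str Q D r₁ lam R al) : ∑' l, ‖al l‖ ≤ D := by
  have hs : Summable fun l => ‖al l‖ := by
    refine Summable.of_nonneg_of_le (fun l => norm_nonneg _) (fun l => ?_) h.summ
    have h1 : 0 ≤ ‖al l‖ * ‖l‖ := by positivity
    linarith
  refine (Summable.tsum_le_tsum (fun l => ?_) hs h.summ).trans h.sum_le
  have h1 : 0 ≤ ‖al l‖ * ‖l‖ := by positivity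
  linarith

theorem s5a_Str.box_le (h : s5a_Str Q D r₁ lam R al) (S : Finset (Fin Q.d → ℤ)) : ∑ l ∈ S, ‖al l‖ ≤ D := by
  have hs : Summable fun l => ‖al l‖ := by
    refine Summable.of_nonneg_of_le (fun l => norm_nonneg _) (fun l => ?_) h.summ
    have h1 : 0 ≤ ‖al l‖ * ‖l‖ := by positivity
    linarith
  have h2 : ∑' l, ‖al l‖ ≤ D := by
    refine (Summable.tsum_le_tsum (fun l => ?_) hs h.summ).trans h.sum_le
    have h1 : 0 ≤ ‖al l‖ * ‖l‖ := by positivity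
    linarith
  exact (hs.sum_le_tsum S (fun l _ => norm_nonneg _)).trans h2

theorem s5a_Str.tail_summ (h : s5a_Str Q D r₁ lam R al) (T : ℕ) :
    Summable fun l => ‖(if l ∈ s5a_box Q.d T then 0 else al l : ℂ)‖ := by
  refine Summable.of_nonneg_of_le (fun l => norm_nonneg _) (fun l => ?_) h.summ
  have h1 : 0 ≤ ‖al l‖ * ‖l‖ := by positivity
  split_ifs
  · rw [norm_zero]; positivity
  · linarith

theorem s5a_Str.tail_le (h : s5a_Str Q D r₁ lam R al) (T : ℕ) (hT : 1 ≤ T) :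
    ∑' l, ‖(if l ∈ s5a_box Q.d T then 0 else al l : ℂ)‖ ≤ D / T := by
  have hT0 : (0 : ℝ) < T := by exact_mod_cast hT
  have hs : Summable fun l => ‖(if l ∈ s5a_box Q.d T then 0 else al l : ℂ)‖ := by
    refine Summable.of_nonneg_of_le (fun l => norm_nonneg _) (fun l => ?_) h.summ
    have h1 : 0 ≤ ‖al l‖ * ‖l‖ := by positivity
    split_ifs
    · rw [norm_zero]; positivity
    · linarith
  have hs2 : Summable fun l => ‖al l‖ * (1 + ‖l‖) / T := h.summ.div_const _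
  have h2 : ∑' l, ‖al l‖ * (1 + ‖l‖) / T ≤ D / T := by
    rw [tsum_div_const]
    exact div_le_div_of_nonneg_right h.sum_le hT0.le
  refine (Summable.tsum_le_tsum (fun l => ?_) hs hs2).trans h2
  split_ifs with hl
  · rw [norm_zero]; positivity
  · rw [s5a_mem_box', not_le] at hl
    rw [le_div_iff₀ hT0]
    exact mul_le_mul_of_nonneg_left (by linarith) (norm_nonneg _)

theorem s5a_Str.hasSum (h : s5a_Str Q D r₁ lam R al) {t : ℝ} (ht : |t| ≤ 2 * r₁) :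
    HasSum (fun l => al l * ee (lam * t ^ 2 + (Q.bet + s5a_sig Q R l) * t)) (Q.eval t) := by
  have h1 := (h.exp t ht).mul_left (ee (lam * t ^ 2 + Q.bet * t))
  have h2 : ee (lam * t ^ 2 + Q.bet * t) * (ee (-(lam * t ^ 2 + Q.bet * t)) * Q.eval t) = Q.eval t := by
    rw [← mul_assoc, ← s4a_ee_add, add_neg_cancel, s4a_ee_zero, one_mul]
  rw [h2] at h1
  refine h1.congr_fun ?_ 
  intro l
  have h3 : lam * t ^ 2 + (Q.bet + s5a_sig Q R l) * t = (lam * t ^ 2 + Q.bet * t) + s5a_sig Q R l * t := by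
    ring
  rw [h3, s4a_ee_add]
  ring

theorem s5a_Str.lam_len (h : s5a_Str Q D r₁ lam R al) {r : ℝ} (h0 : 0 ≤ r) (hr : r ≤ r₁) : |lam| * r ^ 2 ≤ D := by
  refine le_trans ?_ h.lam_le
  exact mul_le_mul_of_nonneg_left (pow_le_pow_left₀ h0 hr 2) (abs_nonneg _)

end STRF

end Claimed.Agent.R258
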